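import Crest.Agent.N221.Fr.Defs
import Crest.Agent.N221.A1.PDefs

/-!
Row 221, block NB (no branching; notes h28-2, h57-5, h41-3): definitions and statements.

`P` = unit vectors of the cover, `Mv T` = deck map after the time `T` flow, `ξ, η` end points,
`s, u` Busemann levels (`Dyn`).  `Ψ : Z → P` is a flow box about the periodic point `z₀`,
`ι, ζ, ν` are the lifted basic frames of `I ⊇ Y_s` and `Y_u` (`Frs`, `Box`).  The analytic core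
(`NC`, `Ni.PolyS`) enters through the single field `Box.pol`.
MAIN STATEMENT `NoS : Dyn → Box → False`.
-/

set_option autoImplicit false

open Set Metric Filter Topology
open scoped ContDiff

noncomputable section

namespace Crest.Agent.N221.NB

/-- polynomial curves of degree `≤ N` -/
def Poly {V : Type} [NormedAddCommGroup V] [NormedSpace ℝ V] (N : ℕ) (w : ℝ → V) : Prop :=
  ∃ c : ℕ → V, ∀ τ, w τ = ∑ i ∈ Finset.range (N + 1), τ ^ i • c i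

/-- the dynamical data -/
structure Dat (P Y : Type) where
  Mv : ℝ → Set (Equiv.Perm P)
  ξ : P → Y
  η : P → Y
  s : P → ℝ
  u : P → ℝ

/-- same strong stable leaf -/
def Dat.Ss {P Y : Type} (d : Dat P Y) (p q : P) : Prop := d.ξ p = d.ξ q ∧ d.s p = d.s q

/-- the dynamics -/
structure Dyn {P Y : Type} [MetricSpace P] [MetricSpace Y] (d : Dat P Y) (a : ℝ) : Prop where
  a_pos : 0 < a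
  one : 1 ∈ d.Mv 0
  mul : ∀ S T, ∀ f ∈ d.Mv S, ∀ f' ∈ d.Mv T, f * f' ∈ d.Mv (S + T)
  inv : ∀ T, ∀ f ∈ d.Mv T, f⁻¹ ∈ d.Mv (-T)
  cont : ∀ T, ∀ f ∈ d.Mv T, Continuous f
  ss : ∀ T, ∀ f ∈ d.Mv T, ∀ p q, d.Ss p q → d.Ss (f p) (f q)
  cs : ∀ r : ℝ, ∃ K > 0, ∀ T, 0 ≤ T → ∀ f ∈ d.Mv T, ∀ p q, d.Ss p q → dist p q ≤ r →
    dist (f p) (f q) ≤ K * Real.exp (-(a * T)) * dist p q
  node : ∀ o : P, ∀ V ∈ 𝓝 o, ∃ K s₀ : ℝ, 0 < K ∧ ∀ p T, 0 ≤ T →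
    ∃ q, dist p q ≤ K * Real.exp (-(a * T)) ∧ ∃ T₁ ∈ Icc T (T + s₀), ∃ f ∈ d.Mv T₁, f q ∈ V
  fin : ∀ δ > 0, ∃ C ρ : ℝ, 0 < ρ ∧ ∀ T, ∀ f ∈ d.Mv T, ∀ p q, dist (f p) (f q) ≤ ρ →
    δ ≤ dist (d.ξ q) (d.η p) → |d.s q + d.u p| ≤ C
  prop : ∀ (o : P) (r : ℝ), ∃ R : ℝ, ∀ p, |d.s p| ≤ r → |d.u p| ≤ r → dist p o ≤ R
  cξ : Continuous d.ξ
  cs' : Continuous d.s

section frames

variable {Z GI Gs Gu : Type} [NormedAddCommGroup Z] [NormedSpace ℝ Z] [NormedAddCommGroup GI]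
  [NormedSpace ℝ GI] [NormedAddCommGroup Gs] [NormedSpace ℝ Gs] [NormedAddCommGroup Gu]
  [NormedSpace ℝ Gu]

/-- `d (Ω (X g, ·)) (v, ·) = 0` at `z` -/
def Bas (Ω : Z →L[ℝ] Z →L[ℝ] ℝ) (X : Z → GI →L[ℝ] Z) (z v : Z) : Prop :=
  ∀ g w, Ω (fderiv ℝ X z v g) w = Ω (fderiv ℝ X z w g) v

/-- `L` maps the range of `X` into the range of `X'` -/
def Rg (L : Z →L[ℝ] Z) (X X' : GI →L[ℝ] Z) : Prop := ∀ g, ∃ g', L (X g) = X' g'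

/-- BASIC FRAMES in a symplectic chart (output of block Fr) -/
structure Fr0 (Ω : Z →L[ℝ] Z →L[ℝ] ℝ) (U : Set Z) (ι : Z → GI →L[ℝ] Z) (ζ : Z → Gs →L[ℝ] Z)
    (ν : Z → Gu →L[ℝ] Z) : Prop where
  opn : IsOpen U
  sι : ContDiffOn ℝ ∞ ι U
  sζ : ContDiffOn ℝ ∞ ζ U
  sν : ContDiffOn ℝ ∞ ν U
  iι : ∀ z ∈ U, Function.Injective (ι z)
  iζ : ∀ z ∈ U, Function.Injective (ζ z)
  iν : ∀ z ∈ U, Function.Injective (ν z)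
  sub : ∀ z ∈ U, ∀ g, ∃ g', ζ z g = ι z g'
  iso : ∀ z ∈ U, ∀ g g', Ω (ι z g) (ι z g') = 0
  iso' : ∀ z ∈ U, ∀ g g', Ω (ν z g) (ζ z g') = 0
  bι : ∀ z ∈ U, ∀ g, Bas Ω ι z (ι z g)
  bζ : ∀ z ∈ U, ∀ g, Bas Ω ζ z (ν z g)
  bν : ∀ z ∈ U, ∀ g, Bas Ω ν z (ζ z g)

/-- lifted frames; `Ω` may be degenerate -/
structure Frs (Ω : Z →L[ℝ] Z →L[ℝ] ℝ) (U : Set Z) (ι : Z → GI →L[ℝ] Z) (ζ : Z → Gs →L[ℝ] Z)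
    (ν : Z → Gu →L[ℝ] Z) : Prop where
  skew : ∀ v w, Ω v w = -Ω w v
  opn : IsOpen U
  sι : ContDiffOn ℝ ∞ ι U
  sζ : ContDiffOn ℝ ∞ ζ U
  sν : ContDiffOn ℝ ∞ ν U
  nd : ∀ z ∈ U, ∀ g, (∀ w, Ω (ι z g) w = 0) → g = 0
  iζ : ∀ z ∈ U, Function.Injective (ζ z)
  iν : ∀ z ∈ U, Function.Injective (ν z)
  sub : ∀ z ∈ U, ∀ g, ∃ g', ζ z g = ι z g'
  iso : ∀ z ∈ U, ∀ g g', Ω (ι z g) (ι z g') = 0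
  bι : ∀ z ∈ U, ∀ g, Bas Ω ι z (ι z g)
  bν : ∀ z ∈ U, ∀ g, Bas Ω ν z (ζ z g)
  cι : ∀ z ∈ U, ∀ g g', fderiv ℝ ι z (ι z g) g' = fderiv ℝ ι z (ι z g') g
  cν : ∀ z ∈ U, ∀ g g', fderiv ℝ ν z (ζ z g) g' = fderiv ℝ ζ z (ν z g') g

/-- horizontal lift for the contact form `ds + β z` -/
def lift (β : Z →L[ℝ] Z →L[ℝ] ℝ) (X : Z → GI →L[ℝ] Z) (z : Z × ℝ) : GI →L[ℝ] Z × ℝ :=
  (X z.1).prod (-(β z.1 ∘L X z.1))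

/-- pull back of a bilinear form to `Z × ℝ` -/
def pull (Ω : Z →L[ℝ] Z →L[ℝ] ℝ) : Z × ℝ →L[ℝ] Z × ℝ →L[ℝ] ℝ :=
  Ω.bilinearComp (ContinuousLinearMap.fst ℝ Z ℝ) (ContinuousLinearMap.fst ℝ Z ℝ)

/-- the development `v` at the leaf point `J (y, w)` points along `Y_s` -/
def Tan (ι : Z → GI →L[ℝ] Z) (ζ : Z → Gs →L[ℝ] Z) (J : Z × GI → Z) (y : Z) (w v : GI) : Prop :=
  ∃ g, ι (J (y, w)) v = ζ (J (y, w)) g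

variable {P Y : Type} [MetricSpace P] [MetricSpace Y]

/-- THE POLYGON (abstract form of `N221.PolyS`, file `Ni/Defs`) -/
def Pol (d : Dat P Y) (U : Set Z) (ν : Z → Gu →L[ℝ] Z) (Ψ : Z → P) (z₀ : Z) : Prop :=
  ∃ ρ : ℝ, 0 < ρ ∧ ∀ r : ℝ, r ≤ ρ → closedBall z₀ r ⊆ U →
  ∀ (τ₀ c₁ g K ε : ℝ) (b : ℕ → ℝ), 0 < τ₀ → τ₀ ≤ 1 → 0 < c₁ → 0 < g → 0 < ε →
  ∃ T₀ : ℝ, ∀ T, T₀ ≤ T → ∀ (k : ℕ) (F : ℕ → Equiv.Perm P) (t : ℕ → ℝ) (c : ℕ → ℝ → P)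
    (e z : ℕ → ℝ → Z), k * Real.exp (-(c₁ * T)) ≤ K →
    (∀ i ≤ k, F i ∈ d.Mv (t i) ∧ |t i - T| ≤ K ∧
      (∀ τ ∈ Icc (0 : ℝ) 1, d.Ss (c i 0) (c i τ) ∧ e i τ ∈ closedBall z₀ r ∧
        F i (c i τ) = Ψ (e i τ) ∧ ContDiffAt ℝ ∞ (e i) τ ∧
        ∀ j, 1 ≤ j → ‖iteratedDeriv j (e i) τ‖ ≤ b j * Real.exp (-(g * T)) ^ j) ∧
      ∀ τ ∈ Icc (0 : ℝ) τ₀, z i τ ∈ closedBall z₀ r ∧ c i τ = Ψ (z i τ)) →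
    (∀ i < k, ∀ τ ∈ Icc (0 : ℝ) τ₀, ‖z (i + 1) τ - z i τ‖ ≤ K * Real.exp (-(c₁ * T)) ∧
      ∃ v, ‖z (i + 1) τ - z i τ - ν (z i τ) v‖ ≤ K * Real.exp (-(c₁ * T)) ^ 2) →
    ∃ τ ∈ Icc (0 : ℝ) 1, 1 - ε ≤ τ ∧ ∃ T', ∃ f ∈ d.Mv T', dist (f (c k τ)) (f (c 0 τ)) ≤ ε

/-- the flow box about a periodic point -/
structure Box (d : Dat P Y) (Ω : Z →L[ℝ] Z →L[ℝ] ℝ) (U : Set Z) (ι : Z → GI →L[ℝ] Z)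
    (ζ : Z → Gs →L[ℝ] Z) (ν : Z → Gu →L[ℝ] Z) (Ψ : Z → P) (z₀ : Z) : Prop where
  frs : Frs Ω U ι ζ ν
  ns : Nontrivial Gs
  nu : Nontrivial Gu
  mem : z₀ ∈ U
  cont : ContinuousOn Ψ U
  bil : ∃ K > 0, ∃ V ∈ 𝓝 z₀, ∀ z ∈ V, ∀ z' ∈ V,
    dist (Ψ z) (Ψ z') ≤ K * ‖z - z'‖ ∧ ‖z - z'‖ ≤ K * dist (Ψ z) (Ψ z')
  opn : ∀ V ∈ 𝓝 z₀, Ψ '' V ∈ 𝓝 (Ψ z₀)
  loc : ∀ T, ∀ f ∈ d.Mv T, ∀ z ∈ U, ∀ z' ∈ U, f (Ψ z) = Ψ z' →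
    ∃ h : Z → Z, ContDiffAt ℝ ∞ h z ∧ h z = z' ∧ ∀ᶠ y in 𝓝 z, f (Ψ y) = Ψ (h y) ∧
      (∀ v w, Ω (fderiv ℝ h y v) (fderiv ℝ h y w) = Ω v w) ∧ Rg (fderiv ℝ h y) (ι y) (ι (h y)) ∧
      Rg (fderiv ℝ h y) (ζ y) (ζ (h y))
  leaf : ∀ (c : ℝ → Z) (g : GI), (∀ t ∈ Icc (0 : ℝ) 1, c t ∈ U ∧ HasDerivAt c (ι (c t) g) t) →
    d.Ss (Ψ (c 0)) (Ψ (c 1))
  trv : ∀ (c : ℝ → Z) (g : Gu), g ≠ 0 → c 0 = z₀ → HasDerivAt c (ν z₀ g) 0 →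
    ∃ᶠ t in 𝓝[>] (0 : ℝ), d.ξ (Ψ (c t)) ≠ d.ξ (Ψ z₀)
  per : ∃ T > 0, ∃ f ∈ d.Mv T, f (Ψ z₀) = Ψ z₀
  pol : Pol d U ν Ψ z₀

/-- naturality of the joint flow under the moves -/
structure Nat (d : Dat P Y) (a : ℝ) (ι : Z → GI →L[ℝ] Z) (ζ : Z → Gs →L[ℝ] Z) (Ψ : Z → P)
    (Dm : Set (Z × GI)) (J : Z × GI → Z) (z₀ : Z) (r K T₀ : ℝ) : Prop where
  sub : closedBall z₀ r ×ˢ closedBall 0 r ⊆ Dm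
  inj : InjOn (fun w => Ψ (J (z₀, w))) (ball 0 r)
  nat : ∀ T, T₀ ≤ T → ∀ f ∈ d.Mv T, ∀ y ∈ ball z₀ r, ∀ y' ∈ ball z₀ r, f (Ψ y) = Ψ y' →
    ∃ A : GI →L[ℝ] GI, Function.Injective A ∧ (∀ v, ‖A v‖ ≤ K * Real.exp (-(a * T)) * ‖v‖) ∧
      ∀ w, ‖w‖ < r → f (Ψ (J (y, w))) = Ψ (J (y', A w)) ∧
        ∀ v, Tan ι ζ J y' (A w) (A v) → Tan ι ζ J y w v

/-- the `u`-family of a polynomial curve tangent to `Y_s` -/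
def Fam (ι : Z → GI →L[ℝ] Z) (ζ : Z → Gs →L[ℝ] Z) (ν : Z → Gu →L[ℝ] Z) (J : Z × GI → Z) (z₀ : Z)
    (g₀ : Gu) (r : ℝ) : Prop :=
  ∃ (t₁ : ℝ) (x : ℝ → Z), 0 < t₁ ∧ x 0 = z₀ ∧ HasDerivAt x (ν z₀ g₀) 0 ∧
    (∀ t ∈ Icc 0 t₁, x t ∈ ball z₀ r) ∧
    ∀ (N : ℕ) (p : ℝ → GI), Poly N p → p 0 = 0 →
      (∀ᶠ τ in 𝓝[≥] (0 : ℝ), Tan ι ζ J z₀ (p τ) (deriv p τ)) →
      ∃ (τ₀ C : ℝ) (w : ℝ → ℝ → GI), 0 < τ₀ ∧ τ₀ ≤ 1 ∧ w 0 = p ∧ ∀ t ∈ Icc 0 t₁, Poly N (w t) ∧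
        w t 0 = 0 ∧ ∀ τ ∈ Icc 0 τ₀, ‖w t τ‖ < r ∧ J (x t, w t τ) ∈ ball z₀ r ∧ ∀ t' ∈ Icc 0 t₁,
          ‖(x t', w t' τ) - (x t, w t τ)‖ ≤ C * |t' - t| ∧
          ‖J (x t', w t' τ) - J (x t, w t τ) - (t' - t) • ν (J (x t, w t τ)) g₀‖ ≤ C * (t' - t) ^ 2

end frames

/-- quantify over the types of a system -/
def AllS (p : ∀ (P Y Z GI Gs : Type) [MetricSpace P] [MetricSpace Y] [NormedAddCommGroup Z]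
    [NormedSpace ℝ Z] [NormedAddCommGroup GI] [NormedSpace ℝ GI] [NormedAddCommGroup Gs]
    [NormedSpace ℝ Gs], Dat P Y → ℝ → Set Z → (Z → GI →L[ℝ] Z) → (Z → Gs →L[ℝ] Z) → (Z → P) → Z →
      Prop) : Prop :=
  ∀ (P Y Z GI Gs Gu : Type) [MetricSpace P] [MetricSpace Y] [NormedAddCommGroup Z]
    [NormedSpace ℝ Z] [FiniteDimensional ℝ Z] [NormedAddCommGroup GI] [NormedSpace ℝ GI]
    [FiniteDimensional ℝ GI] [NormedAddCommGroup Gs] [NormedSpace ℝ Gs] [FiniteDimensional ℝ Gs]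
    [NormedAddCommGroup Gu] [NormedSpace ℝ Gu] [FiniteDimensional ℝ Gu] (d : Dat P Y) (a : ℝ)
    (Ω : Z →L[ℝ] Z →L[ℝ] ℝ) (U : Set Z) (ι : Z → GI →L[ℝ] Z) (ζ : Z → Gs →L[ℝ] Z)
    (ν : Z → Gu →L[ℝ] Z) (Ψ : Z → P) (z₀ : Z), Dyn d a → Box d Ω U ι ζ ν Ψ z₀ →
    p P Y Z GI Gs d a U ι ζ Ψ z₀

/-- MAIN STATEMENT of the block -/
def NoS : Prop := AllS fun _ _ _ _ _ _ _ _ _ _ _ _ _ _ _ _ _ _ _ _ => False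

/-- NAT.  `A y = ρ (h y) ∘ Dh y ∘ ι y` (`LiS`); `‖A‖` from `cs`, `bil` along `t ↦ J (y, t g)`; `A` is
constant along `τ ↦ J (y, τ v)` (`StepS`, `nd`), both sides solve `z' = ι z (A v)`; the set of good
`τ` is closed (`cont`) and open to the right (`loc`, injectivity of `Ψ` near `z₀`). -/
def NatS : Prop := AllS fun _ _ Z GI _ _ _ _ _ _ _ _ _ d a U ι ζ Ψ z₀ =>
  ∀ (Dm : Set (Z × GI)) (J : Z × GI → Z), Fr.JF ι U Dm J →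
    (∀ k ∈ Dm, d.Ss (Ψ k.1) (Ψ (J k))) ∧
      ∃ r₀ > 0, ∀ r, 0 < r → r ≤ r₀ → ∃ K T₀, Nat d a ι ζ Ψ Dm J z₀ r K T₀

/-! ### chart level statements (Mathlib only) -/


/-- a smooth injective family has a smooth left inverse (`ρ z = (ρ₀ X z)⁻¹ ρ₀`) -/
def LiS : Prop := ∀ (Z G : Type) [NormedAddCommGroup Z] [NormedSpace ℝ Z] [FiniteDimensional ℝ Z]
  [NormedAddCommGroup G] [NormedSpace ℝ G] [FiniteDimensional ℝ G] (X : Z → G →L[ℝ] Z)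
  (U : Set Z) (z₀ : Z), IsOpen U → z₀ ∈ U → ContDiffOn ℝ ∞ X U → Function.Injective (X z₀) →
  ∃ (V : Set Z) (ρ : Z → Z →L[ℝ] G), IsOpen V ∧ z₀ ∈ V ∧ V ⊆ U ∧ ContDiffOn ℝ ∞ ρ V ∧
    ∀ z ∈ V, ∀ g, ρ z (X z g) = g

/-- DEV: a curve tangent to `ι` is the development of its control (uniqueness for
`z' = ι z (q τ)`; the set of good `τ` is closed, and open to the right) -/
def DevS : Prop := ∀ (Z GI : Type) [NormedAddCommGroup Z] [NormedSpace ℝ Z] [FiniteDimensional ℝ Z]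
  [NormedAddCommGroup GI] [NormedSpace ℝ GI] (ι : Z → GI →L[ℝ] Z) (U : Set Z)
  (Dm : Set (Z × GI)) (J : Z × GI → Z) (n : ℝ → Z) (w q : ℝ → GI) (τ₁ : ℝ), IsOpen U →
  ContDiffOn ℝ ∞ ι U → Fr.JF ι U Dm J → ContinuousOn q (Icc 0 τ₁) → w 0 = 0 →
  (∀ τ ∈ Icc 0 τ₁, n τ ∈ U ∧ (n 0, w τ) ∈ Dm ∧ HasDerivAt n (ι (n τ) (q τ)) τ ∧
    HasDerivAt w (q τ) τ) → ∀ τ ∈ Icc 0 τ₁, n τ = J (n 0, w τ)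

/-- POLY: the flow of `ν g₀` keeps polynomial developments -/
def FamS : Prop := ∀ (Z GI Gs Gu : Type) [NormedAddCommGroup Z] [NormedSpace ℝ Z]
  [FiniteDimensional ℝ Z] [NormedAddCommGroup GI] [NormedSpace ℝ GI] [FiniteDimensional ℝ GI]
  [NormedAddCommGroup Gs] [NormedSpace ℝ Gs] [FiniteDimensional ℝ Gs] [NormedAddCommGroup Gu]
  [NormedSpace ℝ Gu] [FiniteDimensional ℝ Gu] (Ω : Z →L[ℝ] Z →L[ℝ] ℝ) (U : Set Z)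
  (ι : Z → GI →L[ℝ] Z) (ζ : Z → Gs →L[ℝ] Z) (ν : Z → Gu →L[ℝ] Z) (Dm : Set (Z × GI))
  (J : Z × GI → Z) (z₀ : Z) (g₀ : Gu) (r : ℝ), Frs Ω U ι ζ ν → Fr.JF ι U Dm J → z₀ ∈ U → 0 < r →
  Fam ι ζ ν J z₀ g₀ r

/-- B1: the cone field `Tan` on the leaf of `z₀` is invariant under a linear contraction, so it
has a polynomial integral curve (`Fr/B1` with `κ w = (1 - ζ ρ_ζ) ι` and `β w = ρ_ι ζ b` at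
`J (z₀, w)`, `LiS`) -/
def B1S : Prop := ∀ (Z GI Gs Gu : Type) [NormedAddCommGroup Z] [NormedSpace ℝ Z]
  [FiniteDimensional ℝ Z] [NormedAddCommGroup GI] [NormedSpace ℝ GI] [FiniteDimensional ℝ GI]
  [NormedAddCommGroup Gs] [NormedSpace ℝ Gs] [FiniteDimensional ℝ Gs] [Nontrivial Gs]
  [NormedAddCommGroup Gu] [NormedSpace ℝ Gu] (Ω : Z →L[ℝ] Z →L[ℝ] ℝ) (U : Set Z)
  (ι : Z → GI →L[ℝ] Z) (ζ : Z → Gs →L[ℝ] Z) (ν : Z → Gu →L[ℝ] Z) (Dm : Set (Z × GI))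
  (J : Z × GI → Z) (z₀ : Z) (A : GI →L[ℝ] GI) (r : ℝ), Frs Ω U ι ζ ν → Fr.JF ι U Dm J → z₀ ∈ U →
  0 < r → Function.Injective A → (∀ v, ‖A v‖ ≤ 1 / 2 * ‖v‖) →
  (∀ w v, ‖w‖ < r → Tan ι ζ J z₀ (A w) (A v) → Tan ι ζ J z₀ w v) →
  ∃ (N : ℕ) (p : ℝ → GI), Poly N p ∧ p 0 = 0 ∧ p 1 ≠ 0 ∧
    ∀ τ ∈ Icc (0 : ℝ) 1, ‖p τ‖ < r ∧ Tan ι ζ J z₀ (p τ) (deriv p τ)

/-- TOP: derivative profile of a tiny polynomial development (rescale `w τ = w' (ε τ)`, the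
coefficients of `w'` are bounded; `norm_iteratedFDerivWithin_comp_le`) -/
def TopS : Prop := ∀ (Z GI : Type) [NormedAddCommGroup Z] [NormedSpace ℝ Z]
  [FiniteDimensional ℝ Z] [NormedAddCommGroup GI] [NormedSpace ℝ GI] [FiniteDimensional ℝ GI]
  (Dm : Set (Z × GI)) (J : Z × GI → Z) (z₀ : Z) (r K : ℝ) (N : ℕ), IsOpen Dm →
  ContDiffOn ℝ ∞ J Dm → closedBall z₀ r ×ˢ closedBall 0 r ⊆ Dm → ∃ b : ℕ → ℝ,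
    ∀ (ε : ℝ) (y : Z) (w : ℝ → GI), 0 < ε → ε ≤ 1 → y ∈ closedBall z₀ r → Poly N w →
      (∀ τ ∈ Icc (0 : ℝ) 1, ‖w τ‖ ≤ K * ε ^ N ∧ ‖w τ‖ ≤ r) → ∀ τ ∈ Icc (0 : ℝ) 1,
        ContDiffAt ℝ ∞ (fun τ => J (y, w τ)) τ ∧
        ∀ j, 1 ≤ j → ‖iteratedDeriv j (fun τ => J (y, w τ)) τ‖ ≤ b j * ε ^ j



end Crest.Agent.N221.NB
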