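import Crest.Agent.N221.A1.PAll
import Crest.Agent.N221.Ex.UB

/-! Row 221, block NB: almost polynomial curves `AP`, the curve lemma for a linear cocycle over
a chain (`clv`) and for the tangent lift (`clt`). -/

set_option autoImplicit false

open Set Metric Filter
open scoped ContDiff Topology

namespace Crest.Agent.N221.NB

open PS Ex

section AP
variable {V V' : Type} [NormedAddCommGroup V] [NormedSpace ℝ V] [NormedAddCommGroup V']
  [NormedSpace ℝ V'] {N : ℕ} {ε ε' : ℝ} {f g : ℝ → V}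

/-- polynomial of degree `< N` up to `ε` on `[0,1]` -/
structure AP (N : ℕ) (ε : ℝ) (f : ℝ → V) : Prop where
  sm : ∀ t ∈ Icc (0 : ℝ) 1, ContDiffAt ℝ ∞ f t
  bd : ∀ t ∈ Icc (0 : ℝ) 1, ‖iteratedDeriv N f t‖ ≤ ε


theorem AP.mono (h : AP N ε f) (he : ε ≤ ε') : AP N ε' f :=
  ⟨h.sm, fun t ht => (h.bd t ht).trans he⟩


theorem AP.congr (h : AP N ε f) (e : ∀ t ∈ Icc (0 : ℝ) 1, g =ᶠ[𝓝 t] f) : AP N ε g :=
  ⟨fun t ht => (h.sm t ht).congr_of_eventuallyEq (e t ht),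
    fun t ht => by rw [(e t ht).iteratedDeriv_eq]; exact h.bd t ht⟩

theorem AP.add (h : AP N ε f) (h' : AP N ε' g) : AP N (ε + ε') fun t => f t + g t :=
  ⟨fun t ht => (h.sm t ht).add (h'.sm t ht), fun t ht => by
    rw [iteratedDeriv_fun_add ((h.sm t ht).of_le (le_infty N)) ((h'.sm t ht).of_le (le_infty N))]
    exact norm_add_le_of_le (h.bd t ht) (h'.bd t ht)⟩

theorem AP.smul (h : AP N ε f) (c : ℝ) : AP N (|c| * ε) fun t => c • f t :=
  ⟨fun t ht => (h.sm t ht).const_smul c, fun t ht => by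
    rw [iteratedDeriv_fun_const_smul ((h.sm t ht).of_le (le_infty N)), norm_smul, Real.norm_eq_abs]
    exact mul_le_mul_of_nonneg_left (h.bd t ht) (abs_nonneg c)⟩

theorem AP.sub (h : AP N ε f) (h' : AP N ε' g) : AP N (ε + ε') fun t => f t - g t := by
  have := h.add (h'.smul (-1))
  simpa [sub_eq_add_neg] using this

theorem AP.flip (h : AP N ε f) : AP N ε fun t => f (1 - t) := by
  have hm : ∀ t ∈ Icc (0 : ℝ) 1, 1 - t ∈ Icc (0 : ℝ) 1 := fun t ht =>
    ⟨by linarith [ht.2], by linarith [ht.1]⟩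
  refine ⟨fun t ht => (h.sm _ (hm t ht)).comp t (by fun_prop), fun t ht => ?_⟩
  rw [iteratedDeriv_comp_const_sub, norm_smul]
  simpa using h.bd _ (hm t ht)

/-- Remez from `[0, l]` -/
theorem AP.remez [CompleteSpace V] (h : AP (N + 1) ε f) {l η : ℝ} (hl : 0 < l) (hl1 : l ≤ 1)
    (hη : ∀ t ∈ Icc 0 l, ‖f t‖ ≤ η) : ∀ t ∈ Icc (0 : ℝ) 1, ‖f t‖ ≤ (6 / l) ^ N * (η + ε) + ε :=
  rmS V N f l η ε hl hl1 h.sm hη h.bd



theorem iteratedDeriv_pair {f : ℝ → V} {g : ℝ → V'} {t : ℝ} (hf : ContDiffAt ℝ ∞ f t)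
    (hg : ContDiffAt ℝ ∞ g t) (j : ℕ) : iteratedDeriv j (fun t => (f t, g t)) t =
      (iteratedDeriv j f t, iteratedDeriv j g t) := by
  simp only [iteratedDeriv_eq_iteratedFDeriv]
  rw [iteratedFDeriv_prodMk hf hg (le_infty j)]
  rfl

end AP

variable {E W F : Type} [NormedAddCommGroup E] [NormedSpace ℝ E] [NormedAddCommGroup W]
  [NormedSpace ℝ W] [NormedAddCommGroup F] [NormedSpace ℝ F]








end Crest.Agent.N221.NB
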