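import Crest.Agent.N221.NB.Defs
import Crest.Agent.N221.NB.Cv

/-! Row 221, block NB: derivative profile of `τ ↦ J (y, w τ)` for a tiny polynomial `w`. -/

set_option autoImplicit false

open Set Metric
open scoped ContDiff Nat

namespace Crest.Agent.N221.NB

open Ex

variable {V V' : Type} [NormedAddCommGroup V] [NormedSpace ℝ V] [NormedAddCommGroup V']
  [NormedSpace ℝ V'] {N : ℕ} {w : ℝ → V}

theorem Poly.contDiff (h : Poly N w) : ContDiff ℝ ∞ w := by
  obtain ⟨c, hc⟩ := h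
  rw [funext hc]
  exact ContDiff.sum fun i _ => (contDiff_id.pow i).smul contDiff_const

theorem Poly.itd (h : Poly N w) {j : ℕ} (hj : N < j) (t : ℝ) : iteratedDeriv j w t = 0 := by
  obtain ⟨c, hc⟩ := h
  rw [funext hc, iteratedDeriv_fun_sum fun i _ => by fun_prop]
  refine Finset.sum_eq_zero fun i hi => ?_
  rw [iteratedDeriv_smul_const (by fun_prop), iteratedDeriv_pow,
    Nat.descFactorial_of_lt (by have := Finset.mem_range.1 hi; omega)]
  simp


theorem Poly.ap (h : Poly N w) : AP (N + 1) 0 w :=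
  ⟨fun _ _ => h.contDiff.contDiffAt, fun t _ => by rw [h.itd N.lt_succ_self, norm_zero]⟩

/-- T-PROFILE -/
theorem prof {Z GI F : Type} [NormedAddCommGroup Z] [NormedSpace ℝ Z] [NormedAddCommGroup GI]
    [NormedSpace ℝ GI] [CompleteSpace GI] [NormedAddCommGroup F] [NormedSpace ℝ F]
    {J : Z × GI → F} {Dm Kc B : Set (Z × GI)} (hD : IsOpen Dm) (hJ : ContDiffOn ℝ ∞ J Dm)
    (hK : IsCompact Kc) (hKD : Kc ⊆ Dm) (hB : IsOpen B) (hBK : B ⊆ Kc) (N : ℕ) (K : ℝ) :
    ∃ d : ℕ → ℝ, ∀ (y : Z) (w : ℝ → GI) (ε : ℝ), Poly N w → 0 < ε → ε ≤ 1 →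
      (∀ τ ∈ Icc (0 : ℝ) 1, ‖w τ‖ ≤ K * ε ^ N ∧ (y, w τ) ∈ B) → ∀ τ ∈ Icc (0 : ℝ) 1,
      ContDiffAt ℝ ∞ (fun τ => J (y, w τ)) τ ∧
        ∀ j, 1 ≤ j → ‖iteratedDeriv j (fun τ => J (y, w τ)) τ‖ ≤ d j * ε ^ j := by
  have hU : UB (fun _ : Unit => B) fun _ => J := UB.of_compact hD hJ hK hKD (fun _ => hB)
    fun _ => hBK
  choose c hc1 hc using hU.bdn
  obtain ⟨C, hC, hint⟩ := PS.intS (N + 1)
  set D := max 1 (C * |K|) with hDd
  have hD1 : 1 ≤ D := le_max_left _ _
  refine ⟨fun j => j ! * c j * D ^ j, fun y w ε hw h0 h1 hs τ hτ => ?_⟩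
  have hu : ContDiff ℝ ∞ fun t => (y, w t) := contDiff_const.prodMk hw.contDiff
  have hτB := (hs τ hτ).2
  refine ⟨(hU.at (i := ()) hτB).comp τ hu.contDiffAt, fun j hj => ?_⟩
  have ho : IsOpen ((fun t => (y, w t)) ⁻¹' B) := hB.preimage hu.continuous
  have key := norm_iteratedFDerivWithin_comp_le (hU.sm ()) hu.contDiffOn (le_infty j)
    hB.uniqueDiffOn ho.uniqueDiffOn (mapsTo_preimage _ _) (x := τ) hτB (C := c j) (D := D * ε)
    (fun i hi => by rw [iteratedFDerivWithin_of_isOpen _ hB hτB]; exact hc j i hi () _ hτB)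
    (fun i hi _ => by
      rw [iteratedFDerivWithin_of_isOpen _ ho hτB, norm_iteratedFDeriv_eq_norm_iteratedDeriv,
        iteratedDeriv_pair contDiffAt_const hw.contDiff.contDiffAt, iteratedDeriv_const,
        if_neg (by omega), Prod.norm_mk, norm_zero]
      refine max_le (by positivity) ?_
      rcases lt_or_ge N i with h | h
      · rw [hw.itd h, norm_zero]; positivity
      · refine (hint GI w _ 0 hw.ap.sm (fun t ht => (hs t ht).1) hw.ap.bd i (by omega) τ hτ).trans ?_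
        rw [add_zero, mul_pow]
        calc C * (K * ε ^ N) ≤ C * (|K| * ε ^ i) := by
              refine mul_le_mul_of_nonneg_left (mul_le_mul (le_abs_self K)
                (pow_le_pow_of_le_one h0.le h1 h) (by positivity) (abs_nonneg K)) (by linarith)
          _ = C * |K| * ε ^ i := by ring
          _ ≤ D ^ i * ε ^ i := mul_le_mul_of_nonneg_right
              ((le_max_right _ _).trans (le_self_pow₀ hD1 (by omega))) (by positivity))
  rw [iteratedFDerivWithin_of_isOpen _ ho hτB, norm_iteratedFDeriv_eq_norm_iteratedDeriv,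
    mul_pow] at key
  exact key.trans_eq (by ring)

end Crest.Agent.N221.NB
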