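import Crest.Agent.N221.Ni.LkD
import Crest.Agent.N221.NC.Cmp
import Crest.Agent.N221.NC.Kn
import Crest.Agent.N221.NC.Fd
import Crest.Agent.N221.NC.Defs
import Crest.Agent.N221.NC.KnF_Mg
import Crest.Agent.N221.Ni.Ps
import Crest.Agent.N221.G0.So2
import Crest.Agent.N221.G0.SoA
import Crest.Agent.N221.Fr.Jf
import Crest.Agent.N221.NB.Defs
import Crest.Agent.N221.NB.Prof
import Crest.Agent.N221.Fr.Ri

-- ▼ part N221/Ni/Pl
section

/-! Row 221, block Ni (helper86): `PolyS` from the core, the chains, one node and two nodes. -/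

set_option autoImplicit false

open Set Filter Topology Metric
open scoped ContDiff RealInnerProductSpace
open Crest.GeometryTopology.Submanifold
open Crest.Agent.R241.DDefs Crest.Agent.R241.D2
open Crest.Agent.R208.J Crest.Agent.R208.L

noncomputable section

namespace Crest.Agent.N221

open Cov

theorem polyS_of (hC : NC.CoreF) (h4 : ChnS) (hN : NdS) (hK : LkS) : PolyS := by
  intro n N m a S G C f z0 H hm hf hz0
  have ha := H.a_pos
  obtain ⟨L, Λ, K0, R0, δ, c0, hL, hΛ, -, hR0, -, hδ, hc0, hc⟩ := h4 n N m a S G C H hm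
  obtain ⟨Λ3, hΛ3, hK⟩ := hK n N m a S G C H hm
  have c2 := hc0 2
  have L0 : 0 < L := by linarith
  set R := min (min R0 1) (1 / (4 * Real.exp (Λ + Λ3 * L) * c0 2)) with hRd
  have R0' : 0 < R := lt_min (lt_min hR0 one_pos) (by positivity)
  have R1 : R ≤ R0 := (min_le_left _ _).trans (min_le_left _ _)
  have R2 : R ≤ 1 := (min_le_left _ _).trans (min_le_right _ _)
  have R3 : 4 * Real.exp (Λ + Λ3 * L) * c0 2 * R ≤ 1 := by
    rw [← le_div_iff₀' (by positivity)]; exact min_le_right _ _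
  obtain ⟨ε, hε, hK⟩ := hK L Λ K0 R0 δ R c0 hL hc hδ R0' R1
  obtain ⟨ρ, K1, hρ, ρ1, ρ2, hK1, hN⟩ :=
    hN n N m a S G C f z0 H hm hf hz0 L Λ K0 R0 δ R ε c0 hL hc R0' R1 hε
  refine ⟨ρ, hρ, fun l nu U r hr hU hB s1 s2 s3 s4 τ0 c1 g K η d t0 t1 hc1 hg hη => ?_⟩
  obtain ⟨K2, T0, d2, hN⟩ := hN l nu U r hr hU hB s1 s2 s3 s4 g K d hg
  obtain ⟨K4, κ, T1, hκ, hK⟩ := hK K1 |K| (c1 * L) hK1 (by positivity)
  set k : NC.Cst := ⟨R, Λ + Λ3 * L, min (Real.log 2) (a * L),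
    1 + |K2| + |K4| + |K| * Real.exp (c1 * L), 0, g * L, τ0, c1 * L, min κ 1, c0,
    fun j => max (d2 j) 0⟩ with hk
  have p1 := abs_nonneg K2
  have p2 := abs_nonneg K4
  have p3 : 0 ≤ |K| * Real.exp (c1 * L) := by positivity
  have kK : k.K = 1 + |K2| + |K4| + |K| * Real.exp (c1 * L) := rfl
  have kΛ : k.Λ = Λ + Λ3 * L := rfl
  have p4 : 0 < Λ3 * L := by positivity
  have ok : k.Ok := ⟨R0', R2, by linarith, lt_min (Real.log_pos one_lt_two) (by positivity),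
    by linarith, le_rfl, mul_pos hg L0, t0, t1, mul_pos hc1 L0, lt_min hκ one_pos,
    min_le_right _ _, hc0, fun _ => le_max_right _ _, R3⟩
  obtain ⟨T2, hC⟩ := hC (ZL m) (Fin l → ℝ) k ok η hη
  refine ⟨max T0 (L * (max T1 T2 : ℕ)), fun T hT p γ t c e z hp h1 h2 => ?_⟩
  have q0 : L * (max T1 T2 : ℕ) ≤ T := (le_max_right _ _).trans hT
  have q1 : max T1 T2 ≤ ⌊T / L⌋₊ := Nat.le_floor (by rwa [le_div_iff₀' L0])
  have T0' : 0 ≤ T := le_trans (by positivity) q0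
  have q2 : L * ⌊T / L⌋₊ ≤ T := by
    rw [← le_div_iff₀' L0]; exact Nat.floor_le (by positivity)
  have q3 : T ≤ L * (⌊T / L⌋₊ + 1) := by
    rw [← div_le_iff₀' L0]; exact (Nat.lt_floor_add_one _).le
  have D1 : Real.exp (-(c1 * T)) ≤ k.D ⌊T / L⌋₊ := Real.exp_le_exp.2 (by
    change _ ≤ -(c1 * L * _)
    linarith [mul_le_mul_of_nonneg_left q2 hc1.le])
  have D2 : k.D ⌊T / L⌋₊ ≤ Real.exp (-(c1 * T)) * Real.exp (c1 * L) := by
    rw [← Real.exp_add]
    refine Real.exp_le_exp.2 ?_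
    change -(c1 * L * _) ≤ _
    linarith [mul_le_mul_of_nonneg_left q3 hc1.le]
  have hnd : ∀ i ≤ p, ∃ F x A, C.Nd k L ε K1 ⌊T / L⌋₊ f (closedBall ((z0, 0) : ZL m) r) nu (c i)
      (z i) F x A := fun i hi =>
    hN k rfl (by linarith) (min_le_left _ _) (min_le_right _ _) (by linarith [le_abs_self K2])
      le_rfl (fun _ => le_rfl) (fun _ => le_max_left _ _) le_rfl t1 T ((le_max_left _ _).trans hT)
      (γ i) (t i) (c i) (e i) (z i) (h1 i hi).1 (h1 i hi).2.1 (h1 i hi).2.2.1 (h1 i hi).2.2.2 t0.le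
  choose! F x A hd using hnd
  have hBx : ∀ y ∈ closedBall ((z0, 0) : ZL m) r, ‖y.1‖ < C.rr m ∧ |y.2| ≤ 1 := fun y hy => by
    rw [mem_closedBall, dist_eq_norm] at hy
    have a1 : ‖y.1 - z0‖ ≤ r := (norm_fst_le (y - (z0, 0))).trans hy
    have a2 : ‖y.2 - 0‖ ≤ r := (norm_snd_le (y - (z0, 0))).trans hy
    rw [sub_zero, Real.norm_eq_abs] at a2
    exact ⟨by linarith [norm_le_norm_add_norm_sub' y.1 z0], by linarith⟩
  obtain ⟨τ, hτ, w, j, hj⟩ := @hC _ ((le_max_right _ _).trans q1) C.UP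
    (C.ms H.a_pos.le).toPseudoMetricSpace p (fun y => ‖y.1.1‖)
    (fun i j => C.Lt (F i (j + 1)) (F i j) (-L)) (fun i j => C.Lt (F (i + 1) j) (F i j) 0)
    (fun i j => C.Lf (F i j)) x A (fun i j τ => C.fu (-(j * L)) (c i τ))
    (by
      have := mul_le_mul_of_nonneg_left D2 (Nat.cast_nonneg (α := ℝ) p)
      have := mul_le_mul_of_nonneg_right (hp.trans (le_abs_self K)) (Real.exp_pos (c1 * L)).le
      linarith)
    (fun i hi => (hd i hi).crv) fun i hi => ⟨(hd i hi.le).frf,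
      hK k ok rfl (by linarith) (min_le_right _ _) (by linarith [le_abs_self K4]) (min_le_left _ _)
        rfl (fun _ => le_rfl) _ ((le_max_left _ _).trans q1) l f _ nu _ _ _ _ _ _ _ _ _ _ hf hBx
        (hd i hi.le) (hd (i + 1) hi)
        (fun τ hτ => ⟨((h1 i hi.le).2.2.1 τ hτ).1, ((h1 (i + 1) hi).2.2.1 τ hτ).1⟩) fun τ hτ => by
          obtain ⟨a1, b, a2⟩ := h2 i hi τ hτ
          exact ⟨((h1 i hi.le).2.2.2 τ hτ).1, ((h1 (i + 1) hi).2.2.2 τ hτ).1,
            ((h1 i hi.le).2.2.2 τ hτ).2, ((h1 (i + 1) hi).2.2.2 τ hτ).2,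
            a1.trans (mul_le_mul (le_abs_self K) D1 (Real.exp_pos _).le (abs_nonneg K)), b,
            a2.trans (mul_le_mul (le_abs_self K) (pow_le_pow_left₀ (Real.exp_pos _).le D1 2)
              (sq_nonneg _) (abs_nonneg K))⟩⟩
  exact ⟨τ, hτ, w, _, hj⟩

end Crest.Agent.N221
end
end

-- ▼ part N221/NC/CmpF
section

/-! Row 221, block NC, leaf `Cmp'` (helper40): the difference of two nodes (no variation). -/

set_option autoImplicit false

open Set Metric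
open scoped ContDiff Topology

noncomputable section

namespace Crest.Agent.N221.NC

open NB

namespace CmpP

/-- Remez for the difference `h (x' S ·) - x S ·` -/
theorem rem_diff (hA : ApS) {k : Cst} (hk : k.Ok) {s : ℝ} (hs : 0 < s) : ∃ M : ℝ, 1 ≤ M ∧ ∃ T0 : ℕ,
    ∀ T, T0 ≤ T → ∀ (E : Type) [NormedAddCommGroup E] [NormedSpace ℝ E] [CompleteSpace E] (ν ν' : E → ℝ)
      (Φ Φ' : ℕ → E → E) (Lf Lf' : ℕ → Set E) (x x' : ℕ → ℝ → E) (h : E → E),
      Crv k T ν Φ Lf x → Crv k T ν' Φ' Lf' x' → ContDiffOn ℝ ∞ h (ball 0 k.R) →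
      (∀ y ∈ ball (0 : E) k.R, ∀ j, 1 ≤ j → ‖iteratedFDeriv ℝ j h y‖ ≤ k.c j) →
      ∀ S : ℕ, s * T ≤ S → S ≤ T → ∀ η : ℝ, (∀ τ ∈ Icc (0 : ℝ) k.τ0, ‖h (x' S τ) - x S τ‖ ≤ η) →
      ∀ τ ∈ Icc (0 : ℝ) 1, ‖h (x' S τ) - x S τ‖ ≤ M * (η + k.D T ^ 2) := by
  obtain ⟨μ, μ0, hA⟩ := hA k hk s hs
  obtain ⟨N, T0, hA⟩ := hA (2 * k.c1) k.c (by linarith [hk.c1])
  have M0 : 0 ≤ (6 / k.τ0) ^ N := by have := hk.τ0; positivity
  refine ⟨2 * (6 / k.τ0) ^ N + 2, by linarith, T0, fun T hT E _ _ _ ν ν' Φ Φ' Lf Lf' x x' h hx hx' h1 h2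
    S hS hST η hη τ hτ => ?_⟩
  have tr : ∀ (Φ : ℕ → E → E) (x : ℕ → ℝ → E), Tr (F := ℝ) k T Φ x fun _ _ => 0 := fun _ _ =>
    ⟨fun _ _ _ => by simp, fun τ _ => ⟨contDiffAt_const, fun j => by
      have := hk.d j
      rw [iteratedDeriv_const, ite_self, norm_zero]; positivity⟩⟩
  have e : Real.exp (-(2 * k.c1 * T)) = k.D T ^ 2 := by
    rw [Cst.D, sq, ← Real.exp_add]; congr 1; ring
  have a1 := ap_comp (hA T hT E ℝ ν Φ Lf x _ hx (tr _ _) S hS hST) (ContinuousLinearMap.fst ℝ _ _)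
    (fun w => norm_fst_le w) contDiffOn_id fun y _ j hj => (jet_id y hj).trans (hk.c j)
  have a2 := ap_comp (hA T hT E ℝ ν' Φ' Lf' x' _ hx' (tr _ _) S hS hST) (ContinuousLinearMap.fst ℝ _ _)
    (fun w => norm_fst_le w) h1 h2
  rw [e] at a1 a2
  have η0 : 0 ≤ η := (norm_nonneg _).trans (hη 0 ⟨le_rfl, hk.τ0.le⟩)
  have := mul_nonneg M0 η0
  exact ((a2.sub a1).remez hk.τ0 hk.τ1 hη τ hτ).trans (by linarith)

/-- one step back: the chart maps expand differences by at most `2 e^Λ` backwards -/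
theorem step_le {E : Type} [NormedAddCommGroup E] [NormedSpace ℝ E] {k : Cst} (hk : k.Ok) {T S : ℕ}
    {ν : E → ℝ} {Φ : ℕ → E → E} {Lf : ℕ → Set E} {x : ℕ → ℝ → E} (hx : Crv k T ν Φ Lf x) (hS : S < T)
    {y z : E} (hy : y ∈ ball (0 : E) k.R) (hz : z ∈ ball (0 : E) k.R) :
    ‖y - z‖ ≤ Real.exp (k.Λ + 1) * ‖Φ S y - Φ S z‖ := by
  have t := Kn.taylor (hx.sm S hS) (fun z hz => hx.dj S hS z hz 2 one_le_two) hz hy
  have l1 := hx.low S hS _ hz (y - z)
  have hR : ‖y - z‖ ≤ 2 * k.R :=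
    (norm_sub_le _ _).trans (by linarith [mem_ball_zero_iff.1 hy, mem_ball_zero_iff.1 hz])
  have hq : 2 * Real.exp k.Λ ≤ Real.exp (k.Λ + 1) := by
    rw [Real.exp_add, mul_comm]
    exact mul_le_mul_of_nonneg_left (by linarith [Real.add_one_le_exp 1]) (Real.exp_pos _).le
  have b0 := Real.exp_pos k.Λ
  have c1 := hk.c 2
  have sm := hk.small
  generalize Real.exp k.Λ = b at *
  generalize fderiv ℝ (Φ S) z (y - z) = L at *
  generalize Φ S y - Φ S z = Δ at *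
  generalize y - z = Δ' at *
  have n1 : ‖L‖ ≤ ‖Δ‖ + ‖Δ - L‖ := by simpa only [sub_sub_cancel] using norm_sub_le Δ (Δ - L)
  have s1 : b * k.c 2 * ‖Δ'‖ ≤ 1 / 2 := by
    have := mul_le_mul_of_nonneg_left hR (show 0 ≤ b * k.c 2 by positivity)
    linarith
  have a1 := mul_le_mul_of_nonneg_left (n1.trans (add_le_add le_rfl t)) b0.le
  have a2 := mul_le_mul_of_nonneg_right s1 (norm_nonneg Δ')
  have a3 := mul_le_mul_of_nonneg_right hq (norm_nonneg Δ)
  linarith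

/-- growth of the difference of two orbits of the chain -/
theorem grow {E : Type} [NormedAddCommGroup E] [NormedSpace ℝ E] {k : Cst} (hk : k.Ok) {T : ℕ}
    {ν : E → ℝ} {Φ : ℕ → E → E} {Lf : ℕ → Set E} {x : ℕ → ℝ → E} (hx : Crv k T ν Φ Lf x) {y z : ℕ → E}
    (S : ℕ) (hS : S ≤ T) (h : ∀ i < S, y (i + 1) ∈ ball (0 : E) k.R ∧ z (i + 1) ∈ ball (0 : E) k.R ∧
      y i = Φ i (y (i + 1)) ∧ z i = Φ i (z (i + 1))) :
    ‖y S - z S‖ ≤ Real.exp ((k.Λ + 1) * S) * ‖y 0 - z 0‖ := by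
  induction S with
  | zero => simp
  | succ S ih =>
    obtain ⟨h1, h2, h3, h4⟩ := h S S.lt_succ_self
    have := step_le hk hx hS h1 h2
    rw [← h3, ← h4] at this
    refine this.trans ((mul_le_mul_of_nonneg_left (ih (by omega) fun i hi => h i (by omega))
      (Real.exp_pos _).le).trans_eq ?_)
    rw [← mul_assoc, ← Real.exp_add]; congr 2; push_cast; ring

end CmpP

end Crest.Agent.N221.NC
end
end

-- ▼ part N221/NC/CmpG
section

/-! Row 221, block NC, leaf `CmpF` (helper40): comparison of two nodes (no variation). -/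

set_option autoImplicit false

open Set Metric
open scoped ContDiff Topology

noncomputable section

namespace Crest.Agent.N221.NC

open CmpP

theorem cmpF' (hA : ApS) : CmpF := by
  intro k hk s hs
  obtain ⟨M, hM, T0, h⟩ := rem_diff hA hk hs
  have K1 := hk.K
  refine ⟨M * (k.K + 1), by nlinarith, T0, fun T hT E G _ _ _ _ _ ν Φ Φ' H Lf Lf' x x' A hx hx' hL S hS
    hS' τ hτ => ?_⟩
  have le : ∀ i : ℕ, i ≤ S → (i : ℝ) ≤ k.κ0 * T := fun i hi => (Nat.cast_le.2 hi).trans hS'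
  have hST : S ≤ T := by
    have : (S : ℝ) ≤ T := hS'.trans (mul_le_of_le_one_left T.cast_nonneg hk.κ1)
    exact_mod_cast this
  have D0 : 0 < k.D T := Real.exp_pos _
  have D1 : k.D T ≤ 1 :=
    Real.exp_le_one_iff.2 (neg_nonpos.2 (mul_nonneg hk.c1.le (Nat.cast_nonneg _)))
  have S0 : (0 : ℝ) ≤ S := S.cast_nonneg
  have Λ0 := hk.Λ
  have x1 : Real.exp ((k.Λ + 1) * S) ≤ Real.exp ((2 * k.Λ + 2) * S) := Real.exp_le_exp.2 (by nlinarith)
  have x2 : 1 ≤ Real.exp ((2 * k.Λ + 2) * S) := Real.one_le_exp (by positivity)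
  refine (h T hT E ν ν Φ Φ' Lf Lf' x x' (H S) hx hx' (hL.sm S hS').1 (hL.sm S hS').2 S hS hST
    (Real.exp ((2 * k.Λ + 2) * S) * (k.K * k.D T)) (fun t ht => ?_) τ hτ).trans ?_
  · refine (grow hk hx (y := fun i => H i (x' i t)) (z := fun i => x i t) S hST fun i hi => ?_).trans
      (mul_le_mul x1 (hL.known t ht).1 (norm_nonneg _) (Real.exp_pos _).le)
    have h1 := hL.mem t ht (i + 1) (le _ hi)
    exact ⟨h1, (hx.known t ht _ (by omega)).1, hL.rel t ⟨ht.1, ht.2.trans hk.τ1⟩ i (le _ hi)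
      (hx'.known t ht _ (by omega)).1 (hx'.known t ht _ (by omega)).1 h1,
      by rw [hx.rel i (by omega)]; rfl⟩
  · rw [mul_assoc M, mul_assoc M]
    refine mul_le_mul_of_nonneg_left ?_ (by linarith)
    nlinarith


end Crest.Agent.N221.NC
end
end

-- ▼ part N221/NC/Esc
section

/-! Row 221, block NC: escape. -/

set_option autoImplicit false

open Set Metric Filter Real
open scoped ContDiff Topology

noncomputable section

namespace Crest.Agent.N221.NC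

namespace Esc

variable {E : Type} [NormedAddCommGroup E] [NormedSpace ℝ E]

lemma itd_mul (f : ℝ → E) (c : ℝ) (j : ℕ) :
    iteratedDeriv j (fun t => f (c * t)) = fun t => c ^ j • iteratedDeriv j f (c * t) := by
  induction j with
  | zero => simp
  | succ j ih =>
    funext t
    rw [iteratedDeriv_succ, ih, deriv_fun_const_smul_field, deriv_comp_mul_left, smul_smul,
      ← iteratedDeriv_succ, pow_succ]

lemma itd_id (y : E) {j : ℕ} (hj : 1 ≤ j) : ‖iteratedFDeriv ℝ j (id : E → E) y‖ ≤ 1 := by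
  obtain ⟨j, rfl⟩ := Nat.exists_eq_add_of_le' hj
  rw [← norm_iteratedFDeriv_fderiv, show fderiv ℝ (id : E → E) = fun _ => ContinuousLinearMap.id ℝ E
    from funext fun _ => fderiv_id]
  rcases eq_or_ne j 0 with rfl | h
  · simpa using ContinuousLinearMap.norm_id_le
  · simp [iteratedFDeriv_const_of_ne h]

variable {k : Cst} {T S0 S S' : ℕ} {ν : E → ℝ} {Φ : ℕ → E → E} {Lf : ℕ → Set E} {x : ℕ → ℝ → E}
  {τ : ℝ} (h : Crv k T ν Φ Lf x)
include h

lemma cont (hτ : τ ∈ Icc (0 : ℝ) 1)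
    (H : ∀ S, S0 ≤ S → S ≤ T → ContinuousAt (x S) τ → x S τ ∈ ball (0 : E) k.R) (h0 : S0 ≤ S)
    (h1 : S ≤ T) : ContinuousAt (x S) τ := by
  induction h1 using Nat.decreasingInduction with
  | self => exact (h.top τ hτ).1.continuousAt
  | of_succ S hS ih =>
    have a := ih (by omega)
    rw [h.rel S hS]
    exact ((h.sm S hS).continuousOn.continuousAt
      (isOpen_ball.mem_nhds (H _ (by omega) hS a))).comp a

variable (H : ∀ S, S0 ≤ S → S ≤ T → x S τ ∈ ball (0 : E) k.R)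
include H

lemma back (h0 : S0 ≤ S) (h1 : S ≤ S') (h2 : S' ≤ T) :
    ‖x S τ‖ ≤ exp (k.Λ * (S' - S)) * ‖x S' τ‖ := by
  induction h1 using Nat.decreasingInduction with
  | self => simp
  | of_succ S hS ih =>
    have hT : S < T := by omega
    have hy := H (S + 1) (by omega) hT
    have a := (convex_ball (0 : E) k.R).norm_image_sub_le_of_norm_fderiv_le (𝕜 := ℝ) (f := Φ S)
      (fun y hy => ((h.sm S hT).contDiffAt (isOpen_ball.mem_nhds hy)).differentiableAt (by simp))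
      (h.d1 S hT) (mem_ball_self (pos_of_mem_ball hy)) hy
    rw [h.zero S hT, sub_zero, sub_zero] at a
    rw [h.rel S hT]
    refine a.trans ((mul_le_mul_of_nonneg_left (ih (by omega)) (exp_pos _).le).trans_eq ?_)
    rw [← mul_assoc, ← exp_add]
    push_cast
    ring_nf

lemma leaf (hτ : τ ∈ Icc (0 : ℝ) 1) (h0 : S0 ≤ S) (h1 : S ≤ T) : x S τ ∈ Lf S := by
  induction h1 using Nat.decreasingInduction with
  | self => exact (h.top τ hτ).2.1
  | of_succ S hS ih =>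
    rw [h.rel S hS]
    exact (h.leaf S hS _ (ih (by omega)) (H _ (by omega) hS)).1

lemma fwd (hk : k.Ok) (hτ : τ ∈ Icc (0 : ℝ) 1) (h0 : S0 ≤ S') (h1 : S' ≤ S) (h2 : S ≤ T) :
    ‖x S τ‖ ≤ k.K * (exp (-(k.χ * (S - S'))) * ‖x S' τ‖) := by
  refine (h.nu S h2 _ (leaf h H hτ (by omega) h2) (H S (by omega) h2)).trans
    (mul_le_mul_of_nonneg_left ?_ (zero_le_one.trans hk.K))
  induction S, h1 using Nat.le_induction with
  | base => simpa using h.nu' _
  | succ S hS ih =>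
    have a := (h.leaf S h2 _ (leaf h H hτ (by omega) h2) (H _ (by omega) h2)).2
    rw [← Function.comp_apply (f := Φ S) (g := x (S + 1)), ← h.rel S h2] at a
    refine a.trans ((mul_le_mul_of_nonneg_left (ih (by omega)) (exp_pos _).le).trans_eq ?_)
    rw [← mul_assoc, ← exp_add]
    push_cast
    ring_nf

omit h H in
/-- the key estimate -/
lemma key (hk : k.Ok) {s m : ℝ} (m0 : 0 < m) (m1 : m ≤ k.χ * s) (m2 : m ≤ k.g) :
    ∃ C : ℝ, k.K ≤ C ∧ ∃ T0 : ℕ, ∀ T, T0 ≤ T →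
    ∀ (E : Type) [NormedAddCommGroup E] [NormedSpace ℝ E] [CompleteSpace E] (ν : E → ℝ)
      (Φ : ℕ → E → E) (Lf : ℕ → Set E) (x : ℕ → ℝ → E), Crv k T ν Φ Lf x →
      ∀ S0 : ℕ, s * T ≤ S0 → ∀ t ≤ (1 : ℝ),
      (∀ τ ∈ Icc 0 t, ∀ S, S0 ≤ S → S ≤ T → x S τ ∈ ball (0 : E) k.R) →
      ∀ τ ∈ Icc 0 t, ∀ S, S0 ≤ S → S ≤ T → ‖x S τ‖ ≤ C * exp (-(m / 2 * T)) := by
  have ⟨χ0, Λ0, g0, τ0, K1⟩ : 0 < k.χ ∧ 0 < k.Λ ∧ 0 < k.g ∧ 0 < k.τ0 ∧ 1 ≤ k.K :=
    ⟨hk.χ, hk.Λ, hk.g, hk.τ0, hk.K⟩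
  obtain ⟨e, e0, he⟩ : ∃ e : ℝ, 0 < e ∧ k.Λ * e = m / 2 :=
    ⟨m / (2 * k.Λ), by positivity, by field_simp⟩
  obtain ⟨n, hn⟩ := PS.cl k.R (exp k.Λ) (min k.g (k.χ * e / 2)) 0 m k.K k.c k.d hk.R (exp_pos _).le
    (by positivity) le_rfl m0.le
  obtain ⟨T0, hT0⟩ := hn (n + 1) n.le_succ
  obtain ⟨C, hC⟩ : ∃ C, C = (6 / k.τ0) ^ n * (k.K + 1) + 1 := ⟨_, rfl⟩
  have C1 : 1 ≤ C := by rw [hC]; exact le_add_of_nonneg_left (by positivity)
  have L1 : 1 ≤ exp k.Λ := one_le_exp Λ0.le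
  have KC : k.K ≤ k.K * (exp k.Λ * C) :=
    le_mul_of_one_le_right (by linarith) (one_le_mul_of_one_le_of_one_le L1 C1)
  refine ⟨_, KC, T0, fun T hT E _ _ _ ν Φ Lf x h S0 hS t t1 H τ hτ S a1 a2 => ?_⟩
  have T0' : (0 : ℝ) ≤ T := T.cast_nonneg
  have mT : 0 ≤ m * T := by positivity
  have kn : ∀ τ ∈ Icc (0 : ℝ) k.τ0, ∀ S, S0 ≤ S → S ≤ T → ‖x S τ‖ ≤ k.K * exp (-(m * T)) :=
    fun τ hτ S b1 b2 => (h.known τ hτ S b2).2.trans (by
      have : (S0 : ℝ) ≤ S := by exact_mod_cast b1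
      refine mul_le_mul_of_nonneg_left (exp_le_exp.2 ?_) (by linarith)
      nlinarith [mul_le_mul_of_nonneg_left (hS.trans this) χ0.le,
        mul_le_mul_of_nonneg_right m1 T0'])
  have hτ1 : τ ∈ Icc (0 : ℝ) 1 := ⟨hτ.1, hτ.2.trans t1⟩
  have a3 : (S0 : ℝ) ≤ S := by exact_mod_cast a1
  have c1 := Nat.le_ceil (e * T)
  have c2 := Nat.ceil_lt_add_one (by positivity : 0 ≤ e * T)
  have ex : ∀ S' : ℕ, S' ≤ S0 + ⌈e * T⌉₊ →
      exp (k.Λ * (S' - S)) * exp (-(m * T)) ≤ exp k.Λ * exp (-(m / 2 * T)) := fun S' b => by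
    have : (S' : ℝ) ≤ S0 + ⌈e * T⌉₊ := by exact_mod_cast b
    rw [← exp_add, ← exp_add, exp_le_exp]
    nlinarith [mul_le_mul_of_nonneg_left (by linarith : (S' : ℝ) - S ≤ e * T + 1) Λ0.le]
  rcases le_total t k.τ0 with b0 | b0
  · refine (kn τ ⟨hτ.1, hτ.2.trans b0⟩ S a1 a2).trans ?_
    gcongr
    linarith
  rcases le_total T (S0 + ⌈e * T⌉₊) with b1 | b1
  · calc _ ≤ _ := back h (H τ hτ) a1 a2 le_rfl
      _ ≤ exp (k.Λ * (T - S)) * (k.K * exp (-(m * T))) := by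
          gcongr
          refine (h.top τ hτ1).2.2.1.trans ?_
          gcongr
      _ = k.K * (exp (k.Λ * (T - S)) * exp (-(m * T))) := by ring
      _ ≤ k.K * (exp k.Λ * C * exp (-(m / 2 * T))) := by
          refine mul_le_mul_of_nonneg_left ((ex T b1).trans ?_) (by linarith)
          gcongr
          exact le_mul_of_one_le_right (by linarith) C1
      _ = _ := by ring
  have t0 : 0 < t := τ0.trans_le b0
  have mt : ∀ σ ∈ Icc (0 : ℝ) 1, t * σ ∈ Icc 0 t := fun σ hσ =>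
    ⟨mul_nonneg t0.le hσ.1, mul_le_of_le_one_right t0.le hσ.2⟩
  have mt1 : ∀ σ ∈ Icc (0 : ℝ) 1, t * σ ∈ Icc (0 : ℝ) 1 := fun σ hσ =>
    ⟨(mt σ hσ).1, (mt σ hσ).2.trans t1⟩
  have cl := hT0 E E (S0 + ⌈e * T⌉₊) T Φ (fun S σ => x S (t * σ)) hT
    (fun S _ b => ⟨h.sm S b, fun y hy => ⟨h.d1 S b y hy, h.dj S b y hy⟩⟩)
    (fun S _ b σ _ => by rw [h.rel S b]; rfl)
    (fun σ hσ => (h.top _ (mt1 σ hσ)).1.comp σ (f := fun σ => t * σ) (by fun_prop))
    (fun S b b' σ hσ => by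
      have b3 : (S0 : ℝ) + ⌈e * T⌉₊ ≤ S := by exact_mod_cast b
      have b4 := (mem_ball_zero_iff.1 (H _ (mt σ hσ) S0 le_rfl (by omega))).le.trans hk.R1
      refine (fwd h (H _ (mt σ hσ)) hk (mt1 σ hσ) le_rfl (by omega) b').trans ?_
      gcongr
      refine (mul_le_of_le_one_right (exp_pos _).le b4).trans (exp_le_exp.2 ?_)
      nlinarith [mul_le_mul_of_nonneg_right (min_le_right k.g (k.χ * e / 2)) T0',
        mul_le_mul_of_nonneg_left (by linarith : e * T ≤ S - S0) χ0.le])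
    (fun j hj σ hσ => by
      have := hk.d j
      rw [itd_mul, norm_smul, zero_mul, exp_zero, mul_one, norm_pow, Real.norm_of_nonneg t0.le]
      refine (mul_le_of_le_one_left (norm_nonneg _) (pow_le_one₀ t0.le t1)).trans
        (((h.top _ (mt1 σ hσ)).2.2.2 j hj).trans (mul_le_mul_of_nonneg_left ?_ this))
      refine (pow_le_pow_of_le_one (exp_pos _).le (exp_le_one_iff.2 (by simp; positivity))
        (Nat.log_le_self 2 j)).trans ?_
      gcongr
      exact min_le_left _ _) _ le_rfl b1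
  have rm := PS.rmS E n (fun σ => x (S0 + ⌈e * T⌉₊) (t * σ)) (k.τ0 / t) _ (exp (-(m * T)))
    (by positivity) ((div_le_one t0).2 b0) (fun σ hσ => (cl σ hσ).1)
    (fun σ hσ => kn _ ⟨mul_nonneg t0.le hσ.1, (le_div_iff₀' t0).1 hσ.2⟩ _ (by omega) b1)
    (fun σ hσ => (cl σ hσ).2.2 id contDiffOn_id fun y _ j hj => (itd_id y hj).trans (hk.c j))
    (τ / t) ⟨div_nonneg hτ.1 t0.le, (div_le_one t0).2 hτ.2⟩
  rw [mul_div_cancel₀ _ t0.ne'] at rm
  have r1 : ‖x (S0 + ⌈e * T⌉₊) τ‖ ≤ C * exp (-(m * T)) := by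
    calc _ ≤ _ := rm
      _ ≤ (6 / k.τ0) ^ n * (k.K * exp (-(m * T)) + exp (-(m * T))) + exp (-(m * T)) := by
          gcongr
          exact le_div_self τ0.le t0 t1
      _ = _ := by rw [hC]; ring
  rcases le_total S (S0 + ⌈e * T⌉₊) with b2 | b2
  · calc _ ≤ _ := back h (H τ hτ) a1 b2 b1
      _ ≤ exp (k.Λ * ((S0 + ⌈e * T⌉₊ : ℕ) - S)) * (C * exp (-(m * T))) := by gcongr
      _ = 1 * (C * (exp (k.Λ * ((S0 + ⌈e * T⌉₊ : ℕ) - S)) * exp (-(m * T)))) := by ring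
      _ ≤ k.K * (C * (exp k.Λ * exp (-(m / 2 * T)))) := by
          gcongr ?_ * (C * ?_)
          exact ex _ le_rfl
      _ = _ := by ring
  · have b3 : ((S0 + ⌈e * T⌉₊ : ℕ) : ℝ) ≤ S := by exact_mod_cast b2
    calc _ ≤ _ := fwd h (H τ hτ) hk hτ1 (by omega) b2 a2
      _ ≤ k.K * (exp k.Λ * (C * exp (-(m / 2 * T)))) := by
          gcongr
          · nlinarith
          · refine r1.trans ?_
            gcongr
            linarith
      _ = _ := by ring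

end Esc

open Esc

theorem escS : EscS := by
  intro k hk s hs
  have m0 : 0 < min (k.χ * s) k.g := lt_min (mul_pos hk.χ hs) hk.g
  have m1 := min_le_left (k.χ * s) k.g
  obtain ⟨C, C1, T0, hC⟩ := key hk m0 m1 (min_le_right _ _)
  generalize min (k.χ * s) k.g = m at *
  have C0 : 0 < C := by linarith [hk.K]
  have R0 := hk.R
  obtain ⟨T1, hT1⟩ := eventually_atTop.1 ((tendsto_exp_neg_atTop_nhds_zero.comp
    (tendsto_natCast_atTop_atTop.const_mul_atTop (by positivity : 0 < m / 4))).eventually_lt_const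
      (by positivity : 0 < min C⁻¹ (k.R / 2)))
  refine ⟨m / 4, by positivity, max T0 T1, fun T hT E _ _ _ ν Φ Lf x h S0 a1 a2 τ hτ => ?_⟩
  obtain ⟨b1, b2⟩ := lt_min_iff.1 (hT1 T (le_of_max_le_right hT))
  simp only [Function.comp_apply] at b1 b2
  have b3 : C * exp (-(m / 2 * T)) ≤ exp (-(m / 4 * T)) := by
    rw [show -(m / 2 * T) = -(m / 4 * T) + -(m / 4 * T) by ring, exp_add, ← mul_assoc]
    exact mul_le_of_le_one_left (exp_pos _).le
      ((mul_le_mul_of_nonneg_left b1.le C0.le).trans_eq (mul_inv_cancel₀ C0.ne'))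
  have hb : ∀ y : E, ‖y‖ ≤ k.R / 2 → y ∈ ball (0 : E) k.R := fun y hy =>
    mem_ball_zero_iff.2 (by linarith)
  have hK := hC T (le_of_max_le_left hT) E ν Φ Lf x h S0 a1
  have hZ : Icc (0 : ℝ) 1 ⊆ {τ | ∀ S ∈ Icc S0 T, ‖x S τ‖ ≤ k.R / 2} := by
    refine IsClosed.Icc_subset_of_forall_mem_nhdsGT_of_Icc_subset
      (isClosed_of_closure_subset fun t ht => ?_) (fun S hS => ?_) fun t ht hz => ?_
    · have t1 : t ∈ Icc (0 : ℝ) 1 := isClosed_Icc.closure_subset (closure_mono inter_subset_right ht)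
      have t2 : ∀ S, S0 ≤ S → S ≤ T → ContinuousAt (x S) t → ‖x S t‖ ≤ k.R / 2 := fun S c1 c2 c =>
        ContinuousWithinAt.closure_le ht c.norm.continuousWithinAt continuousWithinAt_const
          fun y hy => hy.1 S ⟨c1, c2⟩
      exact ⟨fun S hS => t2 S hS.1 hS.2
        (cont h t1 (fun S c1 c2 c => hb _ (t2 S c1 c2 c)) hS.1 hS.2), t1⟩
    · exact (hK 0 zero_le_one (fun τ hτ S _ c => (h.known τ ⟨hτ.1, hτ.2.trans hk.τ0.le⟩ S c).1) 0
        ⟨le_rfl, le_rfl⟩ S hS.1 hS.2).trans (b3.trans b2.le)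
    · refine mem_nhdsWithin_of_mem_nhds ((eventually_all_finite (finite_Icc S0 T)).2 fun S hS => ?_)
      exact ((cont h ⟨ht.1, ht.2.le⟩ (fun S c1 c2 _ => hb _ (hz ⟨ht.1, le_rfl⟩ S ⟨c1, c2⟩)) hS.1
        hS.2).norm.eventually_lt_const ((hK t ht.2.le (fun τ hτ S c1 c2 => hb _ (hz hτ S ⟨c1, c2⟩)) t
          ⟨ht.1, le_rfl⟩ S hS.1 hS.2).trans_lt (b3.trans_lt b2))).mono fun _ => le_of_lt
  exact (hK 1 le_rfl (fun τ hτ S c1 c2 => hb _ (hZ hτ S ⟨c1, c2⟩)) τ hτ S0 le_rfl a2).trans b3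

end Crest.Agent.N221.NC
end
end

-- ▼ part N221/NC/Ap
section

/-! Row 221, block NC: the state `(x, λ A)` is almost polynomial (helper3). -/

set_option autoImplicit false

open Set Metric Filter
open scoped ContDiff Topology

noncomputable section

namespace Crest.Agent.N221.NC

theorem apS (hE : EscS) (hX : ExtS) : ApS := by
  intro k hk s hs
  obtain ⟨g', g0, T1, hT1⟩ := hE k hk s hs
  obtain ⟨c', hc'⟩ := hX k.c hk.c
  have hΛ := hk.Λ
  have hα := hk.α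
  have d0 := hk.d 0
  refine ⟨k.α + k.Λ + g', by positivity, fun β e hβ => ?_⟩
  set g := min (g' / 2) k.g
  have g1 : g ≤ g' / 2 := min_le_left _ _
  have g2 : g ≤ k.g := min_le_right _ _
  have g3 : 0 < g := lt_min (half_pos g0) hk.g
  obtain ⟨N, hN⟩ := PS.cl k.R (max 0 (c' 1)) g 0 β (1 + k.d 0) (fun j => max (c' j) (e j)) k.d hk.R
    (le_max_left _ _) g3 le_rfl hβ
  obtain ⟨T2, hT2⟩ := hN (N + 1) N.le_succ
  have lim : Tendsto (fun T : ℕ => (1 + k.d 0) * Real.exp (-(g' * T))) atTop (𝓝 0) := by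
    simpa using (Real.tendsto_exp_neg_atTop_nhds_zero.comp
      (tendsto_natCast_atTop_atTop.const_mul_atTop g0)).const_mul (1 + k.d 0)
  obtain ⟨T3, hT3⟩ := eventually_atTop.1 (lim.eventually (gt_mem_nhds hk.R))
  refine ⟨N, max T1 (max T2 T3), fun T hT E F _ _ _ _ _ ν Φ Lf x A hC hA => ?_⟩
  simp only [max_le_iff] at hT
  have T0 : (0 : ℝ) ≤ T := T.cast_nonneg
  have esc := hT1 T hT.1 E ν Φ Lf x hC
  have sm := hT3 T hT.2.2
  have e0 := Real.exp_pos (-(g' * T))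
  set l := Real.exp (-((k.α + k.Λ + g') * T)) with hl
  have l0 : 0 < l := Real.exp_pos _
  have hAn : ∀ τ ∈ Icc (0 : ℝ) 1, ∀ n S : ℕ, S + n = T → s * T ≤ S →
      ‖A S τ‖ ≤ Real.exp k.Λ ^ n * (k.d 0 * Real.exp (k.α * T)) := fun τ hτ n => by
    induction n with
    | zero =>
      rintro S rfl -
      simpa using (hA.top τ hτ).2 0
    | succ n ih =>
      intro S h1 h2
      have h3 : s * T ≤ (S + 1 : ℕ) := by push_cast; linarith
      rw [hA.rel S (by omega), pow_succ', mul_assoc]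
      refine (ContinuousLinearMap.opNorm_comp_le _ _).trans (mul_le_mul (hC.d1 S (by omega) _ ?_)
        (ih _ (by omega) h3) (norm_nonneg _) (Real.exp_pos _).le)
      rw [mem_ball_zero_iff]
      nlinarith [esc _ h3 (by omega) τ hτ]
  have hn : ∀ S : ℕ, s * T ≤ S → S ≤ T → ∀ τ ∈ Icc (0 : ℝ) 1,
      ‖(x S τ, l • A S τ)‖ ≤ (1 + k.d 0) * Real.exp (-(g' * T)) := fun S h1 h2 τ hτ => by
    refine max_le (by nlinarith [esc S h1 h2 τ hτ]) ?_
    rw [norm_smul, Real.norm_of_nonneg l0.le]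
    calc l * ‖A S τ‖ ≤ l * (Real.exp k.Λ ^ T * (k.d 0 * Real.exp (k.α * T))) := by
          refine mul_le_mul_of_nonneg_left ((hAn τ hτ (T - S) S (by omega) h1).trans ?_) l0.le
          gcongr
          exacts [Real.one_le_exp hΛ.le, Nat.sub_le _ _]
      _ = k.d 0 * Real.exp (-(g' * T)) := by
          rw [hl, ← Real.exp_nat_mul, mul_left_comm _ (k.d 0), mul_left_comm, ← Real.exp_add,
            ← Real.exp_add]
          congr 2
          ring
      _ ≤ _ := by gcongr; linarith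
  have main := fun (V : Type) [NormedAddCommGroup V] [NormedSpace ℝ V] =>
    hT2 (E × (F →L[ℝ] E)) V ⌈s * T⌉₊ T (fun S z => (Φ S z.1, fderiv ℝ (Φ S) z.1 ∘L z.2))
      (fun S τ => (x S τ, l • A S τ)) hT.2.1
      (fun S _ h => by
        obtain ⟨h1, h2⟩ := hc' E F (Φ S) k.R hk.R1 (hC.sm S h) (hC.dj S h)
        exact ⟨h1, fun y hy => ⟨(norm_iteratedFDeriv_one _).symm.trans_le ((h2 y hy 1 le_rfl).trans
          (le_max_right _ _)), fun j hj => (h2 y hy j hj).trans (le_max_left _ _)⟩⟩)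
      (fun S _ h τ _ => .of_forall fun t => by
        simp only [Function.comp, hC.rel S h, hA.rel S h, ContinuousLinearMap.comp_smul])
      (fun τ hτ => (hC.top τ hτ).1.prodMk ((hA.top τ hτ).1.const_smul l))
      (fun S h1 h2 τ hτ => (hn S (Nat.ceil_le.1 h1) h2 τ hτ).trans (by gcongr; linarith))
      (fun j hj τ hτ => by
        have h1 : Real.exp (-(k.g * T)) ^ j ≤ Real.exp (-(g * T)) ^ Nat.log 2 j :=
          (pow_le_pow_left₀ (Real.exp_pos _).le (by gcongr) j).trans (pow_le_pow_of_le_one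
            (Real.exp_pos _).le (Real.exp_le_one_iff.2 (neg_nonpos.2 (by positivity)))
            (Nat.log_le_self _ _))
        have dj := hk.d j
        rw [zero_mul, Real.exp_zero, mul_one, ← norm_iteratedFDeriv_eq_norm_iteratedDeriv,
          iteratedFDeriv_prodMk (hC.top τ hτ).1 ((hA.top τ hτ).1.const_smul l) (mod_cast le_top),
          ContinuousMultilinearMap.opNorm_prod, norm_iteratedFDeriv_eq_norm_iteratedDeriv,
          norm_iteratedFDeriv_eq_norm_iteratedDeriv, iteratedDeriv_fun_const_smul_field, norm_smul,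
          Real.norm_of_nonneg l0.le]
        refine max_le (((hC.top τ hτ).2.2.2 j hj).trans (by gcongr)) ?_
        have h2 : l * Real.exp (k.α * T) ≤ 1 := by
          rw [hl, ← Real.exp_add, Real.exp_le_one_iff]
          nlinarith
        calc _ ≤ l * (k.d j * Real.exp (k.α * T) * Real.exp (-(g * T)) ^ Nat.log 2 j) :=
              mul_le_mul_of_nonneg_left (((hA.top τ hτ).2 j).trans (by gcongr)) l0.le
          _ = l * Real.exp (k.α * T) * (k.d j * Real.exp (-(g * T)) ^ Nat.log 2 j) := by ring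
          _ ≤ _ := mul_le_of_le_one_left (by positivity) h2)
  intro S h1 h2 τ hτ
  exact ⟨mem_ball_zero_iff.2 ((hn S h1 h2 τ hτ).trans_lt sm),
    (main ℝ S (Nat.ceil_le.2 h1) h2 τ hτ).1, fun V _ _ Γ hΓ hb =>
      (main V S (Nat.ceil_le.2 h1) h2 τ hτ).2.2 Γ hΓ fun y hy j hj =>
        (hb y hy j hj).trans (le_max_right _ _)⟩

end Crest.Agent.N221.NC
end
end

-- ▼ part N221/NC/Gram
section

/-! Row 221, block NC: the Gram determinant and the polynomial projection (helper98, task 1083). -/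

set_option autoImplicit false

open Matrix
open scoped ContDiff RealInnerProductSpace

noncomputable section

namespace Crest.Agent.N221.NC

namespace Gm

variable {F : Type} [NormedAddCommGroup F] [InnerProductSpace ℝ F] {k : ℕ}

def gE (v : Fin k → F) : ℝ := (gram ℝ v).det

def cc (v : Fin k → F) (u : F) : Fin k → ℝ := (gram ℝ v).adjugate *ᵥ fun j => ⟪v j, u⟫

def QE (v : Fin k → F) (u : F) : F := gE v • u - ∑ i, cc v u i • v i

theorem gE_nonneg (v : Fin k → F) : 0 ≤ gE v := (posSemidef_gram ℝ v).det_nonneg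

theorem gram_smul (l : ℝ) (v : Fin k → F) : gram ℝ (l • v) = l ^ 2 • gram ℝ v := by
  ext i j
  simp only [gram_apply, Pi.smul_apply, real_inner_smul_left, real_inner_smul_right,
    Matrix.smul_apply, smul_eq_mul]
  ring

theorem gE_smul (l : ℝ) (v : Fin k → F) : gE (l • v) = l ^ (2 * k) * gE v := by
  rw [gE, gram_smul, det_smul, Fintype.card_fin, ← pow_mul, gE]

theorem cc_smul (l : ℝ) (v : Fin k → F) (u : F) (i : Fin k) :
    cc (l • v) (l • u) i = l ^ (2 * k) * cc v u i := by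
  have e : (fun j => ⟪(l • v) j, l • u⟫) = l ^ 2 • fun j => ⟪v j, u⟫ := by
    funext j
    simp only [Pi.smul_apply, real_inner_smul_left, real_inner_smul_right, smul_eq_mul]
    ring
  rw [cc, gram_smul, adjugate_smul, e, smul_mulVec, mulVec_smul, smul_smul, ← pow_succ,
    Fintype.card_fin, Nat.sub_add_cancel i.pos, ← pow_mul]
  rfl

theorem QE_smul (l : ℝ) (v : Fin k → F) (u : F) :
    QE (l • v) (l • u) = l ^ (2 * k + 1) • QE v u := by
  simp only [QE, gE_smul, cc_smul, Pi.smul_apply, smul_sub, Finset.smul_sum, smul_smul]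
  congr 1
  · congr 1; ring
  · exact Finset.sum_congr rfl fun i _ => by congr 1; ring

theorem inner_QE (v : Fin k → F) (u : F) (j : Fin k) : ⟪v j, QE v u⟫ = 0 := by
  have e : gram ℝ v *ᵥ cc v u = gE v • fun j => ⟪v j, u⟫ := by
    rw [cc, mulVec_mulVec, mul_adjugate, smul_mulVec, one_mulVec, gE]
  have e1 := congrFun e j
  simp only [mulVec, dotProduct, gram_apply, Pi.smul_apply, smul_eq_mul] at e1
  simp only [QE, inner_sub_right, inner_sum, real_inner_smul_right, ← e1, mul_comm, sub_self]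

theorem norm_QE (v : Fin k → F) (u : F) (c : Fin k → ℝ) :
    ‖QE v u‖ ≤ gE v * ‖u - ∑ i, c i • v i‖ := by
  have z : ∀ d : Fin k → ℝ, ⟪∑ i, d i • v i, QE v u⟫ = 0 := fun d => by
    simp only [sum_inner, real_inner_smul_left, inner_QE, mul_zero, Finset.sum_const_zero]
  have e : ‖QE v u‖ * ‖QE v u‖ = gE v * ⟪u - ∑ i, c i • v i, QE v u⟫ := by
    rw [← real_inner_self_eq_norm_mul_norm, inner_sub_left, z, sub_zero]
    nth_rw 1 [QE]
    rw [inner_sub_left, z, sub_zero, real_inner_smul_left]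
  have g0 := gE_nonneg v
  rcases (norm_nonneg (QE v u)).eq_or_lt with h | h
  · rw [← h]; positivity
  · refine le_of_mul_le_mul_right ?_ h
    rw [e, mul_assoc]
    exact mul_le_mul_of_nonneg_left (real_inner_le_norm _ _) g0

theorem le_gE (v : Fin k → F) {m : ℝ} (hm : 0 ≤ m)
    (h : ∀ c : EuclideanSpace ℝ (Fin k), m * ‖c‖ ≤ ‖∑ i, c i • v i‖) : m ^ (2 * k) ≤ gE v := by
  have hA := isHermitian_gram ℝ v
  rw [gE, hA.det_eq_prod_eigenvalues, pow_mul, ← Fin.prod_const]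
  refine Finset.prod_le_prod (fun _ _ => sq_nonneg m) fun i _ => ?_
  have h1 := h (hA.eigenvectorBasis i)
  rw [hA.eigenvectorBasis.norm_eq_one, mul_one] at h1
  rw [hA.eigenvalues_eq, star_dotProduct_gram_mulVec, real_inner_self_eq_norm_sq]
  exact pow_le_pow_left₀ hm h1 2

variable {X : Type} [NormedAddCommGroup X] [NormedSpace ℝ X]

theorem cd_det {M : X → Matrix (Fin k) (Fin k) ℝ} (h : ∀ i j, ContDiff ℝ ∞ fun x => M x i j) :
    ContDiff ℝ ∞ fun x => (M x).det := by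
  simp only [det_apply']
  exact ContDiff.sum fun σ _ => contDiff_const.mul (contDiff_prod fun i _ => h _ _)

theorem cd_gE {v : X → Fin k → F} (h : ∀ i, ContDiff ℝ ∞ fun x => v x i) :
    ContDiff ℝ ∞ fun x => gE (v x) := cd_det fun i j => (h i).inner ℝ (h j)

theorem cd_QE {v : X → Fin k → F} {u : X → F} (h : ∀ i, ContDiff ℝ ∞ fun x => v x i)
    (hu : ContDiff ℝ ∞ u) : ContDiff ℝ ∞ fun x => QE (v x) (u x) := by
  refine ((cd_gE h).smul hu).sub (ContDiff.sum fun i _ => ContDiff.smul ?_ (h i))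
  simp only [cc, mulVec, dotProduct, adjugate_apply]
  refine ContDiff.sum fun j _ => (cd_det fun a b => ?_).mul ((h j).inner ℝ hu)
  simp only [updateRow_apply]
  split_ifs
  · exact contDiff_const
  · exact (h a).inner ℝ (h b)

end Gm

open Gm

theorem gramS : GramS := by
  intro E G _ _ _ _ _ _
  let e := toEuclidean (E := E)
  let e' := toEuclidean (E := G)
  let v : (G →L[ℝ] E) → Fin (Module.finrank ℝ G) → EuclideanSpace ℝ (Fin (Module.finrank ℝ E)) :=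
    fun V i => e (V (e'.symm (EuclideanSpace.single i 1)))
  have hv : ∀ V (c : EuclideanSpace ℝ (Fin (Module.finrank ℝ G))),
      ∑ i, c i • v V i = e (V (e'.symm c)) := fun V c => by
    simp only [v, ← map_smul, ← map_sum]
    congr 3
    simpa using (EuclideanSpace.basisFun _ ℝ).sum_repr c
  have sv : ∀ (l : ℝ) V, v (l • V) = l • v V := fun l V => by
    funext i
    simp only [v, _root_.smul_apply, map_smul, Pi.smul_apply]
  have cv : ∀ i, ContDiff ℝ ∞ fun V => v V i := fun i =>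
    e.contDiff.comp (contDiff_id.clm_apply contDiff_const)
  obtain ⟨a, a0, ha⟩ : ∃ a, 0 ≤ a ∧ ∀ x, ‖e x‖ ≤ a * ‖x‖ :=
    ⟨_, norm_nonneg _, e.toContinuousLinearMap.le_opNorm⟩
  obtain ⟨b, b0, hb⟩ : ∃ b, 0 ≤ b ∧ ∀ x, ‖e.symm x‖ ≤ b * ‖x‖ :=
    ⟨_, norm_nonneg _, e.symm.toContinuousLinearMap.le_opNorm⟩
  obtain ⟨d, d0, hd⟩ : ∃ d, 0 ≤ d ∧ ∀ x, ‖e' x‖ ≤ d * ‖x‖ :=
    ⟨_, norm_nonneg _, e'.toContinuousLinearMap.le_opNorm⟩
  have p1 : 0 < d * b + 1 := by positivity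
  have p2 : 1 ≤ (d * b + 1) ^ (2 * Module.finrank ℝ G) :=
    one_le_pow₀ (le_add_of_nonneg_left (mul_nonneg d0 b0))
  have p3 := mul_nonneg b0 a0
  refine ⟨fun V => gE (v V), fun z => e.symm (QE (v z.1) (e z.2)), 2 * Module.finrank ℝ G,
    b * a + (d * b + 1) ^ (2 * Module.finrank ℝ G), by linarith, cd_gE cv,
    e.symm.contDiff.comp (cd_QE (fun i => (cv i).comp contDiff_fst) (e.contDiff.comp contDiff_snd)),
    fun l V => ?_, fun l V U => ?_, fun V => gE_nonneg _, fun V U x => ?_, fun V U h => ?_,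
    fun V μ hμ h => ?_⟩
  · simp only [sv, gE_smul]
  · simp only [sv, map_smul, QE_smul]
  · have h1 := norm_QE (v V) (e U) (e' x)
    rw [hv, e'.symm_apply_apply, ← map_sub] at h1
    have g0 := gE_nonneg (v V)
    calc _ ≤ b * (gE (v V) * (a * ‖U - V x‖)) := (hb _).trans (mul_le_mul_of_nonneg_left
          (h1.trans (mul_le_mul_of_nonneg_left (ha _) g0)) b0)
      _ = b * a * gE (v V) * ‖U - V x‖ := by ring
      _ ≤ _ := by gcongr; linarith
  · refine ⟨(gE (v V))⁻¹ • e'.symm (WithLp.toLp 2 (cc (v V) (e U))), le_of_eq ?_⟩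
    have h1 := hv V (WithLp.toLp 2 (cc (v V) (e U)))
    simp only at h h1 ⊢
    rw [QE, h1, ← map_smul e, ← map_sub, e.symm_apply_apply, ← norm_smul_of_nonneg h.le, smul_sub,
      map_smul, smul_inv_smul₀ h.ne']
  · have h1 := le_gE (v V) (div_nonneg hμ p1.le) fun c => by
      rw [hv, div_mul_eq_mul_div, div_le_iff₀ p1]
      have k1 := hd (e'.symm c)
      have k2 := hb (e (V (e'.symm c)))
      rw [e'.apply_symm_apply] at k1
      rw [e.symm_apply_apply] at k2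
      have k3 := mul_le_mul_of_nonneg_left ((h (e'.symm c)).trans k2) d0
      linarith [mul_le_mul_of_nonneg_left k1 hμ, norm_nonneg (e (V (e'.symm c)))]
    rw [div_pow, div_le_iff₀' (by positivity)] at h1
    linarith [mul_nonneg p3 (gE_nonneg (v V))]

end Crest.Agent.N221.NC
end
end

-- ▼ part N221/NC/Grid
section

/-! Row 221, block NC (helper67): `GridS` (Taylor + Lagrange interpolation at separated nodes) and
`AvgS` (averaging over a grid). -/

set_option autoImplicit false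

open Set Metric
open scoped ContDiff Topology Nat

namespace Crest.Agent.N221.NC

namespace GridP

open Finset

/-- Lagrange interpolation at `ρ`-separated nodes of `[0, 1]` -/
lemma lagr {N : ℕ} (c : ℕ → ℝ) {s : Finset ℝ} {ρ η : ℝ} (hρ : 0 < ρ) (hs : s.card = N + 1)
    (h : ∀ t ∈ s, t ∈ Icc (0 : ℝ) 1 ∧ |∑ i ∈ range (N + 1), t ^ i * c i| ≤ η)
    (hsep : ∀ t ∈ s, ∀ t' ∈ s, t ≠ t' → ρ ≤ |t - t'|) {t : ℝ} (ht : t ∈ Icc (0 : ℝ) 1) :
    |∑ i ∈ range (N + 1), t ^ i * c i| ≤ (N + 1) * η / ρ ^ N := by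
  classical
  set b : ℝ → ℝ := fun k => (Lagrange.basis s id k).eval t with hb
  have hpow : ∀ i ∈ range (N + 1), t ^ i = ∑ k ∈ s, b k * k ^ i := by
    intro i hi
    have h1 := Lagrange.eq_interpolate (s := s) (v := id)
      (f := (Polynomial.X : Polynomial ℝ) ^ i) (injOn_id _) (by
      rw [Polynomial.degree_X_pow, hs]
      exact_mod_cast Finset.mem_range.1 hi)
    have h2 := congrArg (Polynomial.eval t) h1
    rw [Lagrange.interpolate_apply, Polynomial.eval_finsetSum] at h2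
    simp only [Polynomial.eval_pow, Polynomial.eval_X, Polynomial.eval_mul,
      Polynomial.eval_C, id] at h2
    rw [h2]
    exact Finset.sum_congr rfl fun k _ => mul_comm _ _
  have hsum : ∑ i ∈ range (N + 1), t ^ i * c i =
      ∑ k ∈ s, b k * ∑ i ∈ range (N + 1), k ^ i * c i := by
    simp only [Finset.mul_sum, ← mul_assoc]
    rw [Finset.sum_comm]
    exact Finset.sum_congr rfl fun i hi => by rw [hpow i hi, Finset.sum_mul]
  have hbk : ∀ k ∈ s, |b k| ≤ (ρ ^ N)⁻¹ := by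
    intro k hk
    have hcard : (s.erase k).card = N := by
      rw [Finset.card_erase_of_mem hk, hs, Nat.add_sub_cancel]
    have h1 : |b k| = ∏ j ∈ s.erase k, |(k - j)⁻¹ * (t - j)| := by
      simp only [hb, Lagrange.basis, Lagrange.basisDivisor, Polynomial.eval_prod,
        Polynomial.eval_mul, Polynomial.eval_C, Polynomial.eval_sub, Polynomial.eval_X,
        Finset.abs_prod, id]
    have h2 : ∀ j ∈ s.erase k, |(k - j)⁻¹ * (t - j)| ≤ ρ⁻¹ := by
      intro j hj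
      have hj' := (h j (Finset.mem_of_mem_erase hj)).1
      have h3 : |t - j| ≤ 1 := abs_le.2 ⟨by linarith [ht.1, hj'.2], by linarith [ht.2, hj'.1]⟩
      have h4 := hsep k hk j (Finset.mem_of_mem_erase hj) (Finset.ne_of_mem_erase hj).symm
      rw [abs_mul, abs_inv]
      exact (mul_le_of_le_one_right (by positivity) h3).trans (inv_anti₀ hρ h4)
    rw [h1]
    refine (Finset.prod_le_prod (fun _ _ => abs_nonneg _) h2).trans (le_of_eq ?_)
    rw [Finset.prod_const, hcard, inv_pow]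
  rw [hsum]
  calc |∑ k ∈ s, b k * ∑ i ∈ range (N + 1), k ^ i * c i| ≤ ∑ _k ∈ s, (ρ ^ N)⁻¹ * η := by
        refine (Finset.abs_sum_le_sum_abs _ _).trans (Finset.sum_le_sum fun k hk => ?_)
        rw [abs_mul]
        exact mul_le_mul (hbk k hk) (h k hk).2 (abs_nonneg _) (by positivity)
    _ = (N + 1) * η / ρ ^ N := by
        rw [Finset.sum_const, hs, nsmul_eq_mul]
        push_cast
        ring

end GridP

theorem gridS : GridS := by
  intro N f s ρ η ε hρ _ hf hε hs h hsep t ht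
  have hε0 : 0 ≤ ε := (abs_nonneg _).trans (hε 0 ⟨le_rfl, zero_le_one⟩)
  have hat : ∀ s ∈ Icc (0 : ℝ) 1, ContDiffAt ℝ (N + 1 : ℕ) f s := fun s hs =>
    (hf s hs).of_le (by exact_mod_cast le_top)
  have hon : ContDiffOn ℝ (N + 1) f (Icc 0 1) := fun s hs => by
    exact_mod_cast (hat s hs).contDiffWithinAt
  have hbd : ∀ s ∈ Icc (0 : ℝ) 1, ‖iteratedDerivWithin (N + 1) f (Icc 0 1) s‖ ≤ ε := by
    intro s hs
    rw [iteratedDerivWithin_eq_iteratedDeriv (uniqueDiffOn_Icc zero_lt_one) (hat s hs) hs]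
    exact hε s hs
  set c : ℕ → ℝ := fun k => (k ! : ℝ)⁻¹ * iteratedDerivWithin k f (Icc 0 1) 0 with hc
  have hrem : ∀ s ∈ Icc (0 : ℝ) 1, |f s - ∑ i ∈ Finset.range (N + 1), s ^ i * c i| ≤ ε := by
    intro s hs
    have h1 := taylor_mean_remainder_bound zero_le_one hon hs hbd
    have h2 : taylorWithinEval f N (Icc 0 1) 0 s = ∑ i ∈ Finset.range (N + 1), s ^ i * c i := by
      rw [taylor_within_apply]
      exact Finset.sum_congr rfl fun i _ => by rw [hc, smul_eq_mul, sub_zero]; ring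
    rw [h2, sub_zero] at h1
    refine h1.trans ?_
    have h3 : (1 : ℝ) ≤ (N ! : ℝ) := by exact_mod_cast Nat.factorial_pos N
    refine (div_le_self (mul_nonneg hε0 (pow_nonneg hs.1 _)) h3).trans ?_
    exact mul_le_of_le_one_right hε0 (pow_le_one₀ hs.1 hs.2)
  have h4 := GridP.lagr c (η := η + ε) hρ hs (fun u hu => ⟨(h u hu).1, by
    have h5 := abs_sub_abs_le_abs_sub (∑ i ∈ Finset.range (N + 1), u ^ i * c i) (f u)
    rw [abs_sub_comm] at h5
    linarith [hrem u (h u hu).1, (h u hu).2]⟩) hsep ht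
  have h6 := abs_sub_abs_le_abs_sub (f t) (∑ i ∈ Finset.range (N + 1), t ^ i * c i)
  linarith [hrem t ht]

theorem avgS : AvgS := by
  intro n m N h Bad u v hm hu hv hB hh
  classical
  have hm' : (0 : ℝ) < m := by exact_mod_cast hm
  have h1 : ∀ i ∈ Finset.range n, ∑ l ∈ Finset.range m, h i l ≤ m * u + N * v := by
    intro i hi
    have hi' := Finset.mem_range.1 hi
    have h2 : (((Finset.range m).filter (Bad i)).card : ℝ) ≤ N := by
      exact_mod_cast hB i hi' _ fun l hl =>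
        ⟨Finset.mem_range.1 (Finset.mem_filter.1 hl).1, (Finset.mem_filter.1 hl).2⟩
    calc ∑ l ∈ Finset.range m, h i l
        ≤ ∑ l ∈ Finset.range m, (u + if Bad i l then v else 0) := by
          refine Finset.sum_le_sum fun l hl => ?_
          have h3 := hh i hi' l (Finset.mem_range.1 hl)
          split_ifs with hb
          · linarith [h3.1]
          · linarith [h3.2 hb]
      _ = m * u + ((Finset.range m).filter (Bad i)).card * v := by
          rw [Finset.sum_add_distrib, ← Finset.sum_filter]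
          simp
      _ ≤ _ := by gcongr
  have h4 : ∑ l ∈ Finset.range m, ∑ i ∈ Finset.range n, h i l ≤
      ∑ _l ∈ Finset.range m, (n * u + n * N * v / m) := by
    rw [Finset.sum_comm]
    refine (Finset.sum_le_sum h1).trans (le_of_eq ?_)
    simp only [Finset.sum_const, Finset.card_range, nsmul_eq_mul]
    field_simp
  obtain ⟨l, hl, h5⟩ := Finset.exists_le_of_sum_le ⟨0, Finset.mem_range.2 hm⟩ h4
  exact ⟨l, Finset.mem_range.1 hl, h5⟩

end Crest.Agent.N221.NC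
end

-- ▼ part N221/Ni/PB
section

/-! Row 221, block Ni (helper80): the polygon, all leaves plugged in. -/

namespace Crest.Agent.N221

theorem coreB : NC.CoreF :=
  have hA := NC.apS NC.escS NC.extS
  NC.coreF NC.escS (NC.cmpF' hA) (NC.angF (NC.angF1 NC.gramS NC.gridS hA NC.knF) (NC.cmpF' hA))
    NC.avgS

theorem polyB : PolyS := polyS_of coreB chnS (ndS flS psS) (lkS flS psS (bkS flS psS))

end Crest.Agent.N221
end

-- ▼ part N221/G0/So3
section

/-! Row 221, block G0/SOURCES (helper63): a chain that ends in a source at the scale `ρ`. -/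

set_option autoImplicit false
set_option linter.unusedSectionVars false

open Set Metric Filter Topology
open scoped ContDiff

namespace Crest.Agent.N221.G0

theorem rinv_jets (k : ℕ) (B : ℝ) : ∃ C : ℝ, 0 ≤ C ∧ ∀ t : ℝ, 1 / 2 ≤ t → t ≤ B →
    ∀ i ≤ k, ‖iteratedFDeriv ℝ i (fun t : ℝ => t⁻¹) t‖ ≤ C := by
  have bd : ∀ i : ℕ, ∃ C, ∀ t ∈ Icc (1 / 2 : ℝ) B,
      ‖iteratedFDeriv ℝ i (fun t : ℝ => t⁻¹) t‖ ≤ C := fun i =>
    isCompact_Icc.exists_bound_of_continuousOn fun t ht =>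
      ((contDiffAt_inv ℝ (n := ∞) (by linarith [ht.1] : t ≠ 0)).iteratedFDeriv_right (m := 0)
        (i := i) (by exact_mod_cast le_top)).continuousAt.continuousWithinAt
  choose C hC using bd
  exact ⟨cb C k, cb_nonneg C k, fun t h1 h2 i hi => (hC i t ⟨h1, h2⟩).trans (le_cb C hi)⟩

theorem exists_margin {T : ℕ} {u : ℕ → ℝ} {R : ℝ} (h : ∀ j ≤ T, u j < R) :
    ∃ R1 > 0, ∀ j ≤ T, u j + R1 ≤ R := by
  obtain ⟨j, hj, hm⟩ := (Finset.range (T + 1)).exists_max_image u ⟨0, by simp⟩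
  have := h j (Nat.lt_succ_iff.1 (Finset.mem_range.1 hj))
  exact ⟨R - u j, by linarith, fun i hi => by
    linarith [hm i (Finset.mem_range.2 (Nat.lt_succ_of_le hi))]⟩

theorem orb_zero {X : Type} [Zero X] {φ : ℕ → X → X} (h : ∀ j, φ j 0 = 0) : ∀ j, orb φ 0 j = 0
  | 0 => rfl
  | j + 1 => by rw [orb, orb_zero h j, h]

/-- jets of the last dual section -/
theorem last_jets (k : ℕ) (c d : ℝ) (c0 : 0 ≤ c) (d0 : 0 ≤ d) : ∃ C : ℝ, 0 ≤ C ∧
    ∀ (E X V : Type) [NormedAddCommGroup E] [NormedSpace ℝ E] [NormedAddCommGroup X]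
    [NormedSpace ℝ X] [NormedAddCommGroup V] [NormedSpace ℝ V] (ι : E → X) (G : X → V)
    (l : V →L[ℝ] ℝ) (y : E), ‖l‖ ≤ 1 → ContDiffAt ℝ ∞ ι y → ContDiffAt ℝ ∞ G (ι y) →
    (∀ i, 1 ≤ i → i ≤ k → ‖iteratedFDeriv ℝ i ι y‖ ≤ c) →
    (∀ i ≤ k, ‖iteratedFDeriv ℝ i G (ι y)‖ ≤ d) → 1 / 2 ≤ l (G (ι y)) →
    ∀ i ≤ k, ‖iteratedFDeriv ℝ i (fun x => (l (G (ι x)))⁻¹ • l) y‖ ≤ C := by
  set K : ℝ := k.factorial * (1 + c) ^ k * d with hK
  have K0 : 0 ≤ K := by positivity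
  obtain ⟨I, I0, hI⟩ := rinv_jets k K
  refine ⟨k.factorial * (1 + K) ^ k * I, by positivity,
    fun E X V _ _ _ _ _ _ ι G l y hl sι sG dι dG h i hi => ?_⟩
  have s1 : ContDiffAt ℝ ∞ (fun x => G (ι x)) y := ContDiffAt.comp (g := G) _ sG sι
  have s2 : ContDiffAt ℝ ∞ (fun x => l (G (ι x))) y := lin_sm l s1
  have d1 := comp_le c0 sG sι dG fun i i1 hi => (dι i i1 hi).trans (by linarith)
  have d2 : ∀ i ≤ k, ‖iteratedFDeriv ℝ i (fun x => l (G (ι x))) y‖ ≤ K := fun i hi => by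
    have := lin_le l i zero_le_one (fun a => (l.le_opNorm a).trans
      (mul_le_mul_of_nonneg_right hl (norm_nonneg _))) (cda s1 i)
    rw [one_mul] at this
    exact this.trans (d1 i hi)
  have h0 : l (G (ι y)) ≤ K := by
    have := d2 0 k.zero_le
    rw [norm_iteratedFDeriv_zero] at this
    exact (le_abs_self _).trans this
  have sI : ContDiffAt ℝ ∞ (fun t : ℝ => t⁻¹) (l (G (ι y))) := contDiffAt_inv ℝ (by linarith)
  have d3 := comp_le (g := fun t : ℝ => t⁻¹) (f := fun x => l (G (ι x))) K0 sI s2 (hI _ h h0)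
    fun i _ hi => (d2 i hi).trans (by linarith)
  have := lin_le (ContinuousLinearMap.toSpanSingleton ℝ l) i (β := 1) zero_le_one
    (fun a => by
      rw [ContinuousLinearMap.toSpanSingleton_apply, norm_smul, mul_comm]
      exact mul_le_mul_of_nonneg_right hl (norm_nonneg _))
    (cda (ContDiffAt.comp (g := fun t : ℝ => t⁻¹) y sI s2) i)
  rw [one_mul] at this
  exact this.trans (d3 i hi)

/-- the pull back of a source -/
theorem src_amb (V : Type) [NormedAddCommGroup V] [NormedSpace ℝ V] [FiniteDimensional ℝ V]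
    (b L θ : ℝ) (c C : ℕ → ℝ) (hb : 1 ≤ b) (hL : 1 ≤ L) (hθ : 1 ≤ θ) (hC : ∀ i, 1 ≤ C i) :
    ∃ D : ℕ → ℝ, (∀ k, 1 ≤ D k) ∧
    ∀ (E X : Type) [NormedAddCommGroup E] [NormedSpace ℝ E] [NormedAddCommGroup X]
    [NormedSpace ℝ X] (R r q ρ : ℝ) (T : ℕ)
    (ι : ℕ → E → X) (ψ : ℕ → E → E) (φ : ℕ → X → X) (A : ℕ → X → V →L[ℝ] V) (Θ : ℕ → X → V)
    (z₁ : X), Amb R r q L b c T ι ψ φ A Θ → 0 < r → θ * q ≤ 1 → 0 < ρ → ρ ≤ 1 → θ⁻¹ ^ T ≤ ρ →
    ContDiff ℝ ∞ (Θ T) → ‖Θ T z₁‖ = 1 →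
    (∀ i, ∀ z ∈ ball z₁ ρ, ‖iteratedFDeriv ℝ i (Θ T) z‖ ≤ C i / ρ ^ i) →
    (∀ y ∈ ball (0 : E) R, 4 * C 1 * ‖ι T (orb ψ y T) - z₁‖ ≤ ρ) →
    ∃ l : E → V →L[ℝ] ℝ, ∀ y ∈ ball (0 : E) R,
      ContDiffAt ℝ ∞ l y ∧ l y (Θ 0 (ι 0 y)) = 1 ∧
      (∀ k, ‖iteratedFDeriv ℝ k l y‖ ≤ D k * (2 * b) ^ T) ∧
      (∀ s, 0 < s → s * (θ * L) ^ T ≤ 1 → ∀ k,
        ‖iteratedFDeriv ℝ k (fun p : E × X => Θ 0 (ι 0 p.1 + s • p.2)) (y, 0)‖ ≤
          D k * (2 * b) ^ T) ∧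
      ∀ z, L ^ T * ‖z - ι 0 y‖ < r → L ^ T * ‖z - ι 0 y‖ < ρ / 2 →
        (∀ j < T, Tb R r (ι j) (orb φ z j)) ∧ orb φ z T ∈ ball z₁ ρ ∧ ContDiffAt ℝ ∞ (Θ 0) z ∧
        ∀ k, ‖iteratedFDeriv ℝ k (Θ 0) z‖ ≤ D k * (2 * b * L ^ k) ^ T / ρ ^ k := by
  choose C1 h1 H1 using fun k => crude k L b c hb hL
  choose C2 h2 H2 using fun k => blow k b (fun k => θ * c k) hb
  choose C3 h3 H3 using fun k => dual V k b (fun k => θ * c k) hb
  choose C4 h4 H4 using fun k =>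
    last_jets k (cb (fun k => θ * c k) k) (cb C k) (cb_nonneg _ k) (cb_nonneg _ k)
  obtain ⟨_, _, hI⟩ := inv_jets (V := V) 0 b
  have C0 := cb_nonneg C
  refine ⟨fun k => 1 + C1 k * cb C k + C2 k * cb C k + C3 k * C4 k, fun k => by
    have := h1 k; have := h2 k; have := h3 k; have := h4 k; have := C0 k
    have : 0 ≤ C1 k * cb C k + C2 k * cb C k + C3 k * C4 k := by positivity
    linarith, fun E X _ _ _ _ R r q ρ T ι ψ φ A Θ z₁ h r0 hq ρ0 ρ1 hρ sQ nQ dQ near => ?_⟩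
  have p1 : ∀ k, 0 ≤ C1 k * cb C k := fun k => mul_nonneg (by linarith [h1 k]) (C0 k)
  have p2 : ∀ k, 0 ≤ C2 k * cb C k := fun k => mul_nonneg (by linarith [h2 k]) (C0 k)
  have p3 : ∀ k, 0 ≤ C3 k * C4 k := fun k => mul_nonneg (by linarith [h3 k]) (h4 k)
  obtain ⟨l0, n0, e0⟩ := exists_dual_vector ℝ (Θ T z₁) (by rw [nQ]; exact one_ne_zero)
  have nr : ∀ y ∈ ball (0 : E) R, ‖ι T (orb ψ y T) - z₁‖ ≤ ρ / 4 := fun y hy => by
    have := near y hy
    nlinarith [hC 1, norm_nonneg (ι T (orb ψ y T) - z₁)]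
  have nb : ∀ y ∈ ball (0 : E) R, ι T (orb ψ y T) ∈ ball z₁ ρ := fun y hy =>
    mem_ball_iff_norm.2 (by linarith [nr y hy])
  have fl : ∀ y ∈ ball (0 : E) R, 1 / 2 ≤ l0 (Θ T (ι T (orb ψ y T))) := fun y hy => by
    have a := lip_ball (L := C 1 / ρ) (fun z _ => sQ.contDiffAt) (fun z hz => by
      simpa [norm_iteratedFDeriv_one] using dQ 1 z hz) (nb y hy) (mem_ball_self ρ0)
    have a2 : C 1 / ρ * ‖ι T (orb ψ y T) - z₁‖ ≤ 1 / 4 := by
      rw [div_mul_eq_mul_div, div_le_iff₀ ρ0]; linarith [near y hy]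
    have a3 := l0.le_opNorm (Θ T (ι T (orb ψ y T)) - Θ T z₁)
    rw [n0, one_mul, map_sub, e0, nQ, Real.norm_eq_abs] at a3
    have a4 := (abs_le.1 (a3.trans (a.trans a2))).1
    simp only [RCLike.ofReal_real_eq_id, id_eq] at a4
    linarith
  obtain ⟨l, lT, hl⟩ := exists_pb T ψ (fun j x => rc V (Ring.inverse (A j (ι j x))))
    fun x => (l0 (Θ T (ι T x)))⁻¹ • l0
  refine ⟨l 0, fun y hy => ?_⟩
  have m := h.orb_mem hy
  have tb : ∀ j ≤ T, Tb R r (ι j) (ι j (orb ψ y j)) := fun j hj => ⟨_, m j hj, by simpa using r0⟩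
  have key : ∀ j ≤ T, ContDiffAt ℝ ∞ (l j) (orb ψ y j) ∧
      l j (orb ψ y j) (Θ j (ι j (orb ψ y j))) = 1 := by
    intro j hj
    induction hj using Nat.decreasingInduction with
    | self =>
      have := fl y hy
      rw [lT]
      refine ⟨((lin_sm l0 (ContDiffAt.comp (g := Θ T) _ sQ.contDiffAt
        ((h.pl T le_rfl).sm _ (m T le_rfl)))).inv (by
          show l0 (Θ T (ι T (orb ψ y T))) ≠ 0
          linarith)).smul contDiffAt_const, ?_⟩
      show (l0 (Θ T (ι T (orb ψ y T))))⁻¹ * l0 (Θ T (ι T (orb ψ y T))) = 1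
      exact inv_mul_cancel₀ (by linarith)
    | of_succ j hj ih =>
      have a := h.st j hj
      obtain ⟨u, -, sI, -⟩ := hI _ (a.nA _ (tb j hj.le)) (a.iA _ (tb j hj.le))
      rw [show l j = fun x => rc V (Ring.inverse (A j (ι j x))) (l (j + 1) (ψ j x)) from
        funext (hl j hj)]
      refine ⟨bil_sm (rc V) (ContDiffAt.comp (g := Ring.inverse) _ sI
        (ContDiffAt.comp (g := A j) _ (a.sA _ (tb j hj.le)) ((h.pl j hj.le).sm _ (m j hj.le))))
        (ContDiffAt.comp (g := l (j + 1)) _ ih.1 (a.pψ.sm _ (m j hj.le))), ?_⟩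
      show l (j + 1) (orb ψ y (j + 1)) (Ring.inverse (A j (ι j (orb ψ y j)))
        (Θ j (ι j (orb ψ y j)))) = 1
      rw [h.rel j hj, ← mul_apply_eq_comp, Ring.inverse_mul_cancel _ u, a.gr _ (m j hj.le)]
      exact ih.2
  obtain ⟨R1, R0, hR⟩ := exists_margin fun j hj => mem_ball_zero_iff.1 (m j hj)
  set μ : ℕ → ℝ := fun j => max ρ (θ⁻¹ ^ j) with hμ
  have θ0 : 0 < θ := by linarith
  have μ0 : ∀ j, 0 < μ j := fun j => lt_max_of_lt_left ρ0
  have μ1 : ∀ j, μ j ≤ 1 := fun j =>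
    max_le ρ1 (pow_le_one₀ (inv_nonneg.2 θ0.le) (inv_le_one_of_one_le₀ hθ))
  have μθ : ∀ j, μ j ≤ θ * μ (j + 1) := fun j => max_le
    ((le_max_left _ _).trans (le_mul_of_one_le_left (μ0 (j + 1)).le hθ)) (by
      have : θ⁻¹ ^ j = θ * θ⁻¹ ^ (j + 1) := by rw [pow_succ', mul_inv_cancel_left₀ θ0.ne']
      rw [this]
      exact mul_le_mul_of_nonneg_left (le_max_right _ _) θ0.le)
  have μz : μ 0 = 1 := by simp [hμ, ρ1]
  have μT : μ T = ρ := max_eq_left hρ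
  have h' := h.sc R0 hR μ0 μ1 μθ hθ hq
  have oz := orb_zero (φ := fun j => sc (μ j) (μ (j + 1)) (orb ψ y j) (ψ j))
    (fun j => sc_zero _ _ _ _) T
  have sG : ∀ w, ContDiffAt ℝ ∞ (fun w => Θ T (ι T (orb ψ y T) + μ T • w)) w := fun w =>
    aff_sm sQ.contDiffAt
  have dG : ∀ k, ∀ i ≤ k, ‖iteratedFDeriv ℝ i (fun w => Θ T (ι T (orb ψ y T) + μ T • w)) 0‖ ≤
      cb C k := fun k i hi => by
    refine (aff_le (μ0 T).le i sQ.contDiffAt).trans ?_
    rw [smul_zero, add_zero, μT]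
    refine (mul_le_mul_of_nonneg_left (dQ i _ (nb y hy)) (by positivity)).trans ?_
    rw [mul_div_cancel₀ _ (by positivity)]
    exact le_cb C hi
  have t0 : 0 ≤ (2 * b) ^ T := by positivity
  refine ⟨(key 0 T.zero_le).1, (key 0 T.zero_le).2, fun k => ?_, fun s s0 s1 k => ?_,
    fun z z1 z2 => ?_⟩
  · have e : (fun s => l T (orb ψ y T + μ T • s)) = fun s => (l0 (Θ T (ι T (orb ψ y T) + μ T •
        sc (μ T) (μ T) (orb ψ y T) (ι T) s)))⁻¹ • l0 := by
      funext s; rw [lT, add_sc (μ0 T).ne']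
    have := H3 k E X R1 r _ _ T _ _ _ _ _ (fun j s => l j (orb ψ y j + μ j • s)) 0 (C4 k) h' r0 hq
      (mem_ball_self R0) (fun j hj s => by
        rw [hl j hj, add_sc (μ0 j).ne', orb, add_sc (μ0 _).ne'])
      (by rw [oz]; exact aff_sm (by simpa using (key T le_rfl).1))
      (by
        rw [oz, e]
        exact H4 k E X V _ (fun w => Θ T (ι T (orb ψ y T) + μ T • w)) l0 0 n0.le
          ((h'.pl T le_rfl).sm _ (mem_ball_self R0)) (sG _)
          (fun i i1 hi => ((h'.pl T le_rfl).bd i i1 _ (mem_ball_self R0)).trans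
            (le_cb (fun k => θ * c k) hi))
          (by rw [sc_zero]; exact dG k) (by simpa [sc_zero] using fl y hy)) k le_rfl
    simp only [μz, one_smul, orb] at this
    rw [iteratedFDeriv_comp_add_left, add_zero] at this
    refine this.trans ?_
    nlinarith [p1 k, p2 k]
  · have := H2 k E X V R1 r _ _ T _ _ _ _ _ 0 (cb C k) s h' r0 hq
      (one_le_mul_of_one_le_of_one_le hθ hL) (mem_ball_self R0) s0 s1 (sG _)
      (by rw [oz, sc_zero]; exact dG k) k le_rfl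
    have e : (fun p : E × X => Θ 0 (ι 0 (orb ψ y 0) + μ 0 •
        (sc (μ 0) (μ 0) (orb ψ y 0) (ι 0) p.1 + s • p.2))) = fun p =>
        (fun p : E × X => Θ 0 (ι 0 p.1 + s • p.2)) ((y, 0) + p) := by
      funext p
      simp [μz, sc, orb, ← add_assoc]
    rw [e, iteratedFDeriv_comp_add_left (f := fun p : E × X => Θ 0 (ι 0 p.1 + s • p.2))] at this
    simp only [Prod.mk_add_mk, add_zero] at this
    refine this.trans ?_
    nlinarith [p1 k, p3 k]
  · have tz := fun j (hj : j < T) => h.tb hL hy z1 hj.le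
    have mz : orb φ z T ∈ ball z₁ ρ := by
      have a := h.tube hL hy z1 T le_rfl
      have a2 := norm_sub_le_norm_sub_add_norm_sub (orb φ z T) (ι T (orb ψ y T)) z₁
      exact mem_ball_iff_norm.2 (by linarith [nr y hy])
    refine ⟨tz, mz, h.sm tz sQ.contDiffAt 0 T.zero_le, fun k => ?_⟩
    have := H1 k E X V R r q T ι ψ φ A Θ z (cb C k / ρ ^ k) h tz sQ.contDiffAt
      (fun i hi => (dQ i _ mz).trans (div_le_div₀ (C0 k) (le_cb C hi) (by positivity)
        (pow_le_pow_of_le_one ρ0.le ρ1 hi))) k le_rfl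
    refine this.trans ?_
    rw [← mul_div_assoc]
    refine div_le_div_of_nonneg_right ?_ (by positivity)
    have t1 : 0 ≤ (2 * b * L ^ k) ^ T := by positivity
    nlinarith [p2 k, p3 k]

end Crest.Agent.N221.G0
end

-- ▼ part N221/G0/So4
section

/-! Row 221, block G0/SOURCES (helper63): `soX : SoX`, `soS : SoS`. -/

set_option autoImplicit false
set_option linter.unusedSectionVars false

open Set Metric Filter Topology Real
open scoped ContDiff

namespace Crest.Agent.N221.G0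

theorem ev_pow_le {x ε : ℝ} (M : ℝ) (x0 : 0 ≤ x) (x1 : x < 1) (hε : 0 < ε) :
    ∀ᶠ j : ℕ in atTop, M * x ^ j ≤ ε := by
  have := (tendsto_pow_atTop_nhds_zero_of_lt_one x0 x1).const_mul M
  rw [mul_zero] at this
  exact this.eventually (eventually_le_nhds hε)

namespace Sy

variable {E W : Type} [NormedAddCommGroup E] [NormedSpace ℝ E] [NormedAddCommGroup W]
  [NormedSpace ℝ W] {S : Sy E W}

theorem Ok.plq (hS : S.Ok) (i : Bool) (f : S.F) {z : E × E} (hz : ‖z‖ < S.R0) {c : ℕ → ℝ}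
    (hc : ∀ k, 1 + S.c k ≤ c k) : Plq S.R c (S.pt i f z) :=
  ⟨fun y hy => contDiffAt_id.prodMk (hS.g_jet i f z hz y (hS.sub hy)).1, fun k hk y hy => by
    have a := hS.g_jet i f z hz y (hS.sub hy)
    have h1 := prod_le (f := fun y : E => y) k contDiffAt_id a.1
    have h2 := (lin_jet (ContinuousLinearMap.id ℝ E) hk y).trans ContinuousLinearMap.norm_id_le
    exact h1.trans ((add_le_add h2 (a.2 k)).trans (hc k))⟩

theorem St.tb {i : Bool} {f f' : S.F} {z z' : E × E} {φ : E × E → E × E}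
    {A : E × E → W →L[ℝ] W} (h : S.St i f z f' z' φ A) {w : E × E}
    (hw : Tb S.R S.r0 (S.pt i f z) w) : S.Am f f' φ A w := by
  obtain ⟨y, hy, hw⟩ := hw
  exact h.am y hy w (mem_ball_iff_norm.2 hw)

theorem Ok.amb [FiniteDimensional ℝ W] (hS : S.Ok) (n : ℕ) : ∃ c' : ℕ → ℝ,
    ∀ (i : Bool) (T : ℕ) (c : S.Cd) (Θ : ℕ → E × E → Vf W n), c.Ok i T → ‖c.z T‖ < S.R0 →
      (∀ j < T, ∀ z, Θ j z = pbk n (c.A j z) (Θ (j + 1) (c.φ j z))) →
      Amb S.R S.r0 S.q (S.c 1) (S.b ^ n) c' T (c.pt i) (c.ψ i) c.φ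
        (fun j z => pbk n (c.A j z)) Θ := by
  obtain ⟨d, hd⟩ := pbk_jet (W := W) n S.c
  have b0 : 0 ≤ S.b := by linarith [hS.b1]
  have e1 : ∀ k, 1 + S.c k ≤ 1 + S.c k + |d k| := fun k => by linarith [abs_nonneg (d k)]
  have e2 : ∀ k, S.c k ≤ 1 + S.c k + |d k| := fun k => by linarith [abs_nonneg (d k)]
  have e3 : ∀ k, d k ≤ 1 + S.c k + |d k| := fun k => by linarith [le_abs_self (d k), hS.c1 k]
  refine ⟨fun k => 1 + S.c k + |d k|, fun i T c Θ h hT hΘ => ⟨fun j hj => ?_, fun j hj => ?_, hΘ⟩⟩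
  · rcases hj.lt_or_eq with hj | rfl
    · exact hS.plq i _ (h j hj).lab e1
    · exact hS.plq i _ hT e1
  · have a := h j hj
    exact ⟨⟨fun y hy => (a.jl y hy).1, fun k _ y hy => ((a.jl y hy).2 k).trans (e2 k)⟩, a.con,
      fun y hy => a.mem hy, a.gr, fun z hz => (a.tb hz).jφ.1,
      fun k _ z hz => ((a.tb hz).jφ.2 k).trans (e2 k), fun z hz => (a.tb hz).jφ.d1,
      fun z hz => (hd _ _ _ (a.tb hz).jA).1,
      fun k z hz => ((hd _ _ _ (a.tb hz).jA).2 k).trans (e3 k),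
      fun z hz => (norm_pbk_le _).trans (pow_le_pow_left₀ (norm_nonneg _) (a.tb hz).nA n),
      fun z hz v => pbk_floor b0 (a.tb hz).iA v⟩

theorem orb_eq (c : S.Cd) (i : Bool) (y : E) : ∀ j, orb (c.ψ i) y j = c.orb i y j
  | 0 => rfl
  | j + 1 => by rw [orb, orb_eq c i y j, Cd.orb]

end Sy

theorem soX : SoX := by
  intro E W _ _ _ _ _ _ S hS n f hs
  have q0 := hS.qp
  have q1 := hS.q1
  have L1 := hS.c1 1
  have b1 : 1 ≤ S.b ^ (n + 1) := one_le_pow₀ hS.b1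
  have θ1 : 1 ≤ S.q⁻¹ := (one_le_inv₀ q0).2 q1.le
  set b := S.b ^ (n + 1) with hb
  set L := S.c 1 with hL
  set θ := S.q⁻¹ with hθ
  have Lθ : 1 ≤ θ * L := one_le_mul_of_one_le_of_one_le θ1 L1
  set B := 2 * b * (θ * L) with hB
  have B1 : 2 * b ≤ B := le_mul_of_one_le_right (by linarith) Lθ
  have B2 : θ * L ≤ B := le_mul_of_one_le_left (by linarith) (by linarith)
  have B3 : 1 ≤ B := Lθ.trans B2
  have B0 : 0 < B := by linarith
  have ea : ∀ j : ℕ, exp ((2 * log B + 1) * j) = B ^ (2 * j) * exp 1 ^ j := fun j => by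
    rw [add_mul, exp_add, ← exp_nat_mul, ← rpow_natCast, rpow_def_of_pos B0]
    congr 2
    · push_cast; ring
    · ring
  have e1 : (1 : ℝ) < exp 1 := by simp
  have x0 : 0 ≤ (exp 1)⁻¹ := by positivity
  have x1 : (exp 1)⁻¹ < 1 := inv_lt_one_of_one_lt₀ e1
  refine ⟨-log S.q, 2 * log B + 1, by linarith [log_neg q0 q1], by linarith [log_nonneg B3],
    fun i K => ?_⟩
  obtain ⟨K2, hK2⟩ := (ev_pow_le (b ^ 2) q0.le q1 (exp_pos (-K - 1))).exists
  obtain ⟨C, ρ₀, ρ0, C1, hC⟩ := hs K2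
  obtain ⟨c', hc'⟩ := hS.amb (n + 1)
  obtain ⟨D, D1, hD⟩ := src_amb (Vf W (n + 1)) b L θ c' C b1 L1 θ1 C1
  have Rp := hS.Rp
  obtain ⟨j₁, hj₁⟩ := eventually_atTop.1 ((ev_pow_le (4 * C 1) q0.le q1 (half_pos ρ0)).and
    ((ev_pow_le (4 * C 1) q0.le q1 one_pos).and
    ((ev_pow_le (C 0 * (4 * C 1)) q0.le q1 (half_pos Rp)).and
    ((ev_pow_le (B ^ 2) x0 x1 one_pos).and ((ev_pow_le (B ^ 2) x0 x1 hS.r0p).and
    (ev_pow_le (b ^ 2 * (C 0 * (4 * C 1) ^ K2)) x0 x1 one_pos))))))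
  refine ⟨fun k => D k * B ^ (2 * (k + 1)), j₁, fun j hj z hz => ?_⟩
  obtain ⟨g1, g2, g3, g4, g5, g6⟩ := hj₁ j hj
  have c1 := C1 1
  have qj : 0 < S.q ^ j := by positivity
  have qj1 : S.q ^ j ≤ 1 := pow_le_one₀ q0.le q1.le
  set ρ := 4 * C 1 * S.q ^ j with hρ
  have ρp : 0 < ρ := by positivity
  have qρ : S.q ^ j ≤ ρ := le_mul_of_one_le_left qj.le (by linarith)
  obtain ⟨z₁, Q, hQ⟩ := hC ρ ρp (by linarith)
  have nz : ‖z₁‖ ≤ S.R / 2 := hQ.near.trans (by rw [hρ, ← mul_assoc]; exact g3)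
  have zR : ‖z₁‖ < S.R0 := by linarith [hS.R8]
  have b01 := hS.b01
  have r1p := hS.r1p
  have hz' : 2 * S.b0 * ‖z‖ ≤ S.r1 / 2 := by
    have : 2 * S.b0 * (2 * S.r2) = S.r1 / 2 := by unfold Sy.r2; field_simp; norm_num
    rw [← this]
    exact mul_le_mul_of_nonneg_left hz.le (by linarith)
  have hz0 : ‖z‖ < S.R0 := by nlinarith [hS.r12, hS.R8, norm_nonneg z]
  obtain ⟨c, hc, f0, pq, ds, eT, zT, en⟩ := hS.app i f ((norm_fst_le z₁).trans (by linarith))
    ((norm_snd_le z₁).trans (by linarith [hS.bR])) j j f z ((hS.pq_of i f hz0).mono hz')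
  set T := j + 1 + (j + 1) with hT
  have T2 : T = 2 + 2 * j := by omega
  obtain ⟨Θ, ΘT, hΘ⟩ := exists_pb T c.φ (fun j z => pbk (n + 1) (c.A j z)) Q
  have h := hc' i T c Θ hc (by rw [zT]; exact zR) hΘ
  obtain ⟨l, hl⟩ := hD E (E × E) _ _ _ ρ T _ _ _ _ _ z₁ h hS.r0p
    (by rw [hθ, inv_mul_cancel₀ q0.ne']) ρp g2
    (by rw [hθ, inv_inv]; exact (pow_le_pow_of_le_one q0.le q1.le (by omega)).trans qρ)
    (by rw [ΘT]; exact hQ.sm) (by rw [ΘT]; exact hQ.one) (by rw [ΘT]; exact hQ.bd) fun y hy => by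
      refine mul_le_mul_of_nonneg_left ?_ (by linarith)
      have m := hS.sub (hc.orb_mem hy T le_rfl)
      have a := hS.pt_lip i f zR m (mem_ball_zero_iff.2 ((norm_fst_le z₁).trans_lt zR))
      rw [hS.pt_self i f zR] at a
      rw [Sy.orb_eq, Sy.Cd.pt, eT, zT]
      refine a.trans ((mul_le_mul_of_nonneg_left (en y hy) (by linarith)).trans ?_)
      have a2 : S.q ^ (j + 1) ≤ S.q ^ j := pow_le_pow_of_le_one q0.le q1.le (by omega)
      have a3 : S.b0 * S.R ≤ 1 := by linarith [hS.RR0, hS.R01, hS.bR]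
      have a4 : 0 ≤ S.q ^ (j + 1) := by positivity
      nlinarith
  have p0 : c.pt i 0 = S.pt i f (c.z 0) := by funext y; rw [Sy.Cd.pt, f0]
  rw [p0] at hl
  have ej : 1 ≤ exp 1 ^ j := one_le_pow₀ e1.le
  have BT : B ^ T = B ^ 2 * B ^ (2 * j) := by rw [T2, pow_add]
  have Bj : 0 < B ^ (2 * j) := by positivity
  have es : exp (-((2 * log B + 1) * j)) * B ^ T = B ^ 2 * (exp 1)⁻¹ ^ j := by
    rw [exp_neg, ea, BT, inv_pow]; field_simp
  have bT : ∀ k, D k * (2 * b) ^ T ≤ D k * B ^ (2 * (k + 1)) * exp ((2 * log B + 1) * j) :=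
    fun k => by
      rw [mul_assoc, ea]
      refine mul_le_mul_of_nonneg_left ((pow_le_pow_left₀ (by linarith) B1 T).trans ?_)
        (by linarith [D1 k])
      rw [BT]
      exact mul_le_mul (pow_le_pow_right₀ B3 (by omega)) (le_mul_of_one_le_right Bj.le ej) Bj.le
        (by positivity)
  refine ⟨c.z 0, Θ 0, l, pq, ?_, fun y hy => ⟨fun w hw => ?_, (hl y hy).1, (hl y hy).2.1,
    fun k => ((hl y hy).2.2.1 k).trans (bT k), fun k =>
      ((hl y hy).2.2.2.1 _ (exp_pos _) ?_ k).trans (bT k)⟩⟩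
  · rw [neg_mul, neg_neg, mul_comm, exp_nat_mul, exp_log q0]
    exact ds
  · have a1 : L ^ T * ‖w - S.pt i f (c.z 0) y‖ < S.q ^ T * (B ^ 2 * (exp 1)⁻¹ ^ j) := by
      rw [← es, mul_left_comm, ← mul_pow, mul_comm (exp _)]
      refine mul_lt_mul' (pow_le_pow_left₀ (by linarith) ?_ T) (mem_ball_iff_norm.1 hw)
        (norm_nonneg _) (by positivity)
      have := mul_le_mul_of_nonneg_left B2 q0.le
      rwa [hθ, mul_inv_cancel_left₀ q0.ne'] at this
    have a2 : S.q ^ T ≤ S.q ^ j := pow_le_pow_of_le_one q0.le q1.le (by omega)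
    have a3 : 0 ≤ B ^ 2 * (exp 1)⁻¹ ^ j := by positivity
    obtain ⟨tz, mz, sm, bd⟩ := (hl y hy).2.2.2.2 w
      (a1.trans_le ((mul_le_of_le_one_left a3 (a2.trans qj1)).trans g5))
      (a1.trans_le ((mul_le_mul a2 g4 a3 qj.le).trans (by rw [hρ]; nlinarith)))
    refine ⟨sm, ?_, fun k => (bd k).trans ?_⟩
    · have := h.err (b' := b) (by linarith) (z := w) (fun j z v => ‖S.io n (c.f j) z v‖)
        fun j hj v => ((hc j hj).tb (tz j hj)).io_le hS n v
      rw [f0, eT, ΘT] at this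
      refine this.trans ((mul_le_mul_of_nonneg_left (hQ.rel _ mz) (by positivity)).trans ?_)
      have a4 : (b ^ 2 * S.q ^ K2) ^ j ≤ exp (-(K * j)) * (exp 1)⁻¹ ^ j := by
        refine (pow_le_pow_left₀ (by positivity) hK2 j).trans_eq ?_
        rw [← exp_neg, ← exp_nat_mul, ← exp_nat_mul, ← exp_add]
        congr 1; ring
      have a5 : 0 ≤ b ^ 2 * (C 0 * (4 * C 1) ^ K2) := by have := C1 0; positivity
      calc b ^ T * (C 0 * ρ ^ K2)
          = b ^ 2 * (C 0 * (4 * C 1) ^ K2) * (b ^ 2 * S.q ^ K2) ^ j := by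
            rw [T2, hρ]; ring
        _ ≤ b ^ 2 * (C 0 * (4 * C 1) ^ K2) * (exp (-(K * j)) * (exp 1)⁻¹ ^ j) :=
            mul_le_mul_of_nonneg_left a4 a5
        _ = exp (-(K * j)) * (b ^ 2 * (C 0 * (4 * C 1) ^ K2) * (exp 1)⁻¹ ^ j) := by ring
        _ ≤ _ := mul_le_of_le_one_right (exp_pos _).le g6
    · have a4 : 1 ≤ θ ^ T * ρ := by
        have := (pow_le_pow_of_le_one q0.le q1.le (show j ≤ T by omega)).trans qρ
        rw [hθ, inv_pow, le_inv_mul_iff₀ (by positivity), mul_one]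
        exact this
      have a5 : exp ((2 * log B + 1) * (k + 1) * j) = (B ^ (2 * j) * exp 1 ^ j) ^ (k + 1) := by
        rw [← ea, ← exp_nat_mul]; congr 1; push_cast; ring
      rw [div_le_iff₀ (by positivity), a5, mul_assoc (D k), mul_assoc (D k), mul_assoc (B ^ _)]
      refine mul_le_mul_of_nonneg_left ?_ (zero_le_one.trans (D1 k))
      calc (2 * b * L ^ k) ^ T ≤ (2 * b * L ^ k) ^ T * (θ ^ T * ρ) ^ k :=
            le_mul_of_one_le_right (by positivity) (one_le_pow₀ a4)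
        _ = (2 * b) ^ T * ((θ * L) ^ T) ^ k * ρ ^ k := by ring
        _ ≤ B ^ T * (B ^ T) ^ k * ρ ^ k := by gcongr
        _ = B ^ (2 * (k + 1)) * ((B ^ (2 * j)) ^ (k + 1) * ρ ^ k) := by rw [BT]; ring
        _ ≤ _ := by gcongr; exact le_mul_of_one_le_right Bj.le ej
  · refine le_trans ?_ g4
    rw [← es]
    exact mul_le_mul_of_nonneg_left (pow_le_pow_left₀ (by linarith) B2 T) (exp_pos _).le


end Crest.Agent.N221.G0
end

-- ▼ part N221/NB/Dev
section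

/-! Row 221, no branching: the development lemma. Two families of one-forms `θ`, `θ'` killed by
`ζ` together with their differentials define the same covariant derivative along curves tangent
to `ζ`. -/

set_option autoImplicit false
set_option linter.unusedSectionVars false
set_option maxSynthPendingDepth 3

open Set Filter Topology
open scoped ContDiff

noncomputable section

namespace Crest.Agent.N221.NB.Dev

variable {Z G G' H : Type*} [NormedAddCommGroup Z] [NormedSpace ℝ Z] [NormedAddCommGroup G]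
  [NormedSpace ℝ G] [NormedAddCommGroup G'] [NormedSpace ℝ G'] [NormedAddCommGroup H]
  [NormedSpace ℝ H]

/-- `θ` is basic for `ζ` at `z`: differentiable, killed by `ζ` near `z`, and `d θ` is killed by
`ζ` at `z` -/
structure Bas (θ : Z → G →L[ℝ] Z →L[ℝ] ℝ) (ζ : Z → H →L[ℝ] Z) (z : Z) : Prop where
  diff : DifferentiableAt ℝ θ z
  kill : ∀ᶠ y in 𝓝 z, ∀ a h, θ y a (ζ y h) = 0
  d : ∀ a h v, fderiv ℝ θ z (ζ z h) a v = fderiv ℝ θ z v a (ζ z h)

theorem Bas.der {θ : Z → G →L[ℝ] Z →L[ℝ] ℝ} {ζ : Z → H →L[ℝ] Z} {z : Z} (B : Bas θ ζ z)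
    (hζ : DifferentiableAt ℝ ζ z) (a : G) (h : H) (v : Z) :
    fderiv ℝ θ z (ζ z h) a v = -θ z a (fderiv ℝ ζ z v h) := by
  have e1 := (B.diff.hasFDerivAt.clm_apply (hasFDerivAt_const a z)).clm_apply
    (hζ.hasFDerivAt.clm_apply (hasFDerivAt_const h z))
  have e2 : (fun _ => (0 : ℝ)) =ᶠ[𝓝 z] fun y => θ y a (ζ y h) :=
    B.kill.mono fun y hy => (hy a h).symm
  have e3 := congrArg (fun L => L v) ((e1.congr_of_eventuallyEq e2).unique (hasFDerivAt_const 0 z))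
  rw [B.d, eq_neg_iff_add_eq_zero, add_comm]
  simpa using e3

/-- derivative of `θ (c s) (g s)` along a curve tangent to `ζ` -/
theorem Bas.hasDeriv {θ : Z → G →L[ℝ] Z →L[ℝ] ℝ} {ζ : Z → H →L[ℝ] Z} {c : ℝ → Z} {g : ℝ → G}
    {s : Set ℝ} {τ : ℝ} {β : H} {dg : G} (B : Bas θ ζ (c τ)) (hζ : DifferentiableAt ℝ ζ (c τ))
    (hc : HasDerivWithinAt c (ζ (c τ) β) s τ) (hg : HasDerivWithinAt g dg s τ) (v : Z) :
    HasDerivWithinAt (fun t => θ (c t) (g t) v)
      (θ (c τ) dg v - θ (c τ) (g τ) (fderiv ℝ ζ (c τ) v β)) s τ := by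
  have e0 : HasDerivWithinAt (fun t => θ (c t)) (fderiv ℝ θ (c τ) (ζ (c τ) β)) s τ :=
    B.diff.hasFDerivAt.comp_hasDerivWithinAt τ hc
  have e1 : HasDerivWithinAt (fun t => θ (c t) (g t))
      (fderiv ℝ θ (c τ) (ζ (c τ) β) (g τ) + θ (c τ) dg) s τ := e0.clm_apply hg
  have e2 := (ContinuousLinearMap.apply ℝ ℝ v).hasFDerivAt.comp_hasDerivWithinAt τ e1
  refine HasDerivWithinAt.congr_deriv e2 ?_
  simp only [ContinuousLinearMap.apply_apply, add_apply]
  rw [B.der hζ]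
  abel

/-- **development step**: the relation `θ g = θ' g'` along a curve tangent to `ζ` can be
differentiated -/
theorem step {θ : Z → G →L[ℝ] Z →L[ℝ] ℝ} {θ' : Z → G' →L[ℝ] Z →L[ℝ] ℝ} {ζ : Z → H →L[ℝ] Z}
    {c : ℝ → Z} {g : ℝ → G} {g' : ℝ → G'} {s : Set ℝ} {τ : ℝ} {β : H} {dg : G} {dg' : G'}
    (B : Bas θ ζ (c τ)) (B' : Bas θ' ζ (c τ)) (hζ : DifferentiableAt ℝ ζ (c τ))
    (hs : UniqueDiffWithinAt ℝ s τ) (hτ : τ ∈ s) (hc : HasDerivWithinAt c (ζ (c τ) β) s τ)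
    (hg : HasDerivWithinAt g dg s τ) (hg' : HasDerivWithinAt g' dg' s τ)
    (he : ∀ t ∈ s, θ (c t) (g t) = θ' (c t) (g' t)) : θ (c τ) dg = θ' (c τ) dg' := by
  ext v
  have e1 := B.hasDeriv hζ hc hg v
  have e2 := (B'.hasDeriv hζ hc hg' v).congr (f₁ := fun t => θ (c t) (g t) v)
    (fun t ht => by rw [he t ht]) (by rw [he τ hτ])
  have e3 := hs.eq_deriv _ e1 e2
  rw [he τ hτ] at e3
  linarith




section Pull

variable (om : Z →L[ℝ] Z →L[ℝ] ℝ)

/-- the one-forms `om (ι g, ·)` -/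
def th (ι : Z → G →L[ℝ] Z) (z : Z) : G →L[ℝ] Z →L[ℝ] ℝ := om ∘L ι z

/-- the pull back of the one-forms `om (ι g, ·)` by `ψ` -/
def pth (ι : Z → G →L[ℝ] Z) (ψ : Z → Z) (z : Z) : G →L[ℝ] Z →L[ℝ] ℝ :=
  ((ContinuousLinearMap.compL ℝ Z Z ℝ).flip (fderiv ℝ ψ z)) ∘L om ∘L ι (ψ z)

@[simp] theorem th_apply (ι : Z → G →L[ℝ] Z) (z : Z) (g : G) (v : Z) :
    th om ι z g v = om (ι z g) v := rfl

@[simp] theorem pth_apply (ι : Z → G →L[ℝ] Z) (ψ : Z → Z) (z : Z) (g : G) (v : Z) :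
    pth om ι ψ z g v = om (ι (ψ z) g) (fderiv ℝ ψ z v) := rfl

variable {om}

theorem fderiv_eval {θ : Z → G →L[ℝ] Z →L[ℝ] ℝ} {z : Z} (h : DifferentiableAt ℝ θ z) (a : G)
    (v u : Z) : fderiv ℝ θ z u a v = fderiv ℝ (fun y => θ y a v) z u := by
  rw [((h.hasFDerivAt.clm_apply (hasFDerivAt_const a z)).clm_apply
    (hasFDerivAt_const v z)).fderiv]
  simp

theorem diff_th {ι : Z → G →L[ℝ] Z} {z : Z} (h : DifferentiableAt ℝ ι z) :
    DifferentiableAt ℝ (th om ι) z :=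
  (differentiableAt_const om).clm_comp h

theorem fderiv_th {ι : Z → G →L[ℝ] Z} {z : Z} (h : DifferentiableAt ℝ ι z) (u : Z) (a : G)
    (v : Z) : fderiv ℝ (th om ι) z u a v = om (fderiv ℝ ι z u a) v := by
  rw [fderiv_eval (diff_th h)]
  have e := (om.hasFDerivAt.comp z (h.hasFDerivAt.clm_apply (hasFDerivAt_const a z))).clm_apply
    (hasFDerivAt_const v z)
  rw [show (fun y => th om ι y a v) = fun y => (om ∘ fun y => ι y a) y v from rfl, e.fderiv]
  simp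

theorem diff_pth {ι : Z → G →L[ℝ] Z} {ψ : Z → Z} {z : Z} (hψ : ContDiffAt ℝ 2 ψ z)
    (h : DifferentiableAt ℝ ι (ψ z)) : DifferentiableAt ℝ (pth om ι ψ) z := by
  have h1 : DifferentiableAt ℝ (fderiv ℝ ψ) z :=
    (hψ.fderiv_right (m := 1) (by norm_num)).differentiableAt (by simp)
  have h2 : DifferentiableAt ℝ (fun y => ι (ψ y)) z := h.comp z (hψ.differentiableAt (by simp))
  exact (((ContinuousLinearMap.compL ℝ Z Z ℝ).flip.differentiableAt).comp z h1).clm_comp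
    ((differentiableAt_const om).clm_comp h2)

theorem fderiv_pth {ι : Z → G →L[ℝ] Z} {ψ : Z → Z} {z : Z} (hψ : ContDiffAt ℝ 2 ψ z)
    (h : DifferentiableAt ℝ ι (ψ z)) (u : Z) (a : G) (v : Z) :
    fderiv ℝ (pth om ι ψ) z u a v = om (fderiv ℝ ι (ψ z) (fderiv ℝ ψ z u) a) (fderiv ℝ ψ z v) +
      om (ι (ψ z) a) (fderiv ℝ (fderiv ℝ ψ) z u v) := by
  rw [fderiv_eval (diff_pth hψ h)]
  have h1 : DifferentiableAt ℝ (fderiv ℝ ψ) z :=
    (hψ.fderiv_right (m := 1) (by norm_num)).differentiableAt (by simp)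
  have h2 := h.hasFDerivAt.comp z (hψ.differentiableAt (by simp)).hasFDerivAt
  have e := (om.hasFDerivAt.comp z (h2.clm_apply (hasFDerivAt_const a z))).clm_apply
    (h1.hasFDerivAt.clm_apply (hasFDerivAt_const v z))
  rw [show (fun y => pth om ι ψ y a v) =
    fun y => (om ∘ fun y => (ι ∘ ψ) y a) y (fderiv ℝ ψ y v) from rfl, e.fderiv]
  simp [add_comm]

/-- `th` is basic -/
theorem bas_th {ι : Z → G →L[ℝ] Z} {ζ : Z → H →L[ℝ] Z} {z : Z} (h : DifferentiableAt ℝ ι z)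
    (h0 : ∀ᶠ y in 𝓝 z, ∀ a b, om (ι y a) (ζ y b) = 0)
    (hb : ∀ a b v, om (fderiv ℝ ι z (ζ z b) a) v = om (fderiv ℝ ι z v a) (ζ z b)) :
    Bas (th om ι) ζ z :=
  ⟨diff_th h, h0, fun a b v => by rw [fderiv_th h, fderiv_th h, hb]⟩

/-- the pull back `pth` is basic -/
theorem bas_pth {ι : Z → G →L[ℝ] Z} {ζ : Z → H →L[ℝ] Z} {ψ : Z → Z} {z : Z}
    (hψ : ContDiffAt ℝ 2 ψ z) (h : DifferentiableAt ℝ ι (ψ z))
    (h0 : ∀ᶠ y in 𝓝 z, ∀ a b, om (ι (ψ y) a) (fderiv ℝ ψ y (ζ y b)) = 0)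
    (hb : ∀ a b v, om (fderiv ℝ ι (ψ z) (fderiv ℝ ψ z (ζ z b)) a) v =
      om (fderiv ℝ ι (ψ z) v a) (fderiv ℝ ψ z (ζ z b))) :
    Bas (pth om ι ψ) ζ z :=
  ⟨diff_pth hψ h, h0, fun a b v => by
    rw [fderiv_pth hψ h, fderiv_pth hψ h, hb, (hψ.isSymmSndFDerivAt (by simp)) (ζ z b) v]⟩

end Pull

end Crest.Agent.N221.NB.Dev
end
end

-- ▼ part N221/NB/Dev2
section

/-! Row 221, no branching: joint flows and development (uniqueness, invariance of basic forms and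
of commuting frames, polynomial developments, naturality). -/

set_option autoImplicit false
set_option linter.unusedSectionVars false
set_option maxSynthPendingDepth 3

open Set Filter Topology
open scoped ContDiff

noncomputable section

namespace Crest.Agent.N221.NB.Dev

open Fr

variable {Z G G' H : Type} [NormedAddCommGroup Z] [NormedSpace ℝ Z] [NormedAddCommGroup G]
  [NormedSpace ℝ G] [NormedAddCommGroup G'] [NormedSpace ℝ G'] [NormedAddCommGroup H]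
  [NormedSpace ℝ H]

/-- the solution of a smooth injective linear system with smooth right hand side is smooth -/
theorem contDiffAt_of_inj {T X : Type} [NormedAddCommGroup T] [NormedSpace ℝ T]
    [NormedAddCommGroup X] [NormedSpace ℝ X] [FiniteDimensional ℝ G] [FiniteDimensional ℝ X]
    {n : WithTop ℕ∞} {L : T → G →L[ℝ] X} {g : T → G} {F : T → X} {t : T}
    (hL : ContDiffAt ℝ n L t) (hF : ContDiffAt ℝ n F t) (hi : Function.Injective (L t))
    (he : ∀ᶠ s in 𝓝 t, L s (g s) = F s) : ContDiffAt ℝ n g t := by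
  have : CompleteSpace G := FiniteDimensional.complete ℝ G
  obtain ⟨R, hR⟩ := (L t : G →ₗ[ℝ] X).exists_leftInverse_of_injective
    (LinearMap.ker_eq_bot.2 hi)
  set R' : X →L[ℝ] G := LinearMap.toContinuousLinearMap R with hR'
  have h1 : ContDiffAt ℝ n (fun s => R' ∘L L s) t := contDiffAt_const.clm_comp hL
  have h0 : R' ∘L L t = ContinuousLinearMap.id ℝ G := by
    ext v
    exact congrArg (fun f : G →ₗ[ℝ] G => f v) hR
  have hinv : (R' ∘L L t).IsInvertible := by rw [h0]; exact ⟨.refl ℝ G, rfl⟩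
  have h2' : ContDiffAt ℝ n (fun s => (R' ∘L L s).inverse) t :=
    ContDiffAt.comp (g := ContinuousLinearMap.inverse) (f := fun s => R' ∘L L s) t
      hinv.contDiffAt_map_inverse h1
  have h2 : ContDiffAt ℝ n (fun s => (R' ∘L L s).inverse (R' (F s))) t :=
    h2'.clm_apply (R'.contDiff.contDiffAt.comp t hF)
  refine h2.congr_of_eventuallyEq ?_
  have h3 : ∀ᶠ s in 𝓝 t, (R' ∘L L s).IsInvertible :=
    h1.continuousAt.eventually (ContinuousLinearEquiv.isOpen.mem_nhds hinv)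
  filter_upwards [he, h3] with s hs hs'
  rw [← hs]
  exact (hs'.inverse_apply_self (g s)).symm

/-- uniqueness for `x' = X x (g t)` inside the open set on which `X` is `C¹` -/
theorem ode_uniq {X : Z → G →L[ℝ] Z} {U : Set Z} (hU : IsOpen U) (hX : ContDiffOn ℝ 1 X U)
    {g : ℝ → G} {a b : ℝ} (hg : ContinuousOn g (Icc a b)) {x y : ℝ → Z}
    (hxc : ContinuousOn x (Icc a b)) (hyc : ContinuousOn y (Icc a b))
    (hxU : ∀ t ∈ Icc a b, x t ∈ U) (hyU : ∀ t ∈ Icc a b, y t ∈ U)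
    (hx : ∀ t ∈ Ico a b, HasDerivWithinAt x (X (x t) (g t)) (Ici t) t)
    (hy : ∀ t ∈ Ico a b, HasDerivWithinAt y (X (y t) (g t)) (Ici t) t) (h0 : x a = y a) :
    ∀ t ∈ Icc a b, x t = y t := by
  set K : Set Z := x '' Icc a b ∪ y '' Icc a b with hK
  have hKc : IsCompact K :=
    (isCompact_Icc.image_of_continuousOn hxc).union (isCompact_Icc.image_of_continuousOn hyc)
  have hKU : K ⊆ U := by
    rintro _ (⟨t, ht, rfl⟩ | ⟨t, ht, rfl⟩)
    exacts [hxU t ht, hyU t ht]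
  have hl : LocallyLipschitzOn K X := fun z hz => by
    obtain ⟨k, t, ht, h⟩ := (hX.contDiffAt (hU.mem_nhds (hKU hz))).exists_lipschitzOnWith
    exact ⟨k, t, mem_nhdsWithin_of_mem_nhds ht, h⟩
  obtain ⟨k, hk⟩ := hl.exists_lipschitzOnWith_of_compact hKc
  obtain ⟨C, hC⟩ := isCompact_Icc.exists_bound_of_continuousOn hg
  refine ODE_solution_unique_of_mem_Icc_right (v := fun t z => X z (g t)) (s := fun _ => K)
    (K := k * C.toNNReal) (fun t ht => ?_) hxc hx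
    (fun t ht => Or.inl ⟨t, Ico_subset_Icc_self ht, rfl⟩) hyc hy
    (fun t ht => Or.inr ⟨t, Ico_subset_Icc_self ht, rfl⟩) h0
  refine LipschitzOnWith.of_dist_le_mul fun z hz z' hz' => ?_
  rw [dist_eq_norm, ← sub_apply]
  refine ((X z - X z').le_opNorm _).trans ?_
  have h1 := hk.dist_le_mul z hz z' hz'
  rw [dist_eq_norm] at h1
  have h2 : ‖g t‖ ≤ C.toNNReal := (hC t (Ico_subset_Icc_self ht)).trans (Real.le_coe_toNNReal C)
  calc ‖X z - X z'‖ * ‖g t‖ ≤ (k * dist z z') * C.toNNReal := by gcongr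
    _ = _ := by push_cast; ring

section JF

variable {X : Z → G →L[ℝ] Z} {U : Set Z} {D : Set (Z × G)} {J : Z × G → Z}

theorem jf_at (hJ : JF X U D J) {p : Z × G} (hp : p ∈ D) : ContDiffAt ℝ ∞ J p :=
  hJ.sm.contDiffAt (hJ.op.mem_nhds hp)

/-- derivative of `J (y, w τ)` -/
theorem jf_curve (hJ : JF X U D J) {y : Z} {w : ℝ → G} {w' : G} {s : Set ℝ} {t : ℝ}
    (hp : (y, w t) ∈ D) (hw : HasDerivWithinAt w w' s t) :
    HasDerivWithinAt (fun t => J (y, w t)) (X (J (y, w t)) w') s t := by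
  have := ((jf_at hJ hp).differentiableAt (by simp)).hasFDerivAt.comp_hasDerivWithinAt t
    ((hasDerivWithinAt_const t s y).prodMk hw)
  rwa [hJ.der _ hp] at this

/-- **DEV**: a curve with `x' = X x w'` is the development `J (x a, w - w a)` -/
theorem jf_dev (hU : IsOpen U) (hX : ContDiffOn ℝ 1 X U) (hJ : JF X U D J) {x : ℝ → Z}
    {w w' : ℝ → G} {a b : ℝ} (hw' : ContinuousOn w' (Icc a b)) (hwc : ContinuousOn w (Icc a b))
    (hw : ∀ t ∈ Ico a b, HasDerivWithinAt w (w' t) (Ici t) t) (hw0 : w a = 0)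
    (hxc : ContinuousOn x (Icc a b)) (hxU : ∀ t ∈ Icc a b, x t ∈ U)
    (hx : ∀ t ∈ Ico a b, HasDerivWithinAt x (X (x t) (w' t)) (Ici t) t)
    (hD : ∀ t ∈ Icc a b, (x a, w t) ∈ D) : ∀ t ∈ Icc a b, x t = J (x a, w t) := by
  intro t ht
  refine ode_uniq hU hX hw' hxc (y := fun t => J (x a, w t))
    (hJ.sm.continuousOn.comp (continuousOn_const.prodMk hwc) hD) hxU
    (fun t ht => hJ.mem _ (hD t ht)) hx
    (fun t ht => jf_curve hJ (hD t (Ico_subset_Icc_self ht)) (hw t ht)) ?_ t ht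
  have ha : a ∈ Icc a b := left_mem_Icc.2 (ht.1.trans ht.2)
  show x a = J (x a, w a)
  rw [hw0, hJ.init _ (hxU a ha)]

theorem jf_init_der (hU : IsOpen U) (hJ : JF X U D J) {y : Z} (hy : y ∈ U) (v : Z) :
    fderiv ℝ J (y, 0) (v, 0) = v := by
  have d := ((jf_at hJ (hJ.zero y hy)).differentiableAt (by simp)).hasFDerivAt
  have e1 := d.comp y (f := fun y : Z => (y, (0 : G))) (hasFDerivAt_prodMk_left y 0)
  have e3 : (J ∘ fun y : Z => (y, (0 : G))) =ᶠ[𝓝 y] fun y => y := by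
    filter_upwards [hU.mem_nhds hy] with q hq using hJ.init q hq
  exact congrArg (fun L => L v) ((e1.congr_of_eventuallyEq e3.symm).unique (hasFDerivAt_id y))

/-- the variational equation along a ray -/
theorem jf_var (hU : IsOpen U) (hX : ContDiffOn ℝ 1 X U) (hJ : JF X U D J) {y : Z} {w : G}
    {t : ℝ} (hp : (y, t • w) ∈ D) (v : Z) :
    HasDerivAt (fun t : ℝ => fderiv ℝ J (y, t • w) (v, 0))
      (fderiv ℝ X (J (y, t • w)) (fderiv ℝ J (y, t • w) (v, 0)) w) t := by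
  have hJa := jf_at hJ hp
  have dJ := (hJa.differentiableAt (by simp)).hasFDerivAt
  have dX := ((hX.contDiffAt (hU.mem_nhds (hJ.mem _ hp))).differentiableAt (by simp)).hasFDerivAt
  have d2 := ((hJa.fderiv_right (m := 1) two_le).differentiableAt (by simp)).hasFDerivAt
  have sy := hJa.isSymmSndFDerivAt (by simpa using two_le')
  have hc : HasDerivAt (fun t : ℝ => ((y, t • w) : Z × G)) (0, w) t := by
    simpa using (hasDerivAt_const t y).prodMk ((hasDerivAt_id t).smul_const w)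
  have a1 : HasDerivAt (fun t : ℝ => fderiv ℝ J (y, t • w) (v, 0))
      (fderiv ℝ (fderiv ℝ J) (y, t • w) (0, w) (v, 0)) t := by
    have a0 : HasDerivAt (fun t : ℝ => fderiv ℝ J (y, t • w))
        (fderiv ℝ (fderiv ℝ J) (y, t • w) (0, w)) t :=
      HasFDerivAt.comp_hasDerivAt (l := fderiv ℝ J) (f := fun t : ℝ => ((y, t • w) : Z × G)) t d2 hc
    simpa using a0.clm_apply (hasDerivAt_const t ((v, 0) : Z × G))
  refine a1.congr_deriv ?_
  rw [sy]
  have e1 := d2.clm_apply (hasFDerivAt_const (((0 : Z), w) : Z × G) (y, t • w))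
  have e2 := (dX.comp _ dJ).clm_apply (hasFDerivAt_const w (y, t • w))
  have e3 : (fun q => fderiv ℝ J q (0, w)) =ᶠ[𝓝 (y, t • w)] fun q => X (J q) w := by
    filter_upwards [hJ.op.mem_nhds hp] with q hq using hJ.der q hq w
  have e4 := congrArg (fun L => L (v, 0)) ((e1.congr_of_eventuallyEq e3.symm).unique e2)
  simpa using e4

theorem jf_ray (hJ : JF X U D J) {y : Z} {w : G} {t : ℝ} (hp : (y, t • w) ∈ D) :
    HasDerivAt (fun t : ℝ => J (y, t • w)) (X (J (y, t • w)) w) t := by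
  have h1 : HasDerivAt (fun t : ℝ => t • w) w t := by
    simpa using (hasDerivAt_id t).smul_const w
  have := jf_curve hJ (w := fun t : ℝ => t • w) (s := univ) hp h1.hasDerivWithinAt
  exact hasDerivWithinAt_univ.1 this


/-- the joint flow preserves the fields commuting with it -/
theorem jf_comm (hU : IsOpen U) (hX : ContDiffOn ℝ 1 X U) (hJ : JF X U D J)
    {ζ : Z → H →L[ℝ] Z} (hζ : ∀ z ∈ U, DifferentiableAt ℝ ζ z)
    (hc : ∀ z ∈ U, ∀ a b, fderiv ℝ ζ z (X z a) b = fderiv ℝ X z (ζ z b) a) {p : Z × G}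
    (hp : p ∈ D) (b : H) : fderiv ℝ J p (ζ p.1 b, 0) = ζ (J p) b := by
  obtain ⟨y, w⟩ := p
  have hm : ∀ t ∈ Icc (0 : ℝ) 1, (y, t • w) ∈ D := fun t ht => hJ.star _ hp t ht
  have := lin0 (A := fun t : ℝ => (fderiv ℝ X (J (y, t • w))).flip w)
    (f := fun t : ℝ => fderiv ℝ J (y, t • w) (ζ y b, 0) - ζ (J (y, t • w)) b) ?_ ?_ ?_ 1
    (right_mem_Icc.2 zero_le_one)
  · simpa [sub_eq_zero] using this
  · intro t ht
    have a : ContinuousAt (fun t : ℝ => fderiv ℝ X (J (y, t • w))) t :=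
      ((hX.contDiffAt (hU.mem_nhds (hJ.mem _ (hm t ht)))).fderiv_right (m := 0)
        (by simp)).continuousAt.comp (f := fun t : ℝ => J (y, t • w))
        (jf_ray hJ (hm t ht)).continuousAt
    have b : Continuous fun L : Z →L[ℝ] G →L[ℝ] Z => L.flip w :=
      ((ContinuousLinearMap.flipₗᵢ ℝ Z G Z).continuous).clm_apply continuous_const
    exact (b.continuousAt.comp a).continuousWithinAt
  · intro t ht
    have hz := hJ.mem _ (hm t ht)
    have e0 : HasDerivAt (fun t : ℝ => ζ (J (y, t • w)))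
        (fderiv ℝ ζ (J (y, t • w)) (X (J (y, t • w)) w)) t :=
      (hζ _ hz).hasFDerivAt.comp_hasDerivAt t (jf_ray hJ (hm t ht))
    have e1 : HasDerivAt (fun t : ℝ => ζ (J (y, t • w)) b)
        (fderiv ℝ ζ (J (y, t • w)) (X (J (y, t • w)) w) b) t := by
      simpa using e0.clm_apply (hasDerivAt_const t b)
    refine ((jf_var hU hX hJ (hm t ht) (ζ y b)).sub e1).congr_deriv ?_
    rw [hc _ hz]
    simp
  · simp [hJ.init y (hJ.mem1 _ hp), jf_init_der hU hJ (hJ.mem1 _ hp)]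

end JF

end Crest.Agent.N221.NB.Dev
end
end

-- ▼ part N221/NB/Nat
section

/-! Row 221, no branching: naturality of the joint flow of a basic frame. -/

set_option autoImplicit false
set_option linter.unusedSectionVars false
set_option maxSynthPendingDepth 3

open Set Filter Topology
open scoped ContDiff

noncomputable section

namespace Crest.Agent.N221.NB.Dev

open Fr

variable {Z G : Type} [NormedAddCommGroup Z] [NormedSpace ℝ Z] [NormedAddCommGroup G]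
  [NormedSpace ℝ G] [FiniteDimensional ℝ Z] [FiniteDimensional ℝ G]

/-- an isotropic frame, basic along itself, on which `om` is nondegenerate -/
structure Fio (om : Z →L[ℝ] Z →L[ℝ] ℝ) (io : Z → G →L[ℝ] Z) (U : Set Z) : Prop where
  op : IsOpen U
  sm : ContDiffOn ℝ ∞ io U
  iso : ∀ z ∈ U, ∀ a b, om (io z a) (io z b) = 0
  bas : ∀ z ∈ U, ∀ a a' w, om (fderiv ℝ io z (io z a) a') w = om (fderiv ℝ io z w a') (io z a)
  nd : ∀ z ∈ U, ∀ a, (∀ v, om (io z a) v = 0) → a = 0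

/-- `h` is `C²` at `z`, `D h z` preserves `om`, is onto modulo the kernel of `om`, and maps the
range of the frame to the range of the frame -/
structure Pt (om : Z →L[ℝ] Z →L[ℝ] ℝ) (io : Z → G →L[ℝ] Z) (h : Z → Z) (z : Z) : Prop where
  sm : ContDiffAt ℝ 2 h z
  sp : ∀ u v, om (fderiv ℝ h z u) (fderiv ℝ h z v) = om u v
  surj : ∀ v, ∃ u, ∀ x, om x (fderiv ℝ h z u) = om x v
  map : ∀ a, ∃ a', fderiv ℝ h z (io z a) = io (h z) a'

variable {om : Z →L[ℝ] Z →L[ℝ] ℝ} {io : Z → G →L[ℝ] Z} {U : Set Z} {h : Z → Z}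

theorem Fio.at (F : Fio om io U) {z : Z} (hz : z ∈ U) : ContDiffAt ℝ ∞ io z :=
  F.sm.contDiffAt (F.op.mem_nhds hz)

theorem Fio.diff (F : Fio om io U) {z : Z} (hz : z ∈ U) : DifferentiableAt ℝ io z :=
  (F.at hz).differentiableAt (by simp)

theorem Fio.inj (F : Fio om io U) {z : Z} (hz : z ∈ U) : Function.Injective (io z) :=
  (injective_iff_map_eq_zero _).2 fun a ha => F.nd z hz a fun v => by simp [ha]

theorem Fio.one (F : Fio om io U) : ContDiffOn ℝ 1 io U := F.sm.of_le (by simp)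

theorem Fio.bas_th (F : Fio om io U) {z : Z} (hz : z ∈ U) : Bas (th om io) io z :=
  Dev.bas_th (F.diff hz) ((F.op.eventually_mem hz).mono fun y hy => F.iso y hy)
    fun a b v => F.bas z hz b a v

theorem Pt.congr {h' : Z → Z} {z : Z} (P : Pt om io h z) (e : h' =ᶠ[𝓝 z] h) : Pt om io h' z := by
  have e1 : fderiv ℝ h' z = fderiv ℝ h z := e.fderiv_eq
  have e2 : h' z = h z := e.eq_of_nhds
  exact ⟨P.sm.congr_of_eventuallyEq e, by rw [e1]; exact P.sp, by rw [e1]; exact P.surj,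
    by rw [e1, e2]; exact P.map⟩

theorem Fio.inj_pth (F : Fio om io U) {z : Z} (hz : h z ∈ U)
    (hs : ∀ v, ∃ u, ∀ x, om x (fderiv ℝ h z u) = om x v) : Function.Injective (pth om io h z) :=
  (injective_iff_map_eq_zero _).2 fun a ha => F.nd _ hz a fun v => by
    obtain ⟨u, hu⟩ := hs v
    rw [← hu, ← pth_apply, ha]
    rfl

/-- the matrix of `D h` in the frame -/
def mat (io : Z → G →L[ℝ] Z) (h : Z → Z) (a : G) (z : Z) : G :=
  Classical.epsilon fun a' => fderiv ℝ h z (io z a) = io (h z) a'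

theorem Pt.mat_spec {z : Z} (P : Pt om io h z) (a : G) :
    fderiv ℝ h z (io z a) = io (h z) (mat io h a z) :=
  Classical.epsilon_spec (P.map a)

/-- the matrix is constant along the frame -/
theorem mat_der (F : Fio om io U) {z : Z} (hz : z ∈ U) (hz' : h z ∈ U)
    (P : ∀ᶠ y in 𝓝 z, Pt om io h y) (a : G) :
    DifferentiableAt ℝ (mat io h a) z ∧ ∀ b, fderiv ℝ (mat io h a) z (io z b) = 0 := by
  have P0 := P.self_of_nhds
  have hU' : ∀ᶠ y in 𝓝 z, h y ∈ U := P0.sm.continuousAt.eventually (F.op.mem_nhds hz')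
  have hd : DifferentiableAt ℝ (mat io h a) z := by
    refine (contDiffAt_of_inj (n := 1) (L := fun y => io (h y))
      (F := fun y => fderiv ℝ h y (io y a))
      (((F.at hz').of_le (by simp)).comp z (P0.sm.of_le (by norm_num)))
      ((P0.sm.fderiv_right (m := 1) (by norm_num)).clm_apply
        (((F.at hz).of_le (by simp)).clm_apply contDiffAt_const)) (F.inj hz')
      (P.mono fun y hy => (hy.mat_spec a).symm)).differentiableAt (by simp)
  refine ⟨hd, fun b => ?_⟩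
  have hc : HasDerivAt (fun t : ℝ => z + t • io z b) (io z b) 0 := by
    simpa using ((hasDerivAt_id (0 : ℝ)).smul_const (io z b)).const_add z
  have hc0 : z + (0 : ℝ) • io z b = z := by simp
  have hs : {t : ℝ | Pt om io h (z + t • io z b)} ∈ 𝓝 (0 : ℝ) :=
    hc.continuousAt.eventually (by simp only [hc0]; exact P)
  have B' : Bas (pth om io h) io z := by
    refine bas_pth P0.sm (F.diff hz') ?_ fun a b v => ?_
    · filter_upwards [P, hU'] with y hy hy' a b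
      rw [hy.mat_spec, F.iso _ hy']
    · rw [P0.mat_spec, F.bas _ hz']
  have hg' : HasDerivAt (fun t : ℝ => mat io h a (z + t • io z b))
      (fderiv ℝ (mat io h a) z (io z b)) 0 :=
    HasFDerivAt.comp_hasDerivAt_of_eq (l := mat io h a) 0 hd.hasFDerivAt hc hc0.symm
  have := step (θ := th om io) (θ' := pth om io h) (ζ := io) (c := fun t : ℝ => z + t • io z b)
    (g := fun _ => a) (g' := fun t => mat io h a (z + t • io z b)) (τ := 0) (β := b) (dg := 0)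
    (by rw [hc0]; exact F.bas_th hz) (by rw [hc0]; exact B') (by rw [hc0]; exact F.diff hz)
    (uniqueDiffWithinAt_of_mem_nhds hs) (mem_of_mem_nhds hs)
    (by rw [hc0]; exact hc.hasDerivWithinAt) (hasDerivWithinAt_const _ _ _) hg'.hasDerivWithinAt
    fun t ht => ContinuousLinearMap.ext fun v => by
      rw [th_apply, pth_apply, ← Pt.mat_spec ht, Pt.sp ht]
  rw [hc0, map_zero] at this
  exact F.inj_pth hz' P0.surj (by rw [← this, map_zero])

/-- along a curve tangent to the frame the matrix is constant -/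
theorem mat_const (F : Fio om io U) {c : ℝ → Z} {s t : ℝ} (hc : ContinuousOn c (Icc s t))
    (hc' : ∀ r ∈ Ico s t, ∃ β, HasDerivWithinAt c (io (c r) β) (Ici r) r)
    (hU : ∀ r ∈ Icc s t, c r ∈ U) (hU' : ∀ r ∈ Icc s t, h (c r) ∈ U)
    (P : ∀ r ∈ Icc s t, ∀ᶠ y in 𝓝 (c r), Pt om io h y) {a a' : G}
    (h0 : fderiv ℝ h (c s) (io (c s) a) = io (h (c s)) a') :
    ∀ r ∈ Icc s t, fderiv ℝ h (c r) (io (c r) a) = io (h (c r)) a' := by
  intro r hr
  have hs : s ∈ Icc s t := left_mem_Icc.2 (hr.1.trans hr.2)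
  have h1 := constant_of_has_deriv_right_zero (f := fun r => mat io h a (c r)) (a := s) (b := t)
    (fun r hr => (mat_der F (hU r hr) (hU' r hr) (P r hr) a).1.continuousAt.comp_continuousWithinAt
      (hc r hr)) (fun r hr => by
      obtain ⟨β, hβ⟩ := hc' r hr
      have hr' := Ico_subset_Icc_self hr
      obtain ⟨d, e⟩ := mat_der F (hU r hr') (hU' r hr') (P r hr') a
      have := d.hasFDerivAt.comp_hasDerivWithinAt r hβ
      rwa [e] at this) r hr
  have h2 : mat io h a (c s) = a' :=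
    F.inj (hU' s hs) (by rw [← (P s hs).self_of_nhds.mat_spec, h0])
  rw [(P r hr).self_of_nhds.mat_spec, h1, h2]

variable {U₀ : Set Z} {D : Set (Z × G)} {J : Z × G → Z}

/-- **NAT**, one map `h`: `f` is read as `h` at every coincidence point of the box -/
theorem nat_one {X : Type} [TopologicalSpace X] [T2Space X] (F : Fio om io U) (hJ : JF io U₀ D J)
    {f Ψ : Z → X} (hf : ContinuousOn f U) (hΨ : ContinuousOn Ψ U)
    (loc : ∀ z ∈ U, ∀ z' ∈ U, f z = Ψ z' → h z = z' ∧ ∀ᶠ y in 𝓝 z, Pt om io h y ∧ f y = Ψ (h y))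
    {y y' : Z} {w w' : G} (hp : (y, w) ∈ D) (hp' : (y', w') ∈ D)
    (hin : ∀ t ∈ Icc (0 : ℝ) 1, J (y, t • w) ∈ U) (hin' : ∀ t ∈ Icc (0 : ℝ) 1, J (y', t • w') ∈ U)
    (e : f y = Ψ y') (hw : fderiv ℝ h y (io y w) = io y' w') :
    f (J (y, w)) = Ψ (J (y', w')) ∧ ∀ a a', fderiv ℝ h y (io y a) = io y' a' →
      fderiv ℝ h (J (y, w)) (io (J (y, w)) a) = io (J (y', w')) a' := by
  set c : ℝ → Z := fun t => J (y, t • w) with hc
  set c' : ℝ → Z := fun t => J (y', t • w') with hc'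
  have hm : ∀ t ∈ Icc (0 : ℝ) 1, (y, t • w) ∈ D := fun t ht => hJ.star _ hp t ht
  have hm' : ∀ t ∈ Icc (0 : ℝ) 1, (y', t • w') ∈ D := fun t ht => hJ.star _ hp' t ht
  have hcU : ∀ t ∈ Icc (0 : ℝ) 1, c t ∈ U := hin
  have hcU' : ∀ t ∈ Icc (0 : ℝ) 1, c' t ∈ U := hin'
  have hd : ∀ t ∈ Icc (0 : ℝ) 1, HasDerivAt c (io (c t) w) t := fun t ht => jf_ray hJ (hm t ht)
  have hd' : ∀ t ∈ Icc (0 : ℝ) 1, HasDerivAt c' (io (c' t) w') t := fun t ht =>
    jf_ray hJ (hm' t ht)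
  have cc : ContinuousOn c (Icc 0 1) := fun t ht => (hd t ht).continuousAt.continuousWithinAt
  have cc' : ContinuousOn c' (Icc 0 1) := fun t ht => (hd' t ht).continuousAt.continuousWithinAt
  have c0 : c 0 = y := by simp [hc, hJ.init y (hJ.mem1 _ hp)]
  have c0' : c' 0 = y' := by simp [hc', hJ.init y' (hJ.mem1 _ hp')]
  have hy : h y = y' := (loc y (c0 ▸ hcU 0 (left_mem_Icc.2 zero_le_one)) y'
    (c0' ▸ hcU' 0 (left_mem_Icc.2 zero_le_one)) e).1
  -- constancy of the matrix up to a time until which the curves coincide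
  have mc : ∀ t ∈ Icc (0 : ℝ) 1, (∀ r ∈ Icc 0 t, h (c r) ∈ U ∧ f (c r) = Ψ (h (c r))) →
      ∀ a a', fderiv ℝ h y (io y a) = io y' a' →
      ∀ r ∈ Icc 0 t, fderiv ℝ h (c r) (io (c r) a) = io (h (c r)) a' := by
    intro t ht H a a' ha
    have sub : Icc 0 t ⊆ Icc (0 : ℝ) 1 := Icc_subset_Icc_right ht.2
    exact mat_const F (cc.mono sub)
      (fun r hr => ⟨w, (hd r (sub (Ico_subset_Icc_self hr))).hasDerivWithinAt⟩)
      (fun r hr => hcU r (sub hr)) (fun r hr => (H r hr).1)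
      (fun r hr => (loc _ (hcU r (sub hr)) _ (H r hr).1 (H r hr).2).2.mono fun _ k => k.1)
      (by rw [c0, hy]; exact ha)
  have key : Icc (0 : ℝ) 1 ⊆ {t | f (c t) = Ψ (c' t)} := by
    refine IsClosed.Icc_subset_of_forall_mem_nhdsGT_of_Icc_subset ?_ (by
      show f (c 0) = Ψ (c' 0)
      rw [c0, c0', e]) fun t ht H => ?_
    · rw [inter_comm]
      exact isClosed_Icc.isClosed_eq (hf.comp cc hcU) (hΨ.comp cc' hcU')
    have ht' := Ico_subset_Icc_self ht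
    have l := loc _ (hcU t ht') _ (hcU' t ht') (H (right_mem_Icc.2 ht.1))
    have ev : ∀ᶠ r in 𝓝 t, h (c r) ∈ U ∧ f (c r) = Ψ (h (c r)) :=
      (hd t ht').continuousAt.eventually
        ((l.2.self_of_nhds.1.sm.continuousAt.eventually
          (F.op.mem_nhds (by rw [l.1]; exact hcU' t ht'))).and (l.2.mono fun _ k => k.2))
    obtain ⟨t', htt', H'⟩ : ∃ t' > t, Icc t t' ⊆ {r | (h (c r) ∈ U ∧ f (c r) = Ψ (h (c r))) ∧
        r ≤ 1} := (nhdsGE_basis_Icc (a := t)).mem_iff.1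
      (mem_nhdsWithin_of_mem_nhds (ev.and (Iic_mem_nhds ht.2))) |>.imp fun _ k => ⟨k.1, k.2⟩
    have ht1 : t' ∈ Icc (0 : ℝ) 1 :=
      ⟨ht.1.trans htt'.le, (H' (right_mem_Icc.2 htt'.le)).2⟩
    have sub : Icc 0 t' ⊆ Icc (0 : ℝ) 1 := Icc_subset_Icc_right ht1.2
    have H2 : ∀ r ∈ Icc 0 t', h (c r) ∈ U ∧ f (c r) = Ψ (h (c r)) := fun r hr => by
      rcases le_total r t with k | k
      · have k1 : r ∈ Icc 0 t := ⟨hr.1, k⟩
        have k2 := (loc _ (hcU r (sub hr)) _ (hcU' r (sub hr)) (H k1)).1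
        rw [k2]
        exact ⟨hcU' r (sub hr), H k1⟩
      · exact (H' ⟨k, hr.2⟩).1
    have sm : ∀ r ∈ Icc 0 t', DifferentiableAt ℝ h (c r) := fun r hr =>
      (loc _ (hcU r (sub hr)) _ (H2 r hr).1 (H2 r hr).2).2.self_of_nhds.1.sm.differentiableAt
        (by simp)
    have dx : ∀ r ∈ Icc 0 t', HasDerivAt (fun r => h (c r)) (io (h (c r)) w') r := fun r hr => by
      rw [← mc t' ht1 H2 w w' hw r hr]
      exact (sm r hr).hasFDerivAt.comp_hasDerivAt r (hd r (sub hr))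
    have eq := ode_uniq (g := fun _ => w') F.op F.one continuousOn_const
      (fun r hr => (dx r hr).continuousAt.continuousWithinAt) (cc'.mono sub)
      (fun r hr => (H2 r hr).1) (fun r hr => hcU' r (sub hr))
      (fun r hr => (dx r (Ico_subset_Icc_self hr)).hasDerivWithinAt)
      (fun r hr => (hd' r (sub (Ico_subset_Icc_self hr))).hasDerivWithinAt) (by rw [c0, c0', hy])
    refine mem_of_superset (Ioc_mem_nhdsGT htt') fun r hr => ?_
    have hr' : r ∈ Icc 0 t' := ⟨ht.1.trans hr.1.le, hr.2⟩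
    show f (c r) = Ψ (c' r)
    rw [(H2 r hr').2, eq r hr']
  have one : (1 : ℝ) ∈ Icc (0 : ℝ) 1 := right_mem_Icc.2 zero_le_one
  have hh : ∀ r ∈ Icc (0 : ℝ) 1, h (c r) = c' r := fun r hr =>
    (loc _ (hcU r hr) _ (hcU' r hr) (key hr)).1
  refine ⟨by simpa [hc, hc'] using key one, fun a a' ha => ?_⟩
  have := mc 1 one (fun r hr => by rw [hh r hr]; exact ⟨hcU' r hr, key hr⟩) a a' ha 1 one
  rw [hh 1 one] at this
  simpa [hc, hc'] using this


/-- **NAT**, germs: at every coincidence point `f` is read as some germ; `Ψ` is injective -/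
theorem nat {X : Type} [TopologicalSpace X] [T2Space X] (F : Fio om io U) (hJ : JF io U₀ D J)
    {f Ψ : Z → X} (hf : ContinuousOn f U) (hΨ : ContinuousOn Ψ U) (hi : InjOn Ψ U)
    (loc : ∀ z ∈ U, ∀ z' ∈ U, f z = Ψ z' →
      ∃ h, h z = z' ∧ ∀ᶠ y in 𝓝 z, Pt om io h y ∧ f y = Ψ (h y))
    {y y' : Z} {w w' : G} (hp : (y, w) ∈ D) (hp' : (y', w') ∈ D)
    (hin : ∀ t ∈ Icc (0 : ℝ) 1, J (y, t • w) ∈ U) (hin' : ∀ t ∈ Icc (0 : ℝ) 1, J (y', t • w') ∈ U)
    (hy : h y = y') (hc : ContinuousAt h y) (e : ∀ᶠ x in 𝓝 y, f x = Ψ (h x))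
    (hw : fderiv ℝ h y (io y w) = io y' w') : f (J (y, w)) = Ψ (J (y', w')) ∧
      ∀ k : Z → Z, k (J (y, w)) = J (y', w') → ContinuousAt k (J (y, w)) →
        (∀ᶠ x in 𝓝 (J (y, w)), f x = Ψ (k x)) → ∀ a a', fderiv ℝ h y (io y a) = io y' a' →
        fderiv ℝ k (J (y, w)) (io (J (y, w)) a) = io (J (y', w')) a' := by
  classical
  set k : Z → Z := fun z => if H : ∃ z' ∈ U, f z = Ψ z' then H.choose else z with hk
  have uq : ∀ z z', z' ∈ U → f z = Ψ z' → k z = z' := fun z z' hz' e => by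
    have H : ∃ z' ∈ U, f z = Ψ z' := ⟨z', hz', e⟩
    simp only [hk, dif_pos H]
    exact hi H.choose_spec.1 hz' (H.choose_spec.2.symm.trans e)
  have germ : ∀ (h : Z → Z) z, h z ∈ U → ContinuousAt h z → (∀ᶠ x in 𝓝 z, f x = Ψ (h x)) →
      k =ᶠ[𝓝 z] h := fun h z hz hc e => by
    filter_upwards [e, hc.eventually (F.op.mem_nhds hz)] with x k1 k2 using uq x _ k2 k1
  have y'U : y' ∈ U := by
    simpa [hJ.init y' (hJ.mem1 _ hp')] using hin' 0 (left_mem_Icc.2 zero_le_one)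
  have g0 := germ h y (hy ▸ y'U) hc e
  have main := nat_one (h := k) F hJ hf hΨ (fun z hz z' hz' e => ⟨uq z z' hz' e, by
    obtain ⟨h, h1, h2⟩ := loc z hz z' hz' e
    have g := germ h z (h1 ▸ hz') h2.self_of_nhds.1.sm.continuousAt (h2.mono fun _ k => k.2)
    filter_upwards [h2, g.eventuallyEq_nhds] with x k1 k2
    exact ⟨k1.1.congr k2, by rw [k2.eq_of_nhds, k1.2]⟩⟩) hp hp' hin hin'
    (hy ▸ e.self_of_nhds) (by rw [g0.fderiv_eq, hw])
  refine ⟨main.1, fun k' k1 k2 k3 a a' ha => ?_⟩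
  have g1 := germ k' _ (by rw [k1]; simpa using hin' 1 (right_mem_Icc.2 zero_le_one)) k2 k3
  rw [← g1.fderiv_eq]
  exact main.2 a a' (by rw [g0.fderiv_eq, ha])

/-- a map preserving a bilinear form is onto modulo the kernel of the form -/
theorem surj_of_sp {L : Z →L[ℝ] Z} (hL : ∀ u v, om (L u) (L v) = om u v) (v : Z) :
    ∃ u, ∀ x, om x (L u) = om x v := by
  set φ : Z →ₗ[ℝ] (Z →L[ℝ] ℝ) := om.flip.toLinearMap with hφ
  set T : (Z →L[ℝ] ℝ) →ₗ[ℝ] (Z →L[ℝ] ℝ) :=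
    ((ContinuousLinearMap.compL ℝ Z Z ℝ).flip L).toLinearMap with hT
  have h1 : T ∘ₗ (φ ∘ₗ (L : Z →ₗ[ℝ] Z)) = φ := by
    ext u x
    exact hL x u
  have h2 : LinearMap.range (φ ∘ₗ (L : Z →ₗ[ℝ] Z)) = LinearMap.range φ := by
    refine Submodule.eq_of_le_of_finrank_le (LinearMap.range_comp_le_range _ _) ?_
    conv_lhs => rw [← h1, LinearMap.range_comp]
    exact Submodule.finrank_map_le _ _
  obtain ⟨u, hu⟩ : φ v ∈ LinearMap.range (φ ∘ₗ (L : Z →ₗ[ℝ] Z)) := h2 ▸ ⟨v, rfl⟩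
  exact ⟨u, fun x => congrArg (fun l : Z →L[ℝ] ℝ => l x) hu⟩

/-- a smooth injective family has a smooth left inverse -/
theorem exists_li {X : Z → G →L[ℝ] Z} {z₀ : Z} (hU : IsOpen U) (hz : z₀ ∈ U)
    (hX : ContDiffOn ℝ ∞ X U) (hi : Function.Injective (X z₀)) :
    ∃ (V : Set Z) (ρ : Z → Z →L[ℝ] G), IsOpen V ∧ z₀ ∈ V ∧ V ⊆ U ∧ ContDiffOn ℝ ∞ ρ V ∧
      ∀ z ∈ V, ∀ g, ρ z (X z g) = g := by
  have : CompleteSpace G := FiniteDimensional.complete ℝ G
  obtain ⟨R, hR⟩ := (X z₀ : G →ₗ[ℝ] Z).exists_leftInverse_of_injective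
    (LinearMap.ker_eq_bot.2 hi)
  set R' : Z →L[ℝ] G := LinearMap.toContinuousLinearMap R with hR'
  have h1 : ContDiffOn ℝ ∞ (fun z => R' ∘L X z) U := contDiffOn_const.clm_comp hX
  have h0 : ContinuousLinearMap.id ℝ G = R' ∘L X z₀ := by
    ext v
    exact (congrArg (fun f : G →ₗ[ℝ] G => f v) hR).symm
  refine ⟨U ∩ (fun z => R' ∘L X z) ⁻¹' range ((↑) : (G ≃L[ℝ] G) → G →L[ℝ] G),
    fun z => (R' ∘L X z).inverse ∘L R',
    h1.continuousOn.isOpen_inter_preimage hU ContinuousLinearEquiv.isOpen,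
    ⟨hz, .refl ℝ G, h0⟩, inter_subset_left, ContDiffOn.clm_comp (fun z hz => ?_) contDiffOn_const,
    fun z hz g => ContinuousLinearMap.IsInvertible.inverse_apply_self hz.2 g⟩
  exact (ContinuousLinearMap.IsInvertible.contDiffAt_map_inverse hz.2).comp_contDiffWithinAt z
    ((h1 z hz.1).mono inter_subset_left)

end Crest.Agent.N221.NB.Dev
end
end

-- ▼ part N221/NB/NatS
section

/-! Row 221, block NB: `natS : NatS` and `devS : DevS`. -/

set_option autoImplicit false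
set_option linter.unusedSectionVars false
set_option maxSynthPendingDepth 3

open Set Metric Filter Topology
open scoped ContDiff

noncomputable section

namespace Crest.Agent.N221.NB

open Fr

theorem devS : DevS := by
  intro Z GI _ _ _ _ _ ι U Dm J n w q τ₁ hU hι hJ hq hw H
  exact Dev.jf_dev hU (hι.of_le (by simp)) hJ hq
    (fun t ht => (H t ht).2.2.2.continuousAt.continuousWithinAt)
    (fun t ht => (H t (Ico_subset_Icc_self ht)).2.2.2.hasDerivWithinAt) hw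
    (fun t ht => (H t ht).2.2.1.continuousAt.continuousWithinAt) (fun t ht => (H t ht).1)
    (fun t ht => (H t (Ico_subset_Icc_self ht)).2.2.1.hasDerivWithinAt) fun t ht => (H t ht).2.1


section

variable {Z GI Gs Gu : Type} [NormedAddCommGroup Z] [NormedSpace ℝ Z] [NormedAddCommGroup GI]
  [NormedSpace ℝ GI] [NormedAddCommGroup Gs] [NormedSpace ℝ Gs] [NormedAddCommGroup Gu]
  [NormedSpace ℝ Gu] [FiniteDimensional ℝ Z] [FiniteDimensional ℝ GI] [FiniteDimensional ℝ Gs]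
  {Ω : Z →L[ℝ] Z →L[ℝ] ℝ} {U : Set Z} {ι : Z → GI →L[ℝ] Z} {ζ : Z → Gs →L[ℝ] Z}
  {ν : Z → Gu →L[ℝ] Z}

theorem Frs.fio (h : Frs Ω U ι ζ ν) {W : Set Z} (hW : IsOpen W) (s : W ⊆ U) : Dev.Fio Ω ι W :=
  ⟨hW, h.sι.mono s, fun z hz => h.iso z (s hz), fun z hz a a' w => h.bι z (s hz) a a' w,
    fun z hz => h.nd z (s hz)⟩

/-- comparison of derivatives -/
theorem norm_deriv_le {c c' : ℝ → Z} {v v' : Z} {C : ℝ} (h : HasDerivAt c v 0)
    (h' : HasDerivAt c' v' 0) (hC : ∀ᶠ t in 𝓝[>] (0 : ℝ), ‖c' t - c' 0‖ ≤ C * ‖c t - c 0‖) :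
    ‖v'‖ ≤ C * ‖v‖ := by
  refine le_of_tendsto_of_tendsto h'.tendsto_slope_zero_right.norm
    (h.tendsto_slope_zero_right.norm.const_mul C) ?_
  filter_upwards [hC] with t ht
  simp only [zero_add, norm_smul]
  calc ‖t⁻¹‖ * ‖c' t - c' 0‖ ≤ ‖t⁻¹‖ * (C * ‖c t - c 0‖) := by gcongr
    _ = _ := by ring

/-- a `C¹` map with injective derivative is locally injective -/
theorem injOn_near {φ : GI → Z} {L : GI →L[ℝ] Z} (h : HasStrictFDerivAt φ L 0)
    (hi : Function.Injective L) : ∃ s ∈ 𝓝 (0 : GI), InjOn φ s := by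
  obtain ⟨K, hK0, hK⟩ := (L : GI →ₗ[ℝ] Z).exists_antilipschitzWith (LinearMap.ker_eq_bot.2 hi)
  have hK0' : (0 : ℝ) < K := hK0
  obtain ⟨s, hs, H⟩ := h.approximates_deriv_on_nhds (c := K⁻¹ / 2) (Or.inr (by positivity))
  refine ⟨s, hs, fun x hx y hy e => ?_⟩
  have h1 := H x hx y hy
  have h2 := hK.le_mul_dist x y
  rw [e, sub_self, zero_sub, norm_neg] at h1
  rw [dist_eq_norm, dist_eq_norm] at h2
  have h3 : ‖(L : GI →ₗ[ℝ] Z) x - (L : GI →ₗ[ℝ] Z) y‖ = ‖L (x - y)‖ := by rw [map_sub]; rfl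
  rw [h3] at h2
  push_cast at h1
  have h4 : (K : ℝ) * ((K : ℝ)⁻¹ / 2 * ‖x - y‖) = ‖x - y‖ / 2 := by field_simp
  have h5 : ‖x - y‖ ≤ 0 := by nlinarith [mul_le_mul_of_nonneg_left h1 hK0'.le]
  exact sub_eq_zero.1 (norm_le_zero_iff.1 h5)

/-- a form preserving map with `L (range ζ) ⊆ range ζ'` pulls `range ζ'` back into `range ζ` -/
theorem back_of_rg {L : Z →L[ℝ] Z} {i : GI →L[ℝ] Z} {s s' : Gs →L[ℝ] Z}
    (sp : ∀ v w, Ω (L v) (L w) = Ω v w) (nd : ∀ g, (∀ w, Ω (i g) w = 0) → g = 0)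
    (hs : Function.Injective s) (hs' : Function.Injective s') (sub : ∀ g, ∃ g', s g = i g')
    (rg : Rg L s s') {v : GI} {g : Gs} (e : L (i v) = s' g) : ∃ g₁, i v = s g₁ := by
  have inj : ∀ a, L (i a) = 0 → a = 0 := fun a ha => nd a fun w => by rw [← sp, ha]; simp
  have h1 : Function.Injective ((L ∘L s : Gs →L[ℝ] Z) : Gs →ₗ[ℝ] Z) :=
    (injective_iff_map_eq_zero _).2 fun b hb => by
      obtain ⟨a, ha⟩ := sub b
      have : L (i a) = 0 := by rw [← ha]; exact hb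
      exact hs (by rw [ha, inj a this, map_zero, map_zero])
  have h2 : LinearMap.range ((L ∘L s : Gs →L[ℝ] Z) : Gs →ₗ[ℝ] Z) =
      LinearMap.range (s' : Gs →ₗ[ℝ] Z) := by
    refine Submodule.eq_of_le_of_finrank_eq ?_ ?_
    · rintro _ ⟨b, rfl⟩
      obtain ⟨b', hb⟩ := rg b
      exact ⟨b', hb.symm⟩
    · rw [LinearMap.finrank_range_of_inj h1, LinearMap.finrank_range_of_inj hs']
  obtain ⟨g₁, hg⟩ : s' g ∈ LinearMap.range ((L ∘L s : Gs →L[ℝ] Z) : Gs →ₗ[ℝ] Z) := h2 ▸ ⟨g, rfl⟩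
  obtain ⟨a, ha⟩ := sub g₁
  have hg' : L (i a) = s' g := by rw [← ha]; exact hg
  have : v - a = 0 := inj _ (by rw [map_sub, map_sub, e, hg', sub_self])
  exact ⟨g₁, by rw [ha, sub_eq_zero.1 this]⟩

end

theorem natS : NatS := by
  intro P Y Z GI Gs Gu _ _ _ _ _ _ _ _ _ _ _ _ _ _ d a Ω U ι ζ ν Ψ z₀ hd hB Dm J hJ
  have F := hB.frs
  have hSs : ∀ k ∈ Dm, d.Ss (Ψ k.1) (Ψ (J k)) := by
    rintro ⟨y, w⟩ hk
    have := hB.leaf (fun t => J (y, t • w)) w fun t ht =>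
      ⟨hJ.mem _ (hJ.star _ hk t ht), Dev.jf_ray hJ (hJ.star _ hk t ht)⟩
    simpa [hJ.init y (hJ.mem1 _ hk)] using this
  refine ⟨hSs, ?_⟩
  obtain ⟨K₀, hK₀, V, hV, bil⟩ := hB.bil
  obtain ⟨V₁, ρ, hV₁, hz₁, -, hρ, hρι⟩ :=
    Dev.exists_li F.opn hB.mem F.sι ((F.fio F.opn Subset.rfl).inj hB.mem)
  set W : Set Z := U ∩ interior V ∩ V₁ with hW
  have hWo : IsOpen W := (F.opn.inter isOpen_interior).inter hV₁
  have hzW : z₀ ∈ W := ⟨⟨hB.mem, mem_interior_iff_mem_nhds.2 hV⟩, hz₁⟩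
  have hWU : W ⊆ U := fun z hz => hz.1.1
  have hWV : W ⊆ V := fun z hz => interior_subset hz.1.2
  have h00 : (z₀, (0 : GI)) ∈ Dm := hJ.zero _ hB.mem
  have hJ0 := Dev.jf_at hJ h00
  obtain ⟨s, hs, hinj⟩ : ∃ s ∈ 𝓝 (0 : GI), InjOn (fun w => J (z₀, w)) s := by
    have h1 : ContDiffAt ℝ 1 (fun w : GI => J (z₀, w)) 0 :=
      (hJ0.of_le (by simp)).comp (f := fun w : GI => (z₀, w)) 0 (by fun_prop)
    refine injOn_near (h1.hasStrictFDerivAt one_ne_zero) ?_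
    have h2 := (hJ0.differentiableAt (by simp)).hasFDerivAt.comp (0 : GI)
      (f := fun w : GI => (z₀, w)) (hasFDerivAt_prodMk_right z₀ 0)
    rw [show fderiv ℝ (fun w : GI => J (z₀, w)) 0 = _ from h2.fderiv]
    intro v v' e
    have e' : fderiv ℝ J (z₀, 0) (0, v) = fderiv ℝ J (z₀, 0) (0, v') := e
    rw [hJ.der _ h00, hJ.der _ h00, hJ.init _ hB.mem] at e'
    exact (F.fio F.opn Subset.rfl).inj hB.mem e'
  obtain ⟨r₀, hr₀, hsub⟩ : ∃ r₀ > 0, closedBall ((z₀, 0) : Z × GI) r₀ ⊆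
      {k | k ∈ Dm ∧ J k ∈ W ∧ k.2 ∈ s} := by
    refine nhds_basis_closedBall.mem_iff.1 ((hJ.op.eventually_mem h00).and
      ((hJ0.continuousAt.eventually (hWo.mem_nhds ?_)).and
        ((continuousAt_snd (p := ((z₀, 0) : Z × GI))).eventually_mem hs)))
    rw [hJ.init _ hB.mem]
    exact hzW
  have box : ∀ y w, y ∈ closedBall z₀ r₀ → ‖w‖ ≤ r₀ → (y, w) ∈ Dm ∧ J (y, w) ∈ W ∧ w ∈ s :=
    fun y w hy hw => hsub (by
      rw [← closedBall_prod_same]; exact ⟨hy, mem_closedBall_zero_iff.2 hw⟩)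
  have ray : ∀ y w, y ∈ closedBall z₀ r₀ → ‖w‖ ≤ r₀ → ∀ t ∈ Icc (0 : ℝ) 1, J (y, t • w) ∈ W :=
    fun y w hy hw t ht => (box y _ hy (by
      rw [norm_smul, Real.norm_of_nonneg ht.1]
      exact (mul_le_of_le_one_left (norm_nonneg _) ht.2).trans hw)).2.1
  have bW : ∀ y ∈ closedBall z₀ r₀, y ∈ W := fun y hy => by
    have := box y 0 hy (by simpa using hr₀.le)
    rw [hJ.init y (hJ.mem1 _ this.1)] at this
    exact this.2.1
  obtain ⟨M₁, hM₁⟩ := (isCompact_closedBall z₀ r₀).exists_bound_of_continuousOn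
    (F.sι.continuousOn.mono fun y hy => hWU (bW y hy))
  obtain ⟨M₂, hM₂⟩ := (isCompact_closedBall z₀ r₀).exists_bound_of_continuousOn
    (hρ.continuousOn.mono fun y hy => (bW y hy).2)
  have hM₁0 : 0 ≤ M₁ := (norm_nonneg _).trans (hM₁ z₀ (mem_closedBall_self hr₀.le))
  have hM₂0 : 0 ≤ M₂ := (norm_nonneg _).trans (hM₂ z₀ (mem_closedBall_self hr₀.le))
  obtain ⟨K₁, hK₁, cs⟩ := hd.cs 1
  set K : ℝ := M₂ * (K₀ * K₁ * K₀) * M₁ with hK
  have hK0 : 0 ≤ K := by positivity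
  have hΨi : InjOn Ψ W := fun z hz z' hz' e => by
    have := (bil z (hWV hz) z' (hWV hz')).2
    rw [e, dist_self, mul_zero, norm_le_zero_iff, sub_eq_zero] at this
    exact this
  refine ⟨r₀, hr₀, fun r hr hrr => ⟨K, K / a, fun k hk => (box k.1 k.2
    (closedBall_subset_closedBall hrr hk.1)
    ((mem_closedBall_zero_iff.1 hk.2).trans hrr)).1, fun w hw w' hw' e => ?_, ?_⟩⟩
  · have b := box z₀ w (mem_closedBall_self hr₀.le) ((mem_ball_zero_iff.1 hw).le.trans hrr)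
    have b' := box z₀ w' (mem_closedBall_self hr₀.le) ((mem_ball_zero_iff.1 hw').le.trans hrr)
    exact hinj b.2.2 b'.2.2 (hΨi b.2.1 b'.2.1 e)
  intro T hT f hf y hy y' hy' e
  have ha := hd.a_pos
  have hT0 : 0 ≤ T := le_trans (by positivity) hT
  have hy0 : y ∈ closedBall z₀ r₀ := ball_subset_closedBall (ball_subset_ball hrr hy)
  have hy0' : y' ∈ closedBall z₀ r₀ := ball_subset_closedBall (ball_subset_ball hrr hy')
  have hyW := bW y hy0
  have hyW' := bW y' hy0'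
  obtain ⟨h, hs', hhy, hev⟩ := hB.loc T f hf y (hWU hyW) y' (hWU hyW') e
  obtain ⟨-, sp, rg, -⟩ := hev.self_of_nhds
  set A : GI →L[ℝ] GI := ρ y' ∘L fderiv ℝ h y ∘L ι y with hA
  have hAι : ∀ v, fderiv ℝ h y (ι y v) = ι y' (A v) := fun v => by
    obtain ⟨g, hg⟩ := rg v
    rw [hhy] at hg
    rw [show A v = ρ y' (fderiv ℝ h y (ι y v)) from rfl, hg, hρι y' hyW'.2]
  have hAn : ∀ v, ‖A v‖ ≤ K * Real.exp (-(a * T)) * ‖v‖ := fun v => by
    have h0 : (y, (0 : ℝ) • v) ∈ Dm := by simpa using hJ.zero y (hWU hyW)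
    have c0 : J (y, (0 : ℝ) • v) = y := by simpa using hJ.init y (hWU hyW)
    have hc := Dev.jf_ray hJ h0
    rw [c0] at hc
    have hc' : HasDerivAt (fun t : ℝ => h (J (y, t • v))) (fderiv ℝ h y (ι y v)) 0 :=
      HasFDerivAt.comp_hasDerivAt_of_eq (l := h) 0
        (hs'.differentiableAt (by simp)).hasFDerivAt hc c0.symm
    have tc : Tendsto (fun t : ℝ => J (y, t • v)) (𝓝 0) (𝓝 y) := by
      simpa only [ContinuousAt, c0] using hc.continuousAt
    have hΨy : ContinuousAt Ψ y := hB.cont.continuousAt (F.opn.mem_nhds (hWU hyW))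
    have h1 := norm_deriv_le (C := K₀ * (K₁ * Real.exp (-(a * T))) * K₀) hc hc' (by
      refine mem_nhdsWithin_of_mem_nhds ?_
      filter_upwards [tc.eventually (hWo.mem_nhds hyW), tc.eventually hev,
        tc.eventually (hs'.continuousAt.eventually (hWo.mem_nhds (hhy ▸ hyW'))),
        tc.eventually (hΨy.eventually (closedBall_mem_nhds _ one_pos)),
        (show ContinuousAt (fun t : ℝ => ((y, t • v) : Z × GI)) 0 by fun_prop).eventually
          (hJ.op.mem_nhds h0)] with t k1 k2 k3 k4 k5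
      simp only [c0]
      have b1 := (bil _ (hWV k3) _ (hWV hyW')).2
      have b2 := cs T hT0 f hf _ _ (hSs _ k5) (by rw [dist_comm]; exact k4)
      have b3 := (bil _ (hWV k1) _ (hWV hyW)).1
      rw [← k2.1, ← e, dist_comm] at b1
      rw [dist_comm] at b3
      rw [hhy]
      calc _ ≤ K₀ * (K₁ * Real.exp (-(a * T)) * (K₀ * ‖J (y, t • v) - y‖)) :=
            b1.trans (mul_le_mul_of_nonneg_left
              (b2.trans (mul_le_mul_of_nonneg_left b3 (by positivity))) hK₀.le)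
        _ = _ := by ring)
    calc ‖A v‖ ≤ ‖ρ y'‖ * ‖fderiv ℝ h y (ι y v)‖ := (ρ y').le_opNorm _
      _ ≤ M₂ * (K₀ * (K₁ * Real.exp (-(a * T))) * K₀ * (M₁ * ‖v‖)) := by
          refine mul_le_mul (hM₂ y' hy0') (h1.trans ?_) (norm_nonneg _) hM₂0
          gcongr
          exact ((ι y).le_opNorm v).trans (by gcongr; exact hM₁ y hy0)
      _ = _ := by rw [hK]; ring
  have hA1 : ∀ v, ‖A v‖ ≤ ‖v‖ := fun v => by
    refine (hAn v).trans (mul_le_of_le_one_left (norm_nonneg _) ?_)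
    have h1 : K ≤ a * T := by rwa [div_le_iff₀' ha] at hT
    rw [Real.exp_neg, mul_inv_le_iff₀ (Real.exp_pos _), one_mul]
    linarith [Real.add_one_le_exp (a * T)]
  refine ⟨A, (injective_iff_map_eq_zero _).2 fun v hv => F.nd y (hWU hyW) v fun w => by
    rw [← sp, hAι, hv]; simp, hAn, fun w hw => ?_⟩
  have hw0 : ‖w‖ ≤ r₀ := hw.le.trans hrr
  have hw1 : ‖A w‖ ≤ r₀ := (hA1 w).trans hw0
  have b := box y w hy0 hw0
  have b' := box y' (A w) hy0' hw1
  obtain ⟨n1, n2⟩ := Dev.nat (h := h) (f := fun z => f (Ψ z)) (F.fio hWo hWU) hJ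
    ((hd.cont T f hf).comp_continuousOn (hB.cont.mono hWU)) (hB.cont.mono hWU) hΨi
    (fun z hz z' hz' e => by
      obtain ⟨k, k1, k2, k3⟩ := hB.loc T f hf z (hWU hz) z' (hWU hz') e
      refine ⟨k, k2, ?_⟩
      filter_upwards [k3, (k1.of_le two_le').eventually (by simp)] with x l1 l2
      exact ⟨⟨l2, l1.2.1, Dev.surj_of_sp l1.2.1, l1.2.2.1⟩, l1.1⟩)
    b.1 b'.1 (ray y w hy0 hw0) (ray y' _ hy0' hw1) hhy hs'.continuousAt (hev.mono fun _ k => k.1)
    (hAι w)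
  refine ⟨n1, fun v ⟨g, hg⟩ => ?_⟩
  obtain ⟨k, k1, k2, k3⟩ := hB.loc T f hf _ (hWU b.2.1) _ (hWU b'.2.1) n1
  obtain ⟨-, sp', -, rg'⟩ := k3.self_of_nhds
  rw [k2] at rg'
  exact back_of_rg sp' (F.nd _ (hWU b.2.1)) (F.iζ _ (hWU b.2.1)) (F.iζ _ (hWU b'.2.1))
    (F.sub _ (hWU b.2.1)) rg'
    ((n2 k k2 k1.continuousAt (k3.mono fun _ l => l.1) v _ (hAι v)).trans hg)

end Crest.Agent.N221.NB
end
end

-- ▼ part N221/NB/Fam
section

/-! Row 221, block NB: `famS : FamS` (the flow of `ν g₀` keeps polynomial developments). -/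

set_option autoImplicit false
set_option linter.unusedSectionVars false
set_option maxSynthPendingDepth 3

open Set Metric Filter Topology
open scoped ContDiff

noncomputable section

namespace Crest.Agent.N221.NB

open Fr

namespace Dev

variable {Z G G' H : Type} [NormedAddCommGroup Z] [NormedSpace ℝ Z] [NormedAddCommGroup G]
  [NormedSpace ℝ G] [NormedAddCommGroup G'] [NormedSpace ℝ G'] [NormedAddCommGroup H]
  [NormedSpace ℝ H]

/-- polynomial with `N` coefficients -/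
def pq (N : ℕ) (a : ℕ → G) (τ : ℝ) : G := ∑ i ∈ Finset.range N, τ ^ i • a i

theorem hasDerivAt_pq (N : ℕ) (a : ℕ → G) (τ : ℝ) :
    HasDerivAt (pq (N + 1) a) (pq N (fun i => ((i : ℝ) + 1) • a (i + 1)) τ) τ := by
  have h : pq (N + 1) a = fun τ => ∑ i ∈ Finset.range N, τ ^ (i + 1) • a (i + 1) + a 0 := by
    funext τ
    simp [pq, Finset.sum_range_succ']
  rw [h]
  refine (HasDerivAt.fun_sum fun i _ => ?_).add_const _
  convert (hasDerivAt_pow (i + 1) τ).smul_const (a (i + 1)) using 1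
  simp [smul_smul, mul_comm]

theorem contDiff_pq (N : ℕ) (a : ℕ → G) : ContDiff ℝ ∞ (pq N a) :=
  ContDiff.sum fun i _ => (contDiff_id.pow i).smul contDiff_const

theorem pq_zero (N : ℕ) (a : ℕ → G) : pq (N + 1) a 0 = a 0 := by
  simp [pq, Finset.sum_range_succ']

/-- primitive of a polynomial with a given value at `0` -/
theorem exists_prim (N : ℕ) (b : ℕ → G) (g₀ : G) : ∃ a : ℕ → G, pq (N + 1) a 0 = g₀ ∧
    ∀ τ, HasDerivAt (pq (N + 1) a) (pq N b τ) τ := by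
  refine ⟨fun i => _root_.Nat.casesOn i g₀ fun i => ((i : ℝ) + 1)⁻¹ • b i, pq_zero _ _, fun τ => ?_⟩
  convert hasDerivAt_pq N _ τ using 2
  funext i
  show b i = ((i : ℝ) + 1) • ((i : ℝ) + 1)⁻¹ • b i
  rw [smul_smul, mul_inv_cancel₀ (by positivity), one_smul]

/-- **POLY**: a function related to a polynomial is a polynomial -/
theorem poly_of_rel {θ : Z → G →L[ℝ] Z →L[ℝ] ℝ} {θ' : Z → G' →L[ℝ] Z →L[ℝ] ℝ}
    {ζ : Z → H →L[ℝ] Z} {c : ℝ → Z} {τ₁ : ℝ} (h₁ : 0 < τ₁)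
    (B : ∀ t ∈ Icc 0 τ₁, Bas θ ζ (c t)) (B' : ∀ t ∈ Icc 0 τ₁, Bas θ' ζ (c t))
    (hζ : ∀ t ∈ Icc 0 τ₁, DifferentiableAt ℝ ζ (c t))
    (hc : ∀ t ∈ Icc 0 τ₁, ∃ β, HasDerivAt c (ζ (c t) β) t)
    (hi : ∀ t ∈ Icc 0 τ₁, Function.Injective (θ' (c t))) (N : ℕ) :
    ∀ (a : ℕ → G) (g' : ℝ → G'), ContDiffOn ℝ ∞ g' (Icc 0 τ₁) →
      (∀ t ∈ Icc 0 τ₁, θ (c t) (pq N a t) = θ' (c t) (g' t)) →
      ∃ b : ℕ → G', ∀ t ∈ Icc 0 τ₁, g' t = pq N b t := by
  have hu : UniqueDiffOn ℝ (Icc 0 τ₁) := uniqueDiffOn_Icc h₁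
  induction N with
  | zero =>
    refine fun a g' _ he => ⟨fun _ => 0, fun t ht => hi t ht ?_⟩
    rw [← he t ht]
    simp [pq]
  | succ N ih =>
    intro a g' hg he
    obtain ⟨hd, hs⟩ := (contDiffOn_infty_iff_derivWithin hu).1 hg
    obtain ⟨b, hb⟩ := ih _ _ hs fun t ht => by
      obtain ⟨β, hβ⟩ := hc t ht
      exact step (B t ht) (B' t ht) (hζ t ht) (hu t ht) ht hβ.hasDerivWithinAt
        (hasDerivAt_pq N a t).hasDerivWithinAt (hd t ht).hasDerivWithinAt he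
    obtain ⟨b', h0, hb'⟩ := exists_prim N b (g' 0)
    refine ⟨b', eq_of_has_deriv_right_eq (f' := pq N b) (fun t ht => ?_)
      (fun t _ => (hb' t).hasDerivWithinAt) hg.continuousOn
      (contDiff_pq _ _).continuous.continuousOn h0.symm⟩
    have ht' := Ico_subset_Icc_self ht
    rw [← hb t ht']
    exact (hd t ht').hasDerivWithinAt.mono_of_mem_nhdsWithin (Icc_mem_nhdsGE_of_mem ht)

/-- the joint flow preserves the forms with vanishing Lie derivative -/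
theorem jf_lie {X : Z → G →L[ℝ] Z} {U : Set Z} {D : Set (Z × G)} {J : Z × G → Z}
    (hU : IsOpen U) (hX : ContDiffOn ℝ 1 X U) (hJ : JF X U D J)
    {θ : Z → H →L[ℝ] Z →L[ℝ] ℝ} (hθ : ∀ z ∈ U, DifferentiableAt ℝ θ z)
    (hL : ∀ z ∈ U, ∀ a b v, fderiv ℝ θ z (X z b) a v + θ z a (fderiv ℝ X z v b) = 0)
    {p : Z × G} (hp : p ∈ D) (a : H) (v : Z) :
    θ (J p) a (fderiv ℝ J p (v, 0)) = θ p.1 a v := by
  obtain ⟨y, w⟩ := p
  have hm : ∀ t ∈ Icc (0 : ℝ) 1, (y, t • w) ∈ D := fun t ht => hJ.star _ hp t ht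
  have hd : ∀ t ∈ Icc (0 : ℝ) 1, HasDerivAt
      (fun t : ℝ => θ (J (y, t • w)) a (fderiv ℝ J (y, t • w) (v, 0))) 0 t := fun t ht => by
    have hz := hJ.mem _ (hm t ht)
    have e0 : HasDerivAt (fun t : ℝ => θ (J (y, t • w)))
        (fderiv ℝ θ (J (y, t • w)) (X (J (y, t • w)) w)) t :=
      (hθ _ hz).hasFDerivAt.comp_hasDerivAt t (jf_ray hJ (hm t ht))
    have e1 : HasDerivAt (fun t : ℝ => θ (J (y, t • w)) a)
        (fderiv ℝ θ (J (y, t • w)) (X (J (y, t • w)) w) a) t := by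
      simpa using e0.clm_apply (hasDerivAt_const t a)
    exact (e1.clm_apply (jf_var hU hX hJ (hm t ht) v)).congr_deriv (hL _ hz _ _ _)
  have := constant_of_has_deriv_right_zero (a := 0) (b := 1)
    (fun t ht => (hd t ht).continuousAt.continuousWithinAt)
    (fun t ht => (hd t ⟨ht.1, ht.2.le⟩).hasDerivWithinAt) 1 ⟨zero_le_one, le_rfl⟩
  simpa [hJ.init y (hJ.mem1 _ hp), jf_init_der hU hJ (hJ.mem1 _ hp)] using this

/-- the field `ν g₀` as a frame of rank one -/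
def fld (ν : Z → G →L[ℝ] Z) (g₀ : G) (z : Z) : ℝ →L[ℝ] Z :=
  ContinuousLinearMap.smulRightL ℝ ℝ Z (ContinuousLinearMap.id ℝ ℝ) (ν z g₀)

@[simp] theorem fld_apply (ν : Z → G →L[ℝ] Z) (g₀ : G) (z : Z) (s : ℝ) :
    fld ν g₀ z s = s • ν z g₀ := rfl

theorem contDiffOn_fld {ν : Z → G →L[ℝ] Z} {U : Set Z} (h : ContDiffOn ℝ ∞ ν U) (g₀ : G) :
    ContDiffOn ℝ ∞ (fld ν g₀) U :=
  (ContinuousLinearMap.smulRightL ℝ ℝ Z (ContinuousLinearMap.id ℝ ℝ)).contDiff.comp_contDiffOn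
    (h.clm_apply contDiffOn_const)

theorem fderiv_fld {ν : Z → G →L[ℝ] Z} {z : Z} (h : DifferentiableAt ℝ ν z) (g₀ : G) (v : Z)
    (s : ℝ) : fderiv ℝ (fld ν g₀) z v s = s • fderiv ℝ ν z v g₀ := by
  have e : HasFDerivAt (fld ν g₀) _ z :=
    (ContinuousLinearMap.smulRightL ℝ ℝ Z (ContinuousLinearMap.id ℝ ℝ)).hasFDerivAt.comp z
      (h.hasFDerivAt.clm_apply (hasFDerivAt_const g₀ z))
  rw [e.fderiv]
  simp

end Dev

open Dev

theorem famS : FamS := by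
  intro Z GI Gs Gu _ _ _ _ _ _ _ _ _ _ _ _ Ω U ι ζ ν Dm J z₀ g₀ r F hJ hz hr
  have : CompleteSpace Z := FiniteDimensional.complete ℝ Z
  have Fi := F.fio F.opn Subset.rfl
  have da : ∀ {G : Type} [NormedAddCommGroup G] [NormedSpace ℝ G] {e : Z → G →L[ℝ] Z},
      ContDiffOn ℝ ∞ e U → ∀ z ∈ U, DifferentiableAt ℝ e z := fun he z hz =>
    (he.contDiffAt (F.opn.mem_nhds hz)).differentiableAt (by simp)
  have hX := contDiffOn_fld F.sν g₀
  have hX1 : ContDiffOn ℝ 1 (fld ν g₀) U := hX.of_le (by simp)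
  obtain ⟨Du, Ju, hJu⟩ := jf Z ℝ (fld ν g₀) U F.opn hX fun z hz s s' => by
    rw [fderiv_fld (da F.sν z hz), fderiv_fld (da F.sν z hz)]
    simp only [fld_apply, map_smul, smul_apply, smul_smul, mul_comm]
  have comm : ∀ p ∈ Du, ∀ b, fderiv ℝ Ju p (ζ p.1 b, 0) = ζ (Ju p) b := fun p hp b =>
    jf_comm F.opn hX1 hJu (da F.sζ) (fun z hz s b => by
      rw [fderiv_fld (da F.sν z hz), F.cν z hz]
      simp) hp b
  have lie : ∀ p ∈ Du, ∀ b v, Ω (ζ (Ju p) b) (fderiv ℝ Ju p (v, 0)) = Ω (ζ p.1 b) v :=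
    fun p hp b v => jf_lie (θ := th Ω ζ) F.opn hX1 hJu (fun z hz => diff_th (da F.sζ z hz))
      (fun z hz a s v => by
        rw [fderiv_th (da F.sζ z hz), fderiv_fld (da F.sν z hz), th_apply, fld_apply]
        simp only [map_smul, smul_apply]
        rw [← F.cν z hz, F.bν z hz, F.skew]
        simp) hp b v
  have dψ : ∀ y t, (y, t) ∈ Du → HasFDerivAt (fun y => Ju (y, t))
      (fderiv ℝ Ju (y, t) ∘L ContinuousLinearMap.inl ℝ Z ℝ) y := fun y t h =>
    ((jf_at hJu h).differentiableAt (by simp)).hasFDerivAt.comp y (f := fun y : Z => (y, t))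
      (hasFDerivAt_prodMk_left y t)
  obtain ⟨V₁, ρ, hV₁, hz₁, -, hρ, hρι⟩ := exists_li F.opn hz F.sι (Fi.inj hz)
  obtain ⟨δ', hδ', hsub'⟩ : ∃ δ' > 0, closedBall ((z₀, 0) : Z × GI) δ' ⊆ Dm :=
    nhds_basis_closedBall.mem_iff.1 (hJ.op.mem_nhds (hJ.zero _ hz))
  have h00 : (z₀, (0 : ℝ)) ∈ Du := hJu.zero _ hz
  have hJ0 := jf_at hJu h00
  obtain ⟨δ, hδ, hsub⟩ : ∃ δ > 0, closedBall ((z₀, 0) : Z × ℝ) δ ⊆
      {k | k ∈ Du ∧ Ju k ∈ V₁ ∩ ball z₀ (min r δ') ∧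
        IsUnit (fderiv ℝ Ju k ∘L ContinuousLinearMap.inl ℝ Z ℝ)} := by
    refine nhds_basis_closedBall.mem_iff.1 ((hJu.op.eventually_mem h00).and
      ((hJ0.continuousAt.eventually ((hV₁.inter isOpen_ball).mem_nhds ?_)).and ?_))
    · rw [hJu.init _ hz]
      exact ⟨hz₁, mem_ball_self (lt_min hr hδ')⟩
    · have c1 : ContinuousAt (fun k => fderiv ℝ Ju k ∘L ContinuousLinearMap.inl ℝ Z ℝ) (z₀, 0) :=
        (hJ0.fderiv_right (m := 0) (by simp)).continuousAt.clm_comp continuousAt_const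
      refine c1.eventually (Units.isOpen.mem_nhds ?_)
      have : fderiv ℝ Ju (z₀, 0) ∘L ContinuousLinearMap.inl ℝ Z ℝ = 1 :=
        ContinuousLinearMap.ext fun v => jf_init_der F.opn hJu hz v
      show IsUnit (fderiv ℝ Ju (z₀, 0) ∘L ContinuousLinearMap.inl ℝ Z ℝ)
      rw [this]
      exact isUnit_one
  have box : ∀ y ∈ closedBall z₀ δ, ∀ t ∈ Icc 0 δ, (y, t) ∈ Du ∧ Ju (y, t) ∈ V₁ ∩
      ball z₀ (min r δ') ∧ IsUnit (fderiv ℝ Ju (y, t) ∘L ContinuousLinearMap.inl ℝ Z ℝ) :=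
    fun y hy t ht => hsub (by
      rw [← closedBall_prod_same]
      exact ⟨hy, mem_closedBall_zero_iff.2 (by rw [Real.norm_of_nonneg ht.1]; exact ht.2)⟩)
  have flow : ∀ y t, (y, t) ∈ Du → HasDerivAt (fun t => Ju (y, t)) (ν (Ju (y, t)) g₀) t :=
    fun y t h => by
      simpa using jf_curve hJu (w := fun t => t) (s := univ) h (hasDerivWithinAt_id t univ)
  have hz0 : z₀ ∈ closedBall z₀ δ := mem_closedBall_self hδ.le
  have KD : closedBall z₀ δ ×ˢ Icc 0 δ ⊆ Du := fun k hk => (box k.1 hk.1 k.2 hk.2).1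
  have Kc : Convex ℝ (closedBall z₀ δ ×ˢ Icc (0 : ℝ) δ) := (convex_closedBall _ _).prod (convex_Icc _ _)
  have Kk : IsCompact (closedBall z₀ δ ×ˢ Icc (0 : ℝ) δ) := (isCompact_closedBall _ _).prod isCompact_Icc
  obtain ⟨L₁, hL₁⟩ := (hJu.sm.mono KD).exists_lipschitzOnWith (by simp) Kc Kk
  obtain ⟨L₂, hL₂⟩ := (((F.sν.comp hJu.sm hJu.mem).clm_apply
    (contDiffOn_const (c := g₀))).mono KD).exists_lipschitzOnWith (by simp) Kc Kk
  have dt : ∀ (y : Z) (t t' : ℝ), dist (y, t') (y, t) = |t' - t| := fun y t t' => by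
    simp [Prod.dist_eq, Real.dist_eq]
  have second : ∀ y ∈ closedBall z₀ δ, ∀ t ∈ Icc 0 δ, ∀ t' ∈ Icc 0 δ,
      ‖Ju (y, t') - Ju (y, t) - (t' - t) • ν (Ju (y, t)) g₀‖ ≤ L₂ * (t' - t) ^ 2 := by
    intro y hy t ht t' ht'
    have sub : uIcc t t' ⊆ Icc 0 δ := uIcc_subset_Icc ht ht'
    have := (convex_uIcc t t').norm_image_sub_le_of_norm_hasDerivWithin_le
      (f := fun s => Ju (y, s) - (s - t) • ν (Ju (y, t)) g₀)
      (f' := fun s => ν (Ju (y, s)) g₀ - ν (Ju (y, t)) g₀) (C := L₂ * |t' - t|)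
      (fun s hs => by
        have := (flow y s (box y hy s (sub hs)).1).sub
          (((hasDerivAt_id s).sub_const t).smul_const (ν (Ju (y, t)) g₀))
        rw [one_smul] at this
        exact this.hasDerivWithinAt)
      (fun s hs => by
        have := hL₂.dist_le_mul (y, s) ⟨hy, sub hs⟩ (y, t) ⟨hy, ht⟩
        rw [dist_eq_norm, dt] at this
        exact this.trans (mul_le_mul_of_nonneg_left (abs_sub_left_of_mem_uIcc hs) L₂.2))
      left_mem_uIcc right_mem_uIcc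
    rw [sub_self, zero_smul, sub_zero, Real.norm_eq_abs, mul_assoc, abs_mul_abs_self, ← sq,
      sub_right_comm] at this
    exact this
  refine ⟨δ, fun t => Ju (z₀, t), hδ, hJu.init _ hz, ?_,
    fun t ht => ball_subset_ball (min_le_left _ _) (box z₀ hz0 t ht).2.1.2, ?_⟩
  · simpa [hJu.init _ hz] using flow z₀ 0 h00
  rintro N p ⟨cf, hp⟩ hp0 hT
  obtain rfl : p = pq (N + 1) cf := funext hp
  set p := pq (N + 1) cf with hpd
  set p₁ := pq N fun i => ((i : ℝ) + 1) • cf (i + 1) with hp₁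
  have hp' : ∀ τ, HasDerivAt p (p₁ τ) τ := hasDerivAt_pq N cf
  set c : ℝ → Z := fun τ => J (z₀, p τ) with hc
  have cpair : ContDiff ℝ ∞ fun τ => ((z₀, p τ) : Z × GI) := contDiff_const.prodMk (contDiff_pq _ _)
  have c0 : c 0 = z₀ := by simp only [hc, hp0]; exact hJ.init _ hz
  have cs : ∀ τ, (z₀, p τ) ∈ Dm → ContDiffAt ℝ ∞ c τ := fun τ h =>
    (jf_at hJ h).comp (f := fun τ => ((z₀, p τ) : Z × GI)) τ cpair.contDiffAt
  have h0D : (z₀, p 0) ∈ Dm := by rw [hp0]; exact hJ.zero _ hz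
  obtain ⟨τ₁, hτ₁, H₁⟩ : ∃ τ₁ > 0, Icc 0 τ₁ ⊆ {τ | Tan ι ζ J z₀ (p τ) (deriv p τ) ∧
      (z₀, p τ) ∈ Dm ∧ c τ ∈ closedBall z₀ δ} :=
    (nhdsGE_basis_Icc (a := (0 : ℝ))).mem_iff.1 (hT.and (mem_nhdsWithin_of_mem_nhds
      ((cpair.continuous.continuousAt.eventually (hJ.op.mem_nhds h0D)).and
        ((cs 0 h0D).continuousAt.eventually (by rw [c0]; exact closedBall_mem_nhds _ hδ)))))
  have cU : ∀ τ ∈ Icc 0 τ₁, c τ ∈ U := fun τ hτ => hJ.mem _ (H₁ hτ).2.1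
  have dc : ∀ τ ∈ Icc 0 τ₁, HasDerivAt c (ι (c τ) (p₁ τ)) τ := fun τ hτ =>
    hasDerivWithinAt_univ.1 (jf_curve hJ (H₁ hτ).2.1 (hp' τ).hasDerivWithinAt)
  have tan : ∀ τ ∈ Icc 0 τ₁, ∃ β, ι (c τ) (p₁ τ) = ζ (c τ) β := fun τ hτ => by
    have := (H₁ hτ).1
    rwa [(hp' τ).deriv] at this
  set Q : ℝ × ℝ → GI := fun q =>
    ρ (Ju (c q.2, q.1)) (fderiv ℝ Ju (c q.2, q.1) (ι (c q.2) (p₁ q.2), 0)) with hQ
  have Qs : ContDiffOn ℝ ∞ Q (Icc 0 δ ×ˢ Icc 0 τ₁) := fun q hq => by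
    have b := box _ (H₁ hq.2).2.2 _ hq.1
    have a1 : ContDiffAt ℝ ∞ (fun q : ℝ × ℝ => c q.2) q :=
      (cs _ (H₁ hq.2).2.1).comp q contDiffAt_snd
    have a2 : ContDiffAt ℝ ∞ (fun q : ℝ × ℝ => (c q.2, q.1)) q := a1.prodMk contDiffAt_fst
    have a3 : ContDiffAt ℝ ∞ (fun q : ℝ × ℝ => ρ (Ju (c q.2, q.1))) q :=
      (hρ.contDiffAt (hV₁.mem_nhds b.2.1.1)).comp (f := fun q : ℝ × ℝ => Ju (c q.2, q.1)) q
        ((jf_at hJu b.1).comp (f := fun q : ℝ × ℝ => (c q.2, q.1)) q a2)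
    have a4 : ContDiffAt ℝ ∞ (fun q : ℝ × ℝ => fderiv ℝ Ju (c q.2, q.1)) q :=
      ((jf_at hJu b.1).fderiv_right (m := ∞) (by simp)).comp
        (f := fun q : ℝ × ℝ => (c q.2, q.1)) q a2
    have a5 : ContDiffAt ℝ ∞ (fun q : ℝ × ℝ => ι (c q.2) (p₁ q.2)) q :=
      ((Fi.at (cU _ hq.2)).comp (f := fun q : ℝ × ℝ => c q.2) q a1).clm_apply
        ((contDiff_pq _ _).contDiffAt.comp q contDiffAt_snd)
    exact (a3.clm_apply (a4.clm_apply (a5.prodMk contDiffAt_const))).contDiffWithinAt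
  have ιQ : ∀ t ∈ Icc 0 δ, ∀ τ ∈ Icc 0 τ₁, ι (Ju (c τ, t)) (Q (t, τ)) =
      fderiv ℝ Ju (c τ, t) (ι (c τ) (p₁ τ), 0) := fun t ht τ hτ => by
    have b := box _ (H₁ hτ).2.2 _ ht
    obtain ⟨β, hβ⟩ := tan τ hτ
    obtain ⟨g', hg'⟩ := F.sub _ (hJu.mem _ b.1) β
    simp only [hQ]
    rw [hβ, comm _ b.1, hg', hρι _ b.2.1.1]
  have ex : ∀ t ∈ Icc 0 δ, ∃ w : ℝ → GI, Poly N w ∧ w 0 = 0 ∧
      ∀ τ ∈ Icc 0 τ₁, HasDerivAt w (Q (t, τ)) τ := fun t ht => by
    have b := fun τ (hτ : τ ∈ Icc 0 τ₁) => box _ (H₁ hτ).2.2 _ ht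
    obtain ⟨b₁, hb₁⟩ := poly_of_rel (θ := th Ω ι) (θ' := pth Ω ι fun y => Ju (y, t)) (ζ := ζ)
      (c := c) hτ₁
      (fun τ hτ => bas_th (da F.sι _ (cU τ hτ))
        ((F.opn.eventually_mem (cU τ hτ)).mono fun y hy a b => by
          obtain ⟨g', hg'⟩ := F.sub y hy b
          rw [hg', F.iso y hy])
        fun a b v => by
          obtain ⟨g', hg'⟩ := F.sub _ (cU τ hτ) b
          rw [hg', F.bι _ (cU τ hτ)])
      (fun τ hτ => bas_pth (((jf_at hJu (b τ hτ).1).of_le two_le').comp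
          (f := fun y : Z => (y, t)) _ (by fun_prop)) (da F.sι _ (hJu.mem _ (b τ hτ).1))
        (by
          filter_upwards [(show ContinuousAt (fun y : Z => (y, t)) (c τ) by fun_prop).eventually
            (hJu.op.mem_nhds (b τ hτ).1)] with y hy a b
          obtain ⟨g', hg'⟩ := F.sub _ (hJu.mem _ hy) b
          rw [(dψ y t hy).fderiv]
          show Ω _ (fderiv ℝ Ju (y, t) (ζ y b, 0)) = 0
          rw [comm _ hy, hg', F.iso _ (hJu.mem _ hy)])
        fun a b' v => by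
          obtain ⟨g', hg'⟩ := F.sub _ (hJu.mem _ (b τ hτ).1) b'
          have e : fderiv ℝ (fun y => Ju (y, t)) (c τ) (ζ (c τ) b') = ι (Ju (c τ, t)) g' := by
            rw [(dψ _ t (b τ hτ).1).fderiv, ← hg']
            exact comm _ (b τ hτ).1 b'
          rw [e, F.bι _ (hJu.mem _ (b τ hτ).1)])
      (fun τ hτ => da F.sζ _ (cU τ hτ))
      (fun τ hτ => by
        obtain ⟨β, hβ⟩ := tan τ hτ
        exact ⟨β, hβ ▸ dc τ hτ⟩)
      (fun τ hτ => Fi.inj_pth (hJu.mem _ (b τ hτ).1) fun v => by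
        obtain ⟨u, hu⟩ := (b τ hτ).2.2
        refine ⟨(↑u⁻¹ : Z →L[ℝ] Z) v, fun x => ?_⟩
        rw [(dψ _ t (b τ hτ).1).fderiv, ← hu, ← mul_apply_eq_comp, u.mul_inv]
        rfl)
      N _ (fun τ => Q (t, τ)) (Qs.comp (by fun_prop) fun τ hτ => ⟨ht, hτ⟩)
      fun τ hτ => ContinuousLinearMap.ext fun v => by
        obtain ⟨β, hβ⟩ := tan τ hτ
        rw [th_apply, pth_apply, ιQ t ht τ hτ, ← hp₁, hβ, comm _ (b τ hτ).1,
          (dψ _ t (b τ hτ).1).fderiv]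
        exact (lie _ (b τ hτ).1 β v).symm
    obtain ⟨a, a0, ha⟩ := exists_prim N b₁ 0
    exact ⟨pq (N + 1) a, ⟨a, fun _ => rfl⟩, a0, fun τ hτ => hb₁ τ hτ ▸ ha τ⟩
  have h0δ : (0 : ℝ) ∈ Icc 0 δ := left_mem_Icc.2 hδ.le
  obtain ⟨w, hw0, hw⟩ : ∃ w : ℝ → ℝ → GI, w 0 = p ∧ ∀ t ∈ Icc 0 δ, Poly N (w t) ∧ w t 0 = 0 ∧
      ∀ τ ∈ Icc 0 τ₁, HasDerivAt (w t) (Q (t, τ)) τ := by
    classical
    choose! w hw using ex
    refine ⟨Function.update w 0 p, by simp, fun t ht => ?_⟩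
    by_cases h : t = 0
    · subst h
      rw [Function.update_self]
      refine ⟨⟨cf, fun _ => rfl⟩, hp0, fun τ hτ => ?_⟩
      have e := ιQ 0 h0δ τ hτ
      rw [jf_init_der F.opn hJu (cU τ hτ), hJu.init _ (cU τ hτ)] at e
      rw [Fi.inj (cU τ hτ) e]
      exact hp' τ
    · rw [Function.update_of_ne h]
      exact hw t ht
  have Kc' : Convex ℝ (Icc (0 : ℝ) δ ×ˢ Icc (0 : ℝ) τ₁) := (convex_Icc _ _).prod (convex_Icc _ _)
  have Kk' : IsCompact (Icc (0 : ℝ) δ ×ˢ Icc (0 : ℝ) τ₁) := isCompact_Icc.prod isCompact_Icc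
  obtain ⟨L₃, hL₃⟩ := Qs.exists_lipschitzOnWith (by simp) Kc' Kk'
  obtain ⟨M, hM⟩ := Kk'.exists_bound_of_continuousOn Qs.continuousOn
  have hM0 : 0 ≤ M := (norm_nonneg _).trans (hM (0, 0) ⟨h0δ, left_mem_Icc.2 hτ₁.le⟩)
  have hm : 0 < min r δ' := lt_min hr hδ'
  set τ₀ : ℝ := min (min τ₁ 1) (min r δ' / (M + 1)) with hτ₀
  have τ₀p : 0 < τ₀ := lt_min (lt_min hτ₁ one_pos) (by positivity)
  have τ₀1 : τ₀ ≤ 1 := (min_le_left _ _).trans (min_le_right _ _)
  have sub : Icc 0 τ₀ ⊆ Icc 0 τ₁ := Icc_subset_Icc_right ((min_le_left _ _).trans (min_le_left _ _))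
  have wn : ∀ t ∈ Icc 0 δ, ∀ τ ∈ Icc 0 τ₀, ‖w t τ‖ < min r δ' := fun t ht τ hτ => by
    have := norm_image_sub_le_of_norm_deriv_le_segment' (f := w t) (f' := fun τ => Q (t, τ))
      (C := M) (fun τ hτ => ((hw t ht).2.2 τ hτ).hasDerivWithinAt)
      (fun τ hτ => hM _ ⟨ht, Ico_subset_Icc_self hτ⟩) τ (sub hτ)
    rw [(hw t ht).2.1, sub_zero, sub_zero] at this
    have h2 : τ * (M + 1) ≤ min r δ' :=
      (le_div_iff₀ (by positivity)).1 (hτ.2.trans (min_le_right _ _))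
    rcases hτ.1.eq_or_lt with h | h
    · rw [← h, (hw t ht).2.1, norm_zero]; exact hm
    · nlinarith
  have dev : ∀ t ∈ Icc 0 δ, ∀ τ ∈ Icc 0 τ₀, Ju (c τ, t) = J (Ju (z₀, t), w t τ) := fun t ht => by
    have := devS Z GI ι U Dm J (fun τ => Ju (c τ, t)) (w t) (fun τ => Q (t, τ)) τ₀ F.opn F.sι hJ
      ((Qs.continuousOn.comp (f := fun τ => (t, τ)) (by fun_prop) fun τ hτ => ⟨ht, sub hτ⟩))
      (hw t ht).2.1 fun τ hτ => by
        have b := box _ (H₁ (sub hτ)).2.2 _ ht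
        refine ⟨hJu.mem _ b.1, hsub' ?_, ?_, (hw t ht).2.2 τ (sub hτ)⟩
        · rw [← closedBall_prod_same, c0]
          exact ⟨ball_subset_closedBall (ball_subset_ball (min_le_right _ _)
            (box z₀ hz0 t ht).2.1.2),
            mem_closedBall_zero_iff.2 ((wn t ht τ hτ).le.trans (min_le_right _ _))⟩
        · rw [ιQ t ht τ (sub hτ)]
          exact (dψ _ t b.1).comp_hasDerivAt τ (dc τ (sub hτ))
    simpa only [c0] using this
  refine ⟨τ₀, L₁ + L₂ + L₃, w, τ₀p, τ₀1, hw0, fun t ht => ⟨(hw t ht).1, (hw t ht).2.1,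
    fun τ hτ => ⟨(wn t ht τ hτ).trans_le (min_le_left _ _), ?_, fun t' ht' => ⟨?_, ?_⟩⟩⟩⟩
  · rw [← dev t ht τ hτ]
    exact ball_subset_ball (min_le_left _ _) (box _ (H₁ (sub hτ)).2.2 _ ht).2.1.2
  · have h1 := hL₁.dist_le_mul (z₀, t') ⟨hz0, ht'⟩ (z₀, t) ⟨hz0, ht⟩
    rw [dist_eq_norm, dt] at h1
    have h2 := norm_image_sub_le_of_norm_deriv_le_segment' (f := fun τ => w t' τ - w t τ)
      (f' := fun τ => Q (t', τ) - Q (t, τ)) (C := L₃ * |t' - t|)
      (fun τ hτ => (((hw t' ht').2.2 τ hτ).sub ((hw t ht).2.2 τ hτ)).hasDerivWithinAt)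
      (fun τ hτ => by
        have := hL₃.dist_le_mul (t', τ) ⟨ht', Ico_subset_Icc_self hτ⟩ (t, τ)
          ⟨ht, Ico_subset_Icc_self hτ⟩
        simpa [dist_eq_norm] using this) τ (sub hτ)
    rw [(hw t ht).2.1, (hw t' ht').2.1, sub_zero, sub_zero, sub_zero] at h2
    have h3 : L₃ * |t' - t| * τ ≤ L₃ * |t' - t| :=
      mul_le_of_le_one_right (by positivity) (hτ.2.trans τ₀1)
    have a1 : 0 ≤ L₁ * |t' - t| := by positivity
    have a2 : 0 ≤ L₂ * |t' - t| := by positivity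
    have a3 : 0 ≤ L₃ * |t' - t| := by positivity
    rw [Prod.mk_sub_mk, Prod.norm_mk]
    exact max_le (by linarith) (by linarith)
  · rw [← dev t ht τ hτ, ← dev t' ht' τ hτ]
    refine (second _ (H₁ (sub hτ)).2.2 t ht t' ht').trans ?_
    have a1 : 0 ≤ L₁ * (t' - t) ^ 2 := by positivity
    have a3 : 0 ≤ L₃ * (t' - t) ^ 2 := by positivity
    linarith

end Crest.Agent.N221.NB
end
end

-- ▼ part N221/NB/Top
section

/-! Row 221, block NB: `TopS`. -/

set_option autoImplicit false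

open Set Metric

namespace Crest.Agent.N221.NB

theorem topS : TopS := by
  intro Z GI _ _ _ _ _ _ Dm J z₀ r K N hD hJ hs
  haveI : CompleteSpace GI := FiniteDimensional.complete ℝ GI
  haveI : ProperSpace Z := FiniteDimensional.proper ℝ Z
  haveI : ProperSpace GI := FiniteDimensional.proper ℝ GI
  obtain ⟨L, hL, h1, h2⟩ := exists_compact_between
    ((isCompact_closedBall z₀ r).prod (isCompact_closedBall (0 : GI) r)) hD hs
  obtain ⟨d, hd⟩ := prof hD hJ hL h2 isOpen_interior interior_subset N K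
  exact ⟨d, fun ε y w h0 h1' hy hw h => hd y w ε hw h0 h1' fun τ hτ =>
    ⟨(h τ hτ).1, h1 ⟨hy, mem_closedBall_zero_iff.2 (h τ hτ).2⟩⟩⟩

end Crest.Agent.N221.NB
end

-- ▼ part N221/Fr/B1
section

/-! Row 221, block Fr: (B1) a nonconstant polynomial curve tangent to an invariant distribution
of a linear contraction. -/

set_option autoImplicit false
set_option linter.unusedSectionVars false

open Filter Topology Metric Finset
open Set hiding range
open scoped ContDiff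

noncomputable section

namespace Crest.Agent.N221.Fr

open Crest.Agent.Lib

variable {F H : Type} [NormedAddCommGroup F] [NormedSpace ℝ F] [FiniteDimensional ℝ F]
  [NormedAddCommGroup H] [NormedSpace ℝ H]

/-- `∑ τ^(j+1) a_j` -/
def pw (N : ℕ) (a : ℕ → F) (τ : ℝ) : F := ∑ j ∈ range N, τ ^ (j + 1) • a j

/-- its derivative -/
def pw' (N : ℕ) (a : ℕ → F) (τ : ℝ) : F := ∑ j ∈ range N, (((j : ℝ) + 1) * τ ^ j) • a j

lemma hasDerivAt_pw (N : ℕ) (a : ℕ → F) (τ : ℝ) : HasDerivAt (pw N a) (pw' N a τ) τ := by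
  have := HasDerivAt.fun_sum (u := range N) fun j _ => (hasDerivAt_pow (j + 1) τ).smul_const (a j)
  unfold pw
  simpa [pw'] using this

lemma pw_zero (N : ℕ) (a : ℕ → F) : pw N a 0 = 0 := by simp [pw]

lemma norm_pw {N : ℕ} {a : ℕ → F} {τ : ℝ} (h : τ ∈ Set.Icc (0 : ℝ) 1) :
    ‖pw N a τ‖ ≤ ∑ j ∈ range N, ‖a j‖ :=
  (norm_sum_le _ _).trans (sum_le_sum fun j _ => by
    rw [norm_smul, Real.norm_of_nonneg (pow_nonneg h.1 _)]
    exact mul_le_of_le_one_left (norm_nonneg _) (pow_le_one₀ h.1 h.2))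

lemma pw_scale (N : ℕ) (a : ℕ → F) (s τ : ℝ) :
    pw N (fun j => s ^ (j + 1) • a j) τ = pw N a (s * τ) :=
  sum_congr rfl fun j _ => by rw [smul_smul, mul_pow, mul_comm]

lemma pw'_scale (N : ℕ) (a : ℕ → F) (s τ : ℝ) :
    pw' N (fun j => s ^ (j + 1) • a j) τ = s • pw' N a (s * τ) := by
  rw [pw', pw', smul_sum]
  exact sum_congr rfl fun j _ => by rw [smul_smul, smul_smul, mul_pow]; congr 1; ring

lemma pw_ne {N : ℕ} {a : ℕ → F} {j : ℕ} (hj : j < N) (h : a j ≠ 0) :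
    ∃ τ ∈ Set.Icc (0 : ℝ) 1, pw N a τ ≠ 0 := by
  by_contra hc
  push Not at hc
  obtain ⟨l, hl⟩ := SeparatingDual.exists_ne_zero (R := ℝ) h
  have : (∑ i ∈ range N, Polynomial.monomial (i + 1) (l (a i)) : Polynomial ℝ) = 0 := by
    refine Polynomial.eq_zero_of_infinite_isRoot _ ((Icc_infinite (zero_lt_one' ℝ)).mono
      fun τ hτ => ?_)
    have := congrArg l (hc τ hτ)
    simpa [pw, Polynomial.eval_finsetSum, mul_comm] using this
  have := congrArg (fun p => Polynomial.coeff p (j + 1)) this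
  simp [Polynomial.coeff_monomial, hj] at this
  exact hl this

/-- the integral curve and its Taylor polynomial -/
lemma b1_curve {β : F → F} {r : ℝ} (hr : 0 < r) (hβ : ContDiffOn ℝ ∞ β (ball 0 r)) (N : ℕ) :
    ∃ δ > (0 : ℝ), ∃ (g : ℝ → F) (a : ℕ → F), g 0 = 0 ∧ a 0 = β 0 ∧ ∀ t ∈ Set.Icc 0 δ, g t ∈ ball 0 r ∧
      HasDerivAt g (β (g t)) t ∧ ‖β (g t) - pw' (N + 1) a t‖ ≤ t ^ N := by
  have := FiniteDimensional.complete ℝ F
  have h1 : ContDiffOn ℝ 1 β (ball 0 r) := hβ.of_le (by simp)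
  have hD := ODEFlow.isOpen_dom isOpen_ball h1
  have h0 : (0 : F) ∈ ball (0 : F) r := mem_ball_self hr
  obtain ⟨δ, hδ, hs⟩ := Metric.isOpen_iff.1 (hD.preimage (f := fun t : ℝ => ((0 : F), t))
    (by fun_prop)) 0 (ODEFlow.mem_dom_zero h0)
  set g : ℝ → F := fun t => ODEFlow.flow β (ball 0 r) (0, t) with hg
  have g0 : g 0 = 0 := ODEFlow.flow_zero isOpen_ball h1 h0
  have gm : ∀ t ∈ ball (0 : ℝ) δ, g t ∈ ball 0 r := fun t ht =>
    ODEFlow.flow_mem isOpen_ball h1 (hs ht)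
  have gs : ContDiffOn ℝ ∞ g (ball 0 δ) :=
    (ODEFlow.contDiffOn_flow (n := ⊤) (by simp) isOpen_ball hβ).comp (by fun_prop) hs
  have hT := (taylor_isLittleO (n := N) (convex_ball (0 : ℝ) δ) (mem_ball_self hδ)
    ((hβ.comp gs gm).of_le (by exact_mod_cast le_top))).bound one_pos
  rw [isOpen_ball.nhdsWithin_eq (mem_ball_self hδ)] at hT
  obtain ⟨δ', hδ', h2⟩ := Metric.eventually_nhds_iff_ball.1 (hT.and (ball_mem_nhds _ hδ))
  refine ⟨δ' / 2, half_pos hδ', g, fun j => (((j + 1).factorial : ℝ))⁻¹ •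
    iteratedDerivWithin j (β ∘ g) (ball 0 δ) 0, g0, by simp [g0], fun t ht => ?_⟩
  obtain ⟨k1, k2⟩ := h2 t (by
    rw [mem_ball_zero_iff, Real.norm_of_nonneg ht.1]; linarith [ht.2])
  refine ⟨gm t k2, ODEFlow.hasDerivAt_flow isOpen_ball h1 (hs k2), ?_⟩
  rw [taylor_within_apply, sub_zero, one_mul, Real.norm_of_nonneg (pow_nonneg ht.1 _)] at k1
  refine le_of_eq_of_le (congrArg (fun x => ‖β (g t) - x‖) ?_) k1
  refine sum_congr rfl fun j _ => ?_
  rw [smul_smul, Nat.factorial_succ]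
  congr 1
  push_cast
  field_simp

theorem b1 (A B : F →L[ℝ] F) (hAB : A * B = 1) {C θ r : ℝ} (hθ0 : 0 ≤ θ) (hθ : θ < 1)
    (hA : ∀ n, ‖A ^ n‖ ≤ C * θ ^ n) (hr : 0 < r) {κ : F → F →L[ℝ] H}
    (hκ : ContinuousOn κ (ball 0 r)) {β : F → F} (hβ : ContDiffOn ℝ ∞ β (ball 0 r))
    (h0 : β 0 ≠ 0) (hκβ : ∀ w ∈ ball (0 : F) r, κ w (β w) = 0)
    (hinv : ∀ w ∈ ball (0 : F) r, A w ∈ ball (0 : F) r → ∀ v, κ (A w) (A v) = 0 → κ w v = 0)
    {ε₀ : ℝ} (hε₀ : 0 < ε₀) : ∃ (N : ℕ) (a : ℕ → F), pw N a 1 ≠ 0 ∧ ∀ τ ∈ Set.Icc (0 : ℝ) 1,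
      ‖pw N a τ‖ ≤ ε₀ ∧ pw N a τ ∈ ball (0 : F) r ∧ κ (pw N a τ) (pw' N a τ) = 0 := by
  have hb : 0 < ‖β 0‖ := norm_pos_iff.2 h0
  have hAv : ∀ n v, ‖(A ^ n) v‖ ≤ C * θ ^ n * ‖v‖ := fun n v =>
    ((A ^ n).le_opNorm v).trans (mul_le_mul_of_nonneg_right (hA n) (norm_nonneg _))
  have hC : 1 ≤ C := by
    have := hAv 0 (β 0)
    simp only [pow_zero, one_apply_eq_self, mul_one] at this
    exact le_of_mul_le_mul_right (by linarith) hb
  have hAB' : ∀ n v, (A ^ n) ((B ^ n) v) = v := fun n => by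
    induction n with
    | zero => simp
    | succ n ih =>
      intro v
      rw [pow_succ, pow_succ', mul_apply_eq_comp, mul_apply_eq_comp,
        ← mul_apply_eq_comp A B, hAB, one_apply_eq_self, ih]
  have back : ∀ n w v, C * ‖w‖ < r → κ ((A ^ n) w) ((A ^ n) v) = 0 → κ w v = 0 := by
    intro n w v hw
    have hm : ∀ j, (A ^ j) w ∈ ball (0 : F) r := fun j => mem_ball_zero_iff.2
      ((hAv j w).trans_lt (lt_of_le_of_lt (mul_le_mul_of_nonneg_right
        (mul_le_of_le_one_right (by linarith) (pow_le_one₀ hθ0 hθ.le)) (norm_nonneg _)) hw))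
    induction n with
    | zero => simp
    | succ n ih =>
      intro h
      have := hm (n + 1)
      rw [pow_succ'] at h this
      exact ih (hinv _ (hm n) this _ h)
  obtain ⟨ε, hε, hε1, hε2⟩ : ∃ ε > 0, ε ≤ ε₀ ∧ C * (2 * ε) < r :=
    ⟨min ε₀ (r / (4 * C)), lt_min hε₀ (by positivity), min_le_left _ _, by
      have := min_le_right ε₀ (r / (4 * C))
      rw [le_div_iff₀ (by positivity)] at this
      nlinarith⟩
  obtain ⟨N, hN⟩ : ∃ N : ℕ, (‖B‖ + 1) * θ ^ (N + 1) < 1 := by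
    have := ((tendsto_pow_atTop_nhds_zero_of_lt_one hθ0 hθ).comp
      (tendsto_add_atTop_nat 1)).const_mul (‖B‖ + 1)
    rw [mul_zero] at this
    exact (this.eventually (gt_mem_nhds one_pos)).exists
  obtain ⟨δ, hδ, g, a, g0, a0, hg⟩ := b1_curve hr hβ N
  -- approximate solutions
  have app : ∀ η > 0, ∃ b : ℕ → F, ∑ j ∈ range (N + 1), ‖b j‖ = ε ∧ ∀ τ ∈ Set.Icc (0 : ℝ) 1,
      ∃ x v, ‖x - pw (N + 1) b τ‖ ≤ η ∧ ‖v - pw' (N + 1) b τ‖ ≤ η ∧ κ x v = 0 := by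
    intro η hη
    set K := ε * C / ‖β 0‖ with hK
    have t1 := (tendsto_pow_atTop_nhds_zero_of_lt_one hθ0 hθ).const_mul K
    have t2 := (tendsto_pow_atTop_nhds_zero_of_lt_one (by positivity) hN).const_mul (K ^ (N + 1))
    rw [mul_zero] at t1 t2
    obtain ⟨n, n1, n2⟩ := ((t1.eventually (gt_mem_nhds hδ)).and
      (t2.eventually (gt_mem_nhds (lt_min hη hε)))).exists
    have hlow : ‖β 0‖ ≤ C * θ ^ n * ‖(B ^ n) (β 0)‖ := by
      have := hAv n ((B ^ n) (β 0))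
      rwa [hAB'] at this
    have hφ : Continuous fun s : ℝ => ∑ j ∈ range (N + 1), ‖s ^ (j + 1) • (B ^ n) (a j)‖ := by
      fun_prop
    have hK0 : 0 ≤ K * θ ^ n := by positivity
    obtain ⟨s, hs, hs'⟩ := intermediate_value_Icc hK0 hφ.continuousOn (show ε ∈ _ from ⟨by simp [hε.le], by
      refine le_trans ?_ (single_le_sum (f := fun j => ‖(K * θ ^ n) ^ (j + 1) • (B ^ n) (a j)‖)
        (fun _ _ => norm_nonneg _) (mem_range.2 (Nat.succ_pos N)))
      simp only [zero_add, pow_one, norm_smul, Real.norm_of_nonneg hK0, a0]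
      rw [hK, div_mul_eq_mul_div, div_mul_eq_mul_div, le_div_iff₀ hb]
      nlinarith [mul_le_mul_of_nonneg_left hlow hε.le]⟩)
    have hst : ∀ τ ∈ Set.Icc (0 : ℝ) 1, s * τ ∈ Set.Icc 0 δ := fun τ hτ =>
      ⟨mul_nonneg hs.1 hτ.1, (mul_le_of_le_one_right hs.1 hτ.2).trans (hs.2.trans n1.le)⟩
    have e1 : ∀ τ, pw (N + 1) (fun j => s ^ (j + 1) • (B ^ n) (a j)) τ =
        (B ^ n) (pw (N + 1) a (s * τ)) := fun τ => by rw [pw_scale]; simp [pw]
    have e2 : ∀ τ, pw' (N + 1) (fun j => s ^ (j + 1) • (B ^ n) (a j)) τ =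
        s • (B ^ n) (pw' (N + 1) a (s * τ)) := fun τ => by rw [pw'_scale]; simp [pw']
    have hv : ∀ τ ∈ Set.Icc (0 : ℝ) 1, ‖s • (B ^ n) (β (g (s * τ))) -
        pw' (N + 1) (fun j => s ^ (j + 1) • (B ^ n) (a j)) τ‖ ≤ min η ε := fun τ hτ => by
      rw [e2, ← smul_sub, ← map_sub, norm_smul, Real.norm_of_nonneg hs.1]
      have k1 : ‖(B ^ n) (β (g (s * τ)) - pw' (N + 1) a (s * τ))‖ ≤ (‖B‖ + 1) ^ n * s ^ N :=
        ((B ^ n).le_opNorm _).trans (mul_le_mul ?_ ((hg _ (hst τ hτ)).2.2.trans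
          (pow_le_pow_left₀ (hst τ hτ).1 (mul_le_of_le_one_right hs.1 hτ.2) N)) (norm_nonneg _)
          (by positivity))
      · have k2 : s ^ (N + 1) ≤ (K * θ ^ n) ^ (N + 1) := pow_le_pow_left₀ hs.1 hs.2 _
        calc _ ≤ s * ((‖B‖ + 1) ^ n * s ^ N) := mul_le_mul_of_nonneg_left k1 hs.1
          _ = (‖B‖ + 1) ^ n * s ^ (N + 1) := by ring
          _ ≤ (‖B‖ + 1) ^ n * (K * θ ^ n) ^ (N + 1) := by gcongr
          _ = K ^ (N + 1) * ((‖B‖ + 1) * θ ^ (N + 1)) ^ n := by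
            rw [mul_pow, mul_pow, ← pow_mul, ← pow_mul, mul_comm n]; ring
          _ ≤ _ := n2.le
      · rcases Nat.eq_zero_or_pos n with rfl | hn
        · rw [pow_zero, pow_zero]
          exact ContinuousLinearMap.norm_id_le
        · exact (norm_pow_le' B hn).trans (pow_le_pow_left₀ (norm_nonneg _) (by linarith) n)
    refine ⟨_, hs', fun τ hτ => ?_⟩
    have hx : ‖(B ^ n) (g (s * τ)) - pw (N + 1) (fun j => s ^ (j + 1) • (B ^ n) (a j)) τ‖ ≤
        min η ε := by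
      have := (convex_Icc (0 : ℝ) 1).norm_image_sub_le_of_norm_hasDerivWithin_le
        (f := fun τ => (B ^ n) (g (s * τ)) - pw (N + 1) (fun j => s ^ (j + 1) • (B ^ n) (a j)) τ)
        (fun t ht => ((((B ^ n).hasFDerivAt.comp_hasDerivAt t ((hg _ (hst t ht)).2.1.scomp t
          ((hasDerivAt_id t).const_mul s))).congr_deriv (by simp)).sub
          (hasDerivAt_pw _ _ t)).hasDerivWithinAt) hv (Set.left_mem_Icc.2 zero_le_one) hτ
      simp only [mul_zero, g0, map_zero, pw_zero, sub_zero, Real.norm_of_nonneg hτ.1] at this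
      exact this.trans (mul_le_of_le_one_right (lt_min hη hε).le hτ.2)
    refine ⟨_, _, hx.trans (min_le_left _ _), (hv τ hτ).trans (min_le_left _ _), back n _ _ ?_ ?_⟩
    · have k1 := norm_pw (N := N + 1) (a := fun j => s ^ (j + 1) • (B ^ n) (a j)) hτ
      have k2 := norm_sub_norm_le ((B ^ n) (g (s * τ)))
        (pw (N + 1) (fun j => s ^ (j + 1) • (B ^ n) (a j)) τ)
      have k3 := min_le_right η ε
      have hs'' : ∑ j ∈ range (N + 1), ‖s ^ (j + 1) • (B ^ n) (a j)‖ = ε := hs'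
      exact lt_of_le_of_lt (mul_le_mul_of_nonneg_left (by linarith) (by linarith)) hε2
    · rw [map_smul, hAB', hAB', map_smul, hκβ _ (hg _ (hst τ hτ)).1, smul_zero]
  choose b hb1 hb2 using fun n : ℕ => app (1 / ((n : ℝ) + 1)) Nat.one_div_pos_of_nat
  obtain ⟨c, -, φ, hφ, hc⟩ := (isCompact_closedBall (0 : Fin (N + 1) → F) ε).tendsto_subseq
    (x := fun n (j : Fin (N + 1)) => b n j) fun n => by
      rw [mem_closedBall_zero_iff, pi_norm_le_iff_of_nonneg hε.le]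
      intro j
      rw [← hb1 n]
      exact single_le_sum (f := fun j => ‖b n j‖) (fun _ _ => norm_nonneg _) (mem_range.2 j.2)
  let a' : ℕ → F := fun j => if h : j < N + 1 then c ⟨j, h⟩ else 0
  have hj : ∀ j ∈ range (N + 1), Tendsto (fun n => b (φ n) j) atTop (𝓝 (a' j)) := fun j hj => by
    simp only [a', dif_pos (mem_range.1 hj)]
    exact tendsto_pi_nhds.1 hc ⟨j, mem_range.1 hj⟩
  have hsum : ∑ j ∈ range (N + 1), ‖a' j‖ = ε :=
    tendsto_nhds_unique (tendsto_finsetSum _ fun j h => (hj j h).norm) (by simp [hb1])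
  have hle : ∀ τ ∈ Set.Icc (0 : ℝ) 1, ‖pw (N + 1) a' τ‖ ≤ ε := fun τ hτ => hsum ▸ norm_pw hτ
  have hball : ∀ τ ∈ Set.Icc (0 : ℝ) 1, pw (N + 1) a' τ ∈ ball (0 : F) r := fun τ hτ =>
    mem_ball_zero_iff.2 ((hle τ hτ).trans_lt (by nlinarith))
  have hk : ∀ τ ∈ Set.Icc (0 : ℝ) 1, κ (pw (N + 1) a' τ) (pw' (N + 1) a' τ) = 0 := fun τ hτ => by
    choose x v h1 h2 h3 using fun n => hb2 (φ n) τ hτ
    have t0 : Tendsto (fun n => 1 / ((φ n : ℝ) + 1)) atTop (𝓝 0) :=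
      tendsto_one_div_add_atTop_nhds_zero_nat.comp hφ.tendsto_atTop
    have tx : Tendsto x atTop (𝓝 (pw (N + 1) a' τ)) := by
      have := (squeeze_zero_norm h1 t0).add
        (tendsto_finsetSum _ fun j h => (hj j h).const_smul (τ ^ (j + 1)))
      simpa [pw] using this
    have tv : Tendsto v atTop (𝓝 (pw' (N + 1) a' τ)) := by
      have := (squeeze_zero_norm h2 t0).add
        (tendsto_finsetSum _ fun j h => (hj j h).const_smul (((j : ℝ) + 1) * τ ^ j))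
      simpa [pw'] using this
    have := (isBoundedBilinearMap_apply.continuous.tendsto (_, _)).comp
      (((hκ.continuousAt (isOpen_ball.mem_nhds (hball τ hτ))).tendsto.comp tx).prodMk_nhds tv)
    exact tendsto_nhds_unique this (by simp [Function.comp_def, h3])
  obtain ⟨j, hj1, hj2⟩ : ∃ j ∈ range (N + 1), a' j ≠ 0 := by
    by_contra hc
    push Not at hc
    rw [sum_eq_zero fun j h => by rw [hc j h, norm_zero]] at hsum
    exact hε.ne hsum
  obtain ⟨s, hs, hs0⟩ := pw_ne (mem_range.1 hj1) hj2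
  refine ⟨N + 1, fun j => s ^ (j + 1) • a' j, by rwa [pw_scale, mul_one], fun τ hτ => ?_⟩
  have hm : s * τ ∈ Set.Icc (0 : ℝ) 1 := ⟨mul_nonneg hs.1 hτ.1, mul_le_one₀ hs.2 hτ.1 hτ.2⟩
  rw [pw_scale, pw'_scale, map_smul, hk _ hm, smul_zero]
  exact ⟨(hle _ hm).trans hε1, hball _ hm, rfl⟩

end Crest.Agent.N221.Fr
end
end

-- ▼ part N221/NB/B1

/-! Row 221, block NB: `LiS` and `B1S`. -/

set_option autoImplicit false

open Set Metric Filter Topology
open scoped ContDiff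

noncomputable section

namespace Crest.Agent.N221.NB

theorem liS' : LiS := by
  intro Z G _ _ _ _ _ _ X U z₀ hU hz hX hi
  obtain ⟨k, hk⟩ := (X z₀ : G →ₗ[ℝ] Z).exists_leftInverse_of_injective (LinearMap.ker_eq_bot.2 hi)
  obtain ⟨V, σ, h1, h2, h3, h4, h5⟩ := Fr.ri Z G G
    (fun z => LinearMap.toContinuousLinearMap k ∘L X z) U z₀ hU hz (contDiffOn_const.clm_comp hX)
    fun g => ⟨g, LinearMap.congr_fun hk g⟩
  refine ⟨V, fun z => σ z ∘L LinearMap.toContinuousLinearMap k, h1, h2, h3,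
    h4.clm_comp contDiffOn_const, fun z hz g => ?_⟩
  exact (LinearMap.injective_iff_surjective
    (f := (LinearMap.toContinuousLinearMap k ∘L X z).toLinearMap)).2
    (fun g => ⟨σ z g, h5 z hz g⟩) (h5 z hz _)

theorem b1S : B1S := by
  intro Z GI Gs Gu _ _ _ _ _ _ _ _ _ _ _ _ Ω U ι ζ ν Dm J z₀ A r hF hJ hz hr hA hA2 hinv
  obtain ⟨V₁, ρ, a1, a2, a3, a4, a5⟩ := liS' Z GI ι U z₀ hF.opn hz hF.sι
    ((injective_iff_map_eq_zero _).2 fun g hg => hF.nd z₀ hz g fun w => by simp [hg])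
  obtain ⟨V, σ, b1, b2, b3, b4, b5⟩ := liS' Z Gs ζ V₁ z₀ a1 a2 (hF.sζ.mono a3) (hF.iζ z₀ hz)
  have hD := hJ.op.mem_nhds (hJ.zero z₀ hz)
  have hc : ContinuousAt (fun w : GI => (z₀, w)) 0 := by fun_prop
  have hJc : ContinuousAt (fun w : GI => J (z₀, w)) 0 :=
    (hJ.sm.contDiffAt hD).continuousAt.comp (f := fun w : GI => (z₀, w)) hc
  obtain ⟨r₁, hr₁, h1⟩ := Metric.eventually_nhds_iff_ball.1 ((hc.eventually hD).and
    (hJc.eventually (b1.mem_nhds (by simpa only [hJ.init z₀ hz] using b2))))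
  have hs : ball (0 : GI) (min r₁ r) ⊆ ball 0 r₁ := ball_subset_ball (min_le_left _ _)
  have hj : ContDiffOn ℝ ∞ (fun w : GI => J (z₀, w)) (ball 0 (min r₁ r)) :=
    hJ.sm.comp (by fun_prop) fun w hw => (h1 w (hs hw)).1
  have hV : MapsTo (fun w : GI => J (z₀, w)) (ball 0 (min r₁ r)) V := fun w hw => (h1 w (hs hw)).2
  have sι := (hF.sι.mono (b3.trans a3)).comp hj hV
  have sζ := (hF.sζ.mono (b3.trans a3)).comp hj hV
  have sρ := (a4.mono b3).comp hj hV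
  have sσ := b4.comp hj hV
  obtain ⟨b, hb⟩ := exists_ne (0 : Gs)
  let κ : GI → GI →L[ℝ] Z := fun w =>
    ι (J (z₀, w)) - ζ (J (z₀, w)) ∘L σ (J (z₀, w)) ∘L ι (J (z₀, w))
  have hκ : ∀ w ∈ ball (0 : GI) (min r₁ r), ∀ v, κ w v = 0 ↔ Tan ι ζ J z₀ w v := fun w hw v =>
    ⟨fun h => ⟨_, sub_eq_zero.1 h⟩, fun ⟨g, hg⟩ => by
      show ι _ v - ζ _ (σ _ (ι _ v)) = 0
      rw [hg, b5 _ (hV hw), sub_self]⟩
  have hβ : ∀ w ∈ ball (0 : GI) (min r₁ r),
      ι (J (z₀, w)) (ρ (J (z₀, w)) (ζ (J (z₀, w)) b)) = ζ (J (z₀, w)) b := fun w hw => by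
    obtain ⟨g, hg⟩ := hF.sub _ (a3 (b3 (hV hw))) b
    rw [hg, a5 _ (b3 (hV hw))]
  have h0 : (0 : GI) ∈ ball (0 : GI) (min r₁ r) := mem_ball_self (lt_min hr₁ hr)
  let e := (LinearEquiv.ofInjectiveEndo (A : GI →ₗ[ℝ] GI) hA).toContinuousLinearEquiv
  have hn : ‖A‖ ≤ 1 / 2 := A.opNorm_le_bound (by norm_num) hA2
  obtain ⟨N, a, k1, k2⟩ := Fr.b1 A (e.symm : GI →L[ℝ] GI)
    (ContinuousLinearMap.ext fun v => e.apply_symm_apply v) (C := 1) (θ := 1 / 2) (by norm_num)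
    (by norm_num) (fun n => by
      rcases _root_.Nat.eq_zero_or_pos n with rfl | h
      · rw [pow_zero, pow_zero, one_mul]
        exact ContinuousLinearMap.norm_id_le
      · rw [one_mul]
        exact (norm_pow_le' A h).trans (pow_le_pow_left₀ (norm_nonneg _) hn n))
    (lt_min hr₁ hr) (κ := κ) (sι.sub (sζ.clm_comp (sσ.clm_comp sι))).continuousOn
    (β := fun w => ρ (J (z₀, w)) (ζ (J (z₀, w)) b))
    (sρ.clm_apply (sζ.clm_apply contDiffOn_const))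
    (fun h => hb (hF.iζ _ (a3 (b3 (hV h0))) (by rw [← hβ 0 h0, h, map_zero, map_zero])))
    (fun w hw => (hκ w hw _).2 ⟨b, hβ w hw⟩)
    (fun w hw hw' v h => (hκ w hw v).2 (hinv w v
      ((mem_ball_zero_iff.1 hw).trans_le (min_le_right _ _)) ((hκ _ hw' _).1 h))) one_pos
  refine ⟨N, Fr.pw N a, ⟨fun i => _root_.Nat.casesOn i 0 a, fun τ => ?_⟩, Fr.pw_zero N a, k1,
    fun τ hτ => ⟨(mem_ball_zero_iff.1 (k2 τ hτ).2.1).trans_le (min_le_right _ _), ?_⟩⟩
  · rw [Finset.sum_range_succ']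
    simp [Fr.pw]
  · rw [(Fr.hasDerivAt_pw N a τ).deriv]
    exact (hκ _ (k2 τ hτ).2.1 _).1 (k2 τ hτ).2.2

end Crest.Agent.N221.NB
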